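import Vale.Agent.P352.MathlibUsed
import Vale.Agent.P352.GFDefs

set_option linter.all false

section

/-!
Basic analysis definitions for P352 (generalized free trace).
-/

open MeasureTheory SchwartzMap
open scoped SchwartzMap ComplexConjugate

namespace Vale.Agent.P352

/-- Minkowski space as a real coordinate space, `x 0` is time. -/
abbrev Mink := EuclideanSpace ℝ (Fin 4)

/-- Minkowski product, signature `(+,-,-,-)`. -/
noncomputable def mdot (x y : Mink) : ℝ :=
  x 0 * y 0 - x 1 * y 1 - x 2 * y 2 - x 3 * y 3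

/-- Closed forward cone. -/
def fwdCone : Set Mink := {p | 0 ≤ p 0 ∧ 0 ≤ mdot p p}

/-- `f^(p) = ∫ e^{i p.x} f(x) dx`. -/
noncomputable def mft (f : 𝓢(Mink, ℂ)) (p : Mink) : ℂ :=
  ∫ x, Complex.exp (Complex.I * (mdot p x : ℂ)) * f x

/-- Complex conjugate of a test function. -/
noncomputable def conjS (f : 𝓢(Mink, ℂ)) : 𝓢(Mink, ℂ) :=
  SchwartzMap.postcompCLM (𝕜 := ℝ) (Complex.conjCLE : ℂ →L[ℝ] ℂ) f

@[simp] lemma conjS_apply (f : 𝓢(Mink, ℂ)) (x : Mink) : conjS f x = conj (f x) := by
  simp only [conjS, postcompCLM_apply, ContinuousLinearEquiv.coe_coe, ContinuousAlgEquiv.coeCLE_apply, Complex.conjCAE_apply]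

/-- The right wedge. -/
def wedge : Set Mink := {x | |x 0| < x 1}

/-- Test functions: compactly supported in an open set. -/
def IsTest (W : Set Mink) (f : 𝓢(Mink, ℂ)) : Prop :=
  HasCompactSupport f ∧ tsupport f ⊆ W

/-- Boost in the 1-direction. -/
noncomputable def boost (t : ℝ) (p : Mink) : Mink :=
  WithLp.toLp 2 ![p 0 * Real.cosh t + p 1 * Real.sinh t,
    p 0 * Real.sinh t + p 1 * Real.cosh t, p 2, p 3]

/-- Rotation by `π` in the 2-3-plane. -/
noncomputable def rotPi (p : Mink) : Mink :=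
  WithLp.toLp 2 ![p 0, p 1, - p 2, - p 3]

end Vale.Agent.P352
end

section

section

open MeasureTheory Complex Filter Topology Metric

namespace Vale.Agent.P352

theorem differentiableAt_integral {α : Type*} [MeasurableSpace α] {μ : Measure α} {U : Set ℂ}
    (hU : IsOpen U) {F : ℂ → α → ℂ} {bound : α → ℝ}
    (hmeas : ∀ z ∈ U, AEStronglyMeasurable (F z) μ)
    (hdiff : ∀ᵐ a ∂μ, DifferentiableOn ℂ (fun z => F z a) U)
    (hb : ∀ᵐ a ∂μ, ∀ z ∈ U, ‖F z a‖ ≤ bound a) (hbi : Integrable bound μ) {z₀ : ℂ}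
    (hz₀ : z₀ ∈ U) : DifferentiableAt ℂ (fun z => ∫ a, F z a ∂μ) z₀ := by
  obtain ⟨r, hr, hball⟩ := Metric.isOpen_iff.1 hU z₀ hz₀
  set ρ := r / 3 with hρ
  have hρ0 : 0 < ρ := by (clear * - hr; positivity)
  have hsub : ∀ z ∈ ball z₀ ρ, closedBall z ρ ⊆ U := by
    intro z hz w hw
    apply hball
    rw [mem_ball] at *
    rw [mem_closedBall] at hw
    calc dist w z₀ ≤ dist w z + dist z z₀ := dist_triangle _ _ _
      _ < r := by linarith only [hρ, hρ0, hz, hw]
  have hmem : ∀ z ∈ ball z₀ ρ, z ∈ U := fun z hz => hsub z hz (mem_closedBall_self hρ0.le)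
  -- measurability of the derivative
  have hF'meas : AEStronglyMeasurable (fun a => deriv (fun z => F z a) z₀) μ := by
    set u : ℕ → ℂ := fun n => ((ρ / 2 / (n + 1) : ℝ) : ℂ) with hu
    have hu0 : ∀ n, u n ≠ 0 := by
      intro n
      simp only [hu, ne_eq, ofReal_eq_zero]
      (clear * - hr; (clear * - hr; positivity))
    have hulim : Tendsto u atTop (𝓝 0) := by
      have : Tendsto (fun n : ℕ => (ρ / 2 / (n + 1) : ℝ)) atTop (𝓝 0) := by
        have := tendsto_const_div_atTop_nhds_zero_nat (ρ / 2)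
        exact (tendsto_const_div_atTop_nhds_zero_nat (ρ / 2)).comp (tendsto_add_atTop_nat 1) |>.congr
          (fun n => by simp only [Function.comp_apply, Nat.cast_add, Nat.cast_one])
      have h2 := (continuous_ofReal.tendsto 0).comp this
      rw [ofReal_zero] at h2
      exact h2
    have humem : ∀ n, z₀ + u n ∈ U := by
      intro n
      apply hmem
      rw [mem_ball, dist_eq_norm, add_sub_cancel_left, hu]
      simp only [norm_real, Real.norm_eq_abs]
      rw [abs_of_pos (by (clear * - hr; (clear * - hr; positivity)))]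
      have : (1 : ℝ) ≤ n + 1 := by linarith only []
      calc ρ / 2 / (n + 1) ≤ ρ / 2 := div_le_self (by positivity) this
        _ < ρ := by linarith only [hρ0]
    refine aestronglyMeasurable_of_tendsto_ae (f := fun n a => (u n)⁻¹ • (F (z₀ + u n) a - F z₀ a))
      atTop (fun n => ?_) ?_
    · exact ((hmeas _ (humem n)).sub (hmeas _ hz₀)).const_smul ((u n)⁻¹)
    · filter_upwards [hdiff] with a ha
      have hd : HasDerivAt (fun z => F z a) (deriv (fun z => F z a) z₀) z₀ :=
        (ha.differentiableAt (hU.mem_nhds hz₀)).hasDerivAt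
      have := hd.tendsto_slope_zero
      refine this.comp ?_
      rw [tendsto_nhdsWithin_iff]
      exact ⟨hulim, Eventually.of_forall fun n => hu0 n⟩
  have key := hasDerivAt_integral_of_dominated_loc_of_deriv_le (μ := μ) (F := F)
    (F' := fun z a => deriv (fun z => F z a) z) (x₀ := z₀) (s := ball z₀ ρ)
    (bound := fun a => bound a / ρ) (ball_mem_nhds z₀ hρ0) ?_ ?_ hF'meas ?_ ?_ ?_
  · exact key.2.differentiableAt
  · filter_upwards [ball_mem_nhds z₀ hρ0] with z hz using hmeas z (hmem z hz)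
  · refine Integrable.mono' hbi (hmeas _ hz₀) ?_
    filter_upwards [hb] with a ha using ha _ hz₀
  · filter_upwards [hb, hdiff] with a ha hd z hz
    apply norm_deriv_le_of_forall_mem_sphere_norm_le hρ0
    · apply DifferentiableOn.diffContOnCl
      rw [closure_ball _ hρ0.ne']
      exact hd.mono (hsub z hz)
    · intro w hw
      exact ha w (hsub z hz (sphere_subset_closedBall hw))
  · exact hbi.div_const _
  · filter_upwards [hdiff] with a hd z hz
    exact (hd.differentiableAt (hU.mem_nhds (hmem z hz))).hasDerivAt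

end Vale.Agent.P352
end
end

section

section

open MeasureTheory Complex Filter Topology Set

namespace Vale.Agent.P352

/-- the closed strip -/
def cstrip : Set ℂ := {z | -Real.pi ≤ z.im ∧ z.im ≤ 0}
/-- the open strip -/
def ostrip : Set ℂ := {z | -Real.pi < z.im ∧ z.im < 0}

lemma norm_gauss (s : ℝ) (z : ℂ) :
    ‖exp (-(s : ℂ) * z ^ 2)‖ = Real.exp (-s * z.re ^ 2 + s * z.im ^ 2) := by
  rw [norm_exp]
  congr 1
  simp only [pow_two, neg_mul, neg_re, mul_re, ofReal_re, ofReal_im, mul_im, zero_mul, sub_zero]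
  ring

theorem strip_shift (b : ℂ → ℂ) (hc : ContinuousOn b cstrip) (hd : DifferentiableOn ℂ b ostrip)
    {M : ℝ} (hb : ∀ z ∈ cstrip, ‖b z‖ ≤ M) {s : ℝ} (hs : 0 < s) :
    ∫ t : ℝ, exp (-(s : ℂ) * (t : ℂ) ^ 2) * b (t - Real.pi * I) =
      ∫ t : ℝ, exp (-(s : ℂ) * ((t : ℂ) + Real.pi * I) ^ 2) * b t := by
  have hpi := Real.pi_pos
  have hM : 0 ≤ M := (norm_nonneg _).trans (hb 0 ⟨by simp [hpi.le], by simp⟩)
  set G : ℂ → ℂ := fun z => exp (-(s : ℂ) * (z + Real.pi * I) ^ 2) * b z with hG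
  have hGc : ContinuousOn G cstrip := by
    apply ContinuousOn.mul _ hc
    exact (by fun_prop : Continuous fun z : ℂ => exp (-(s : ℂ) * (z + Real.pi * I) ^ 2)).continuousOn
  have hGd : DifferentiableOn ℂ G ostrip := by
    apply DifferentiableOn.mul _ hd
    exact (by fun_prop : Differentiable ℂ
      fun z : ℂ => exp (-(s : ℂ) * (z + Real.pi * I) ^ 2)).differentiableOn
  have hGn : ∀ z ∈ cstrip, ‖G z‖ ≤ M * Real.exp (s * Real.pi ^ 2) * Real.exp (-s * z.re ^ 2) := by
    intro z hz
    rw [hG]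
    simp only []
    rw [norm_mul, norm_gauss]
    have h1 : (z + Real.pi * I).re = z.re := by simp
    have h2 : (z + Real.pi * I).im = z.im + Real.pi := by simp
    rw [h1, h2, Real.exp_add]
    have h3 : Real.exp (s * (z.im + Real.pi) ^ 2) ≤ Real.exp (s * Real.pi ^ 2) := by
      apply Real.exp_le_exp.2
      apply mul_le_mul_of_nonneg_left _ hs.le
      apply pow_le_pow_left₀ (by linarith [hz.1]) (by linarith [hz.2])
    calc Real.exp (-s * z.re ^ 2) * Real.exp (s * (z.im + Real.pi) ^ 2) * ‖b z‖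
        ≤ Real.exp (-s * z.re ^ 2) * Real.exp (s * Real.pi ^ 2) * M := by
          gcongr
          exact hb z hz
      _ = _ := by ring
  have hmem1 : ∀ t : ℝ, ((t : ℂ) - Real.pi * I) ∈ cstrip := fun t => by
    constructor <;> simp [hpi.le]
  have hmem2 : ∀ t : ℝ, (t : ℂ) ∈ cstrip := fun t => by
    constructor <;> simp [hpi.le]
  have hint : ∀ (γ : ℝ → ℂ), Continuous γ → (∀ t, γ t ∈ cstrip) → (∀ t, (γ t).re = t) →
      Integrable (fun t => G (γ t)) := by
    intro γ hγ hmem hre
    have hcont : Continuous fun t => G (γ t) := by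
      rw [continuous_iff_continuousAt]
      intro t
      have := (hGc.comp_continuous hγ hmem)
      exact this.continuousAt
    refine Integrable.mono' ((integrable_exp_neg_mul_sq hs).const_mul
      (M * Real.exp (s * Real.pi ^ 2))) hcont.aestronglyMeasurable ?_
    refine Eventually.of_forall fun t => ?_
    have := hGn (γ t) (hmem t)
    rwa [hre t] at this
  have hI1 : Integrable (fun t : ℝ => G ((t : ℂ) - Real.pi * I)) :=
    hint _ (by fun_prop) hmem1 (fun t => by simp)
  have hI2 : Integrable (fun t : ℝ => G (t : ℂ)) :=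
    hint _ (by fun_prop) hmem2 (fun t => by simp)
  have e1 : ∀ t : ℝ, exp (-(s : ℂ) * (t : ℂ) ^ 2) * b (t - Real.pi * I) =
      G ((t : ℂ) - Real.pi * I) := by
    intro t; simp [hG]
  simp_rw [e1]
  change ∫ t : ℝ, G ((t : ℂ) - Real.pi * I) = ∫ t : ℝ, G (t : ℂ)
  -- rectangle identity
  have hrect : ∀ T : ℝ, 0 < T →
      (∫ x : ℝ in (-T)..T, G ((x : ℂ) - Real.pi * I)) - (∫ x : ℝ in (-T)..T, G (x : ℂ)) +
      I • (∫ y : ℝ in (-Real.pi)..0, G ((T : ℂ) + y * I)) -
      I • (∫ y : ℝ in (-Real.pi)..0, G (((-T : ℝ) : ℂ) + y * I)) = 0 := by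
    intro T hT
    have key := integral_boundary_rect_eq_zero_of_continuousOn_of_differentiableOn G
      (⟨-T, -Real.pi⟩ : ℂ) (⟨T, 0⟩ : ℂ) ?_ ?_
    · simp only [ofReal_zero, zero_mul, add_zero] at key
      have h1 : ∀ x : ℝ, (x : ℂ) + ((-Real.pi : ℝ) : ℂ) * I = (x : ℂ) - Real.pi * I := by
        intro x; push_cast; ring
      simp_rw [h1] at key
      exact key
    · refine hGc.mono ?_
      intro z hz
      rw [mem_reProdIm] at hz
      have := hz.2
      rw [uIcc_of_le (by simpa using hpi.le)] at this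
      exact this
    · refine hGd.mono ?_
      intro z hz
      rw [mem_reProdIm] at hz
      have := hz.2
      simp only [min_eq_left (show (-Real.pi) ≤ 0 by linarith),
        max_eq_right (show (-Real.pi) ≤ 0 by linarith)] at this
      exact this
  have hvert : ∀ σ : ℝ, (σ = 1 ∨ σ = -1) →
      Tendsto (fun T : ℝ => ∫ y : ℝ in (-Real.pi)..0, G (((σ * T : ℝ) : ℂ) + y * I)) atTop (𝓝 0) := by
    intro σ hσ
    rw [tendsto_zero_iff_norm_tendsto_zero]
    have hbound : ∀ T : ℝ, ‖∫ y : ℝ in (-Real.pi)..0, G (((σ * T : ℝ) : ℂ) + y * I)‖ ≤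
        (M * Real.exp (s * Real.pi ^ 2) * Real.exp (-s * T ^ 2)) * |0 - (-Real.pi)| := by
      intro T
      apply intervalIntegral.norm_integral_le_of_norm_le_const
      intro y hy
      rw [uIoc_of_le (by linarith)] at hy
      have hm : (((σ * T : ℝ) : ℂ) + y * I) ∈ cstrip := by
        constructor
        · simp; linarith [hy.1]
        · simp; exact hy.2
      have := hGn _ hm
      have hre : (((σ * T : ℝ) : ℂ) + y * I).re ^ 2 = T ^ 2 := by
        rcases hσ with rfl | rfl <;> simp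
      rwa [hre] at this
    refine squeeze_zero (fun _ => norm_nonneg _) hbound ?_
    have h0 : Tendsto (fun T : ℝ => Real.exp (-s * T ^ 2)) atTop (𝓝 0) := by
      apply Real.tendsto_exp_atBot.comp
      have : Tendsto (fun T : ℝ => T ^ 2) atTop atTop := tendsto_pow_atTop (by norm_num)
      exact this.const_mul_atTop_of_neg (by linarith : -s < 0)
    have := (h0.const_mul (M * Real.exp (s * Real.pi ^ 2))).mul_const |0 - (-Real.pi)|
    simpa using this
  have lim1 : Tendsto (fun T : ℝ => ∫ x : ℝ in (-T)..T, G ((x : ℂ) - Real.pi * I)) atTop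
      (𝓝 (∫ t : ℝ, G ((t : ℂ) - Real.pi * I))) :=
    intervalIntegral_tendsto_integral hI1 tendsto_neg_atTop_atBot tendsto_id
  have lim2 : Tendsto (fun T : ℝ => ∫ x : ℝ in (-T)..T, G (x : ℂ)) atTop
      (𝓝 (∫ t : ℝ, G (t : ℂ))) :=
    intervalIntegral_tendsto_integral hI2 tendsto_neg_atTop_atBot tendsto_id
  have lim3 := (hvert 1 (Or.inl rfl)).const_smul I
  have lim4 := (hvert (-1) (Or.inr rfl)).const_smul I
  have lim := ((lim1.sub lim2).add lim3).sub lim4
  have hzero : Tendsto (fun _ : ℝ => (0 : ℂ)) atTop (𝓝 0) := tendsto_const_nhds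
  have huniq := tendsto_nhds_unique (lim.congr' ?_) hzero
  · simp only [smul_zero, add_zero, sub_zero] at huniq
    exact sub_eq_zero.1 huniq
  · filter_upwards [eventually_gt_atTop (0 : ℝ)] with T hT
    have := hrect T hT
    simp only [one_mul, neg_mul] at this ⊢
    exact this

end Vale.Agent.P352
end
end

section

section

open MeasureTheory Complex Filter Topology Set

namespace Vale.Agent.P352

/-- the exponential `e^{iπw/2}` -/
noncomputable def hexp (w : ℂ) : ℂ := exp ((Real.pi / 2 : ℝ) * I * w)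

/-- the auxiliary map from the vertical strip to the half disc -/
noncomputable def hmap (c d : ℝ) (w : ℂ) : ℂ :=
  c + d * ((hexp w - 1) / (hexp w + 1))

lemma hexp_re (w : ℂ) : (hexp w).re =
    Real.exp (-(Real.pi / 2 * w.im)) * Real.cos (Real.pi / 2 * w.re) := by
  rw [hexp, exp_re]
  simp only [ofReal_div, ofReal_ofNat, mul_re, div_ofNat_re, ofReal_re, I_re, mul_zero, div_ofNat_im, ofReal_im, zero_div, I_im, mul_one, sub_self, zero_mul, mul_im, add_zero, zero_sub, zero_add]

lemma hexp_im (w : ℂ) : (hexp w).im =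
    Real.exp (-(Real.pi / 2 * w.im)) * Real.sin (Real.pi / 2 * w.re) := by
  rw [hexp, exp_im]
  simp only [ofReal_div, ofReal_ofNat, mul_re, div_ofNat_re, ofReal_re, I_re, mul_zero,
    div_ofNat_im, ofReal_im, zero_div, I_im, mul_one, sub_self, zero_mul, mul_im, add_zero,
    zero_sub, zero_add]

lemma hexp_re_nonneg {w : ℂ} (h0 : 0 ≤ w.re) (h1 : w.re ≤ 1) : 0 ≤ (hexp w).re := by
  rw [hexp_re]
  apply mul_nonneg (Real.exp_pos _).le
  apply Real.cos_nonneg_of_mem_Icc
  constructor <;> nlinarith only [Real.pi_pos, h0, h1]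

lemma hexp_im_nonneg {w : ℂ} (h0 : 0 ≤ w.re) (h1 : w.re ≤ 1) : 0 ≤ (hexp w).im := by
  rw [hexp_im]
  apply mul_nonneg (Real.exp_pos _).le
  apply Real.sin_nonneg_of_nonneg_of_le_pi
  · have := Real.pi_pos; (clear * - h0; positivity)
  · nlinarith only [Real.pi_pos, h1]

lemma hexp_im_pos {w : ℂ} (h0 : 0 < w.re) (h1 : w.re < 1) : 0 < (hexp w).im := by
  rw [hexp_im]
  apply mul_pos (Real.exp_pos _)
  apply Real.sin_pos_of_pos_of_lt_pi
  · have := Real.pi_pos; positivity
  · nlinarith only [Real.pi_pos, h1]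

lemma hexp_add_ne {w : ℂ} (h0 : 0 ≤ w.re) (h1 : w.re ≤ 1) : hexp w + 1 ≠ 0 := by
  intro h
  have := congrArg Complex.re h
  have h2 := hexp_re_nonneg h0 h1
  simp only [add_re, one_re, zero_re] at this
  linarith only [this, h2]

lemma hmap_im (c d : ℝ) {w : ℂ} (h0 : 0 ≤ w.re) (h1 : w.re ≤ 1) :
    (hmap c d w).im = d * (2 * (hexp w).im / normSq (hexp w + 1)) := by
  have hne := hexp_add_ne h0 h1
  have h2 : normSq (hexp w + 1) ≠ 0 := (normSq_pos.2 hne).ne'
  have key : ((hexp w - 1) / (hexp w + 1)).im = 2 * (hexp w).im / normSq (hexp w + 1) := by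
    rw [div_im]
    simp only [sub_im, one_im, sub_zero, add_re, one_re, sub_re, add_im, add_zero]
    field_simp
    ring
  rw [hmap, add_im, ofReal_im, zero_add, im_ofReal_mul, key]

lemma continuous_hexp : Continuous hexp := by
  unfold hexp; (clear * -; fun_prop)

lemma differentiable_hexp : Differentiable ℂ hexp := by
  unfold hexp; (clear * -; fun_prop)

/-- real interval on the left edge -/
lemma hmap_left (c d : ℝ) (hd : 0 < d) {w : ℂ} (hw : w.re = 0) :
    ∃ t : ℝ, c - d < t ∧ t < c + d ∧ hmap c d w = t := by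
  set r := Real.exp (-(Real.pi / 2 * w.im)) with hr
  have hr0 : 0 < r := Real.exp_pos _
  have h1 : hexp w = (r : ℂ) := by
    apply Complex.ext
    · rw [hexp_re, hw, ← hr, mul_zero, Real.cos_zero, mul_one, ofReal_re]
    · rw [hexp_im, hw, mul_zero, Real.sin_zero, mul_zero, ofReal_im]
  refine ⟨c + d * ((r - 1) / (r + 1)), ?_, ?_, ?_⟩
  · have : -1 < (r - 1) / (r + 1) := by
      rw [lt_div_iff₀ (by linarith only [hr0])]; linarith only [hr0]
    nlinarith only [hd, this]
  · have : (r - 1) / (r + 1) < 1 := by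
      rw [div_lt_iff₀ (by linarith only [hr0])]; linarith
    nlinarith only [hd, this]
  · rw [hmap, h1]; push_cast; ring

/-- points `c + i y` are hit -/
lemma hmap_hit (c d : ℝ) (hd : 0 < d) {y : ℝ} (hy0 : 0 < y) (hy1 : y < d) :
    ∃ w : ℂ, 0 < w.re ∧ w.re < 1 ∧ hmap c d w = c + y * I := by
  set θ := Real.arctan (y / d) with hθ
  have hθ0 : 0 < θ := Real.arctan_pos.2 (by positivity)
  have hθ1 : θ < Real.pi / 4 := by
    rw [← Real.arctan_one]
    exact Real.arctan_strictMono ((div_lt_one hd).2 hy1)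
  have hpi := Real.pi_pos
  refine ⟨((4 / Real.pi * θ : ℝ) : ℂ), ?_, ?_, ?_⟩
  · simp only [ofReal_re]; positivity
  · simp only [ofReal_re]
    rw [div_mul_eq_mul_div, div_lt_one hpi]; linarith only [hθ1]
  · have h1 : hexp ((4 / Real.pi * θ : ℝ) : ℂ) = exp (2 * θ * I) := by
      unfold hexp
      congr 1
      push_cast
      have : (Real.pi : ℂ) ≠ 0 := by exact_mod_cast hpi.ne'
      field_simp
      ring
    have hcos : Real.cos θ ≠ 0 := (Real.cos_arctan_pos _).ne'
    have htan : Real.sin θ = y / d * Real.cos θ := by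
      have := Real.tan_arctan (y / d)
      rw [← hθ, Real.tan_eq_sin_div_cos] at this
      field_simp at this ⊢
      linarith only [this]
    have h2 : exp (2 * θ * I) = (Real.cos θ + Real.sin θ * I) ^ 2 := by
      have : (2 * θ * I : ℂ) = θ * I + θ * I := by ring
      rw [this, Complex.exp_add, exp_mul_I, ofReal_cos, ofReal_sin]
      ring
    have hI : I ^ 2 = -1 := I_sq
    have hsc : (Real.sin θ : ℂ) ^ 2 + (Real.cos θ : ℂ) ^ 2 = 1 := by
      exact_mod_cast Real.sin_sq_add_cos_sq θ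
    have h3 : (Real.cos θ + Real.sin θ * I : ℂ) ^ 2 + 1 =
        2 * Real.cos θ * (Real.cos θ + Real.sin θ * I) := by
      linear_combination (-1 : ℂ) * hsc + (Real.sin θ : ℂ) ^ 2 * hI
    have h4 : (Real.cos θ + Real.sin θ * I : ℂ) ^ 2 - 1 =
        2 * (Real.sin θ * I) * (Real.cos θ + Real.sin θ * I) := by
      linear_combination (hsc - 2 * (Real.sin θ : ℂ) ^ 2 * hI + (Real.sin θ : ℂ) ^ 2 * hI)
    have hne : (Real.cos θ + Real.sin θ * I : ℂ) ≠ 0 := by
      intro h
      have := congrArg Complex.re h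
      simp [-ofReal_cos, -ofReal_sin] at this
      exact hcos this
    have hc' : (Real.cos θ : ℂ) ≠ 0 := by exact_mod_cast hcos
    have hd' : (d : ℂ) ≠ 0 := by exact_mod_cast hd.ne'
    have htan' : (Real.sin θ : ℂ) = y / d * Real.cos θ := by rw [htan]; push_cast; ring
    rw [hmap, h1, h2, h3, h4]
    have h5 : 2 * ((Real.sin θ : ℂ) * I) * (Real.cos θ + Real.sin θ * I) /
        (2 * Real.cos θ * (Real.cos θ + Real.sin θ * I)) = y / d * I := by
      rw [mul_div_mul_right _ _ hne]
      rw [htan']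
      (clear * - hc' hd'; (clear * - hc' hd'; field_simp))
    rw [h5]
    (clear * - hd'; field_simp)

/-- A bounded function, continuous on the closed upper half plane and holomorphic on the open
upper half plane, which vanishes on a real interval, vanishes identically. -/
theorem halfplane_unique (G : ℂ → ℂ) (hc : ContinuousOn G {z | 0 ≤ z.im})
    (hd : DifferentiableOn ℂ G {z | 0 < z.im})
    (hb : ∃ M, ∀ z : ℂ, 0 ≤ z.im → ‖G z‖ ≤ M) (a b : ℝ) (hab : a < b)
    (hz : ∀ t : ℝ, a < t → t < b → G (t : ℂ) = 0) :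
    ∀ z : ℂ, 0 ≤ z.im → G z = 0 := by
  obtain ⟨M, hM⟩ := hb
  set c := (a + b) / 2 with hcdef
  set d := (b - a) / 2 with hddef
  have hd0 : 0 < d := by rw [hddef]; linarith only [hab]
  have hUo : IsOpen {z : ℂ | 0 < z.im} := isOpen_lt continuous_const continuous_im
  -- continuity of hmap on the closed strip
  have hmapc : ContinuousOn (hmap c d) (HadamardThreeLines.verticalClosedStrip 0 1) := by
    unfold hmap
    apply ContinuousOn.add continuousOn_const
    apply ContinuousOn.mul continuousOn_const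
    apply ContinuousOn.div
    · exact (continuous_hexp.sub continuous_const).continuousOn
    · exact (continuous_hexp.add continuous_const).continuousOn
    · intro w hw
      exact hexp_add_ne hw.1 hw.2
  have hmapmem : ∀ w ∈ HadamardThreeLines.verticalClosedStrip 0 1, hmap c d w ∈ {z : ℂ | 0 ≤ z.im} := by
    intro w hw
    change 0 ≤ (hmap c d w).im
    rw [hmap_im c d hw.1 hw.2]
    have := hexp_im_nonneg hw.1 hw.2
    have := normSq_nonneg (hexp w + 1)
    (clear G hc hd hz M hM c hcdef hddef hd0 hUo hmapc; positivity)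
  have hmapmem' : ∀ w ∈ HadamardThreeLines.verticalStrip 0 1, hmap c d w ∈ {z : ℂ | 0 < z.im} := by
    intro w hw
    change 0 < (hmap c d w).im
    rw [hmap_im c d hw.1.le hw.2.le]
    have := hexp_im_pos hw.1 hw.2
    have := normSq_pos.2 (hexp_add_ne hw.1.le hw.2.le)
    (clear G hc hd hz M hM c hcdef hddef hd0 hUo hmapc hmapmem; positivity)
  have hzero : ∀ w : ℂ, 0 < w.re → w.re < 1 → G (hmap c d w) = 0 := by
    intro w hw0 hw1
    have key := HadamardThreeLines.norm_le_interp_of_mem_verticalClosedStrip₀₁'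
      (fun w => G (hmap c d w)) (z := w) (a := 0) (b := M) ⟨hw0.le, hw1.le⟩ ?_ ?_ ?_ ?_
    · rw [Real.zero_rpow (by linarith only [hw1]), zero_mul] at key
      exact norm_le_zero_iff.1 key
    · refine ⟨?_, ?_⟩
      · refine hd.comp ?_ hmapmem'
        intro w hw
        apply DifferentiableAt.differentiableWithinAt
        unfold hmap
        apply DifferentiableAt.const_add
        apply DifferentiableAt.const_mul
        apply DifferentiableAt.div
        · exact (differentiable_hexp w).sub_const 1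
        · exact (differentiable_hexp w).add_const 1
        · exact hexp_add_ne hw.1.le hw.2.le
      · have hcl : closure (HadamardThreeLines.verticalStrip 0 1) ⊆
            HadamardThreeLines.verticalClosedStrip 0 1 := by
          apply closure_minimal
          · intro z hz; exact ⟨hz.1.le, hz.2.le⟩
          · exact isClosed_Icc.preimage continuous_re
        exact (hc.comp hmapc hmapmem).mono hcl
    · refine ⟨M, ?_⟩
      rintro _ ⟨w, hw, rfl⟩
      exact hM _ (hmapmem w hw)
    · intro w hw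
      obtain ⟨t, h1, h2, h3⟩ := hmap_left c d hd0 (w := w) hw
      change ‖G (hmap c d w)‖ ≤ 0
      rw [h3, hz t (by linarith only [hcdef, hddef, h1]) (by linarith), norm_zero]
    · intro w hw
      apply hM
      apply hmapmem
      have hw' : w.re = 1 := hw
      exact ⟨by rw [hw']; norm_num, by rw [hw']⟩
  have hzero' : ∀ y : ℝ, 0 < y → y < d → G (c + y * I) = 0 := by
    intro y h0 h1
    obtain ⟨w, hw0, hw1, hw2⟩ := hmap_hit c d hd0 h0 h1
    rw [← hw2]; exact hzero w hw0 hw1
  -- identity theorem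
  have hopen : ∀ z : ℂ, 0 < z.im → G z = 0 := by
    have han : AnalyticOnNhd ℂ G {z | 0 < z.im} := hd.analyticOnNhd hUo
    have hpre : IsPreconnected {z : ℂ | 0 < z.im} := by
      apply Convex.isPreconnected
      exact convex_halfSpace_im_gt 0
    have hz0 : ((c : ℂ) + (d / 2 : ℝ) * I) ∈ {z : ℂ | 0 < z.im} := by
      simp only [ofReal_div, ofReal_ofNat, mem_ofPred_eq, add_im, ofReal_im, mul_im, div_ofNat_re,
        ofReal_re, I_im, mul_one, div_ofNat_im, zero_div, I_re, mul_zero, add_zero, zero_add,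
        Nat.ofNat_pos, div_pos_iff_of_pos_right]; exact hd0
    have hfreq : ∃ᶠ z in 𝓝[≠] ((c : ℂ) + (d / 2 : ℝ) * I), G z = 0 := by
      have htend : Tendsto (fun n : ℕ => (c : ℂ) + ((d / 2 + d / 2 / (n + 2) : ℝ) : ℂ) * I) atTop
          (𝓝[≠] ((c : ℂ) + (d / 2 : ℝ) * I)) := by
        rw [tendsto_nhdsWithin_iff]
        constructor
        · have h1 : Tendsto (fun n : ℕ => (d / 2 + d / 2 / (n + 2) : ℝ)) atTop (𝓝 (d / 2 + 0)) := by
            apply Tendsto.const_add
            have := (tendsto_const_div_atTop_nhds_zero_nat (d / 2)).comp (tendsto_add_atTop_nat 2)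
            exact this.congr (fun n => by simp only [Function.comp_apply, Nat.cast_add,
                                            Nat.cast_ofNat])
          rw [add_zero] at h1
          have h2 := (continuous_ofReal.tendsto (d / 2)).comp h1
          exact (h2.mul_const I).const_add (c : ℂ)
        · refine Eventually.of_forall fun n => ?_
          simp only [mem_compl_iff, mem_singleton_iff]
          intro h
          have := congrArg Complex.im h
          simp only [add_im, ofReal_im, mul_im, ofReal_re, I_im, mul_one, I_re, mul_zero,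
            add_zero, zero_add] at this
          have hpos : 0 < d / 2 / ((n : ℝ) + 2) := by (clear * - hab; (clear * - hab; positivity))
          linarith only [this, hpos]
      apply htend.frequently
      apply Eventually.frequently
      refine Eventually.of_forall fun n => ?_
      apply hzero'
      · (clear * - hab; positivity)
      · have : d / 2 / ((n : ℝ) + 2) < d / 2 := by
          apply div_lt_self (by positivity)
          have := Nat.cast_nonneg (α := ℝ) n
          linarith only []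
        linarith only [this]
    exact han.eqOn_zero_of_preconnected_of_frequently_eq_zero hpre hz0 hfreq
  intro z hz'
  rcases hz'.lt_or_eq with h | h
  · exact hopen z h
  · -- boundary
    have hcw : ContinuousWithinAt G {z | 0 ≤ z.im} z := hc z hz'
    have htend : Tendsto (fun n : ℕ => z + ((1 / ((n : ℝ) + 1) : ℝ) : ℂ) * I) atTop
        (𝓝[{z | 0 ≤ z.im}] z) := by
      rw [tendsto_nhdsWithin_iff]
      constructor
      · have h1 : Tendsto (fun n : ℕ => (1 / ((n : ℝ) + 1) : ℝ)) atTop (𝓝 0) :=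
          tendsto_one_div_add_atTop_nhds_zero_nat
        have h2 := (continuous_ofReal.tendsto 0).comp h1
        have h3 := (h2.mul_const I).const_add z
        simpa only [one_div, ofReal_inv, ofReal_add, ofReal_natCast, ofReal_one,
          Function.comp_apply, ofReal_zero, zero_mul, add_zero] using h3
      · refine Eventually.of_forall fun n => ?_
        change 0 ≤ (z + ((1 / ((n : ℝ) + 1) : ℝ) : ℂ) * I).im
        rw [add_im, ← h]
        simp only [mul_im, ofReal_re, I_im, mul_one, ofReal_im, I_re, mul_zero, add_zero, zero_add]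
        (clear * -; positivity)
    have h1 := hcw.tendsto.comp htend
    have h2 : Tendsto (fun _ : ℕ => (0 : ℂ)) atTop (𝓝 0) := tendsto_const_nhds
    refine tendsto_nhds_unique (h1.congr ?_) h2
    intro n
    simp only [Function.comp]
    apply hopen
    rw [add_im, ← h]
    simp only [mul_im, ofReal_re, I_im, mul_one, ofReal_im, I_re, mul_zero, add_zero, zero_add]
    (clear * -; (clear * -; positivity))

end Vale.Agent.P352
end
end

section

section

open MeasureTheory Filter Topology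
open scoped ENNReal

namespace Vale.Agent.P352

/-- the finite grid of mesh `1/n` on `[-n,n]` -/
noncomputable def grid (n : ℕ) (s : ℝ) : ℕ := if |s| ≤ n then ⌊(s + n) * n⌋₊ + 1 else 0

lemma measurable_grid (n : ℕ) : Measurable (grid n) := by
  unfold grid
  apply Measurable.ite
  · exact measurableSet_le (by fun_prop) measurable_const
  · exact (Nat.measurable_floor.comp (by fun_prop)).add_const 1
  · exact measurable_const

lemma grid_lt (n : ℕ) (s : ℝ) : grid n s < 2 * n * n + 2 := by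
  unfold grid
  split_ifs with h
  · have h1 := abs_le.1 h
    have h2 : (s + n) * n ≤ (2 * n * n : ℕ) := by
      push_cast
      nlinarith only [h1.2, h1]
    have h3 : ⌊(s + n) * n⌋₊ ≤ 2 * n * n := by
      have := Nat.floor_le_floor h2
      rwa [Nat.floor_natCast] at this
    omega
  · omega

lemma grid_fiber {n : ℕ} (hn : 0 < n) {s t : ℝ} (hs : |s| ≤ n) (h : grid n t = grid n s) :
    |t - s| ≤ 1 / n := by
  have hn' : (0 : ℝ) < n := by exact_mod_cast hn
  have ht : |t| ≤ n := by
    by_contra hcon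
    have h1 : grid n t = 0 := if_neg hcon
    have h2 : grid n s = ⌊(s + n) * n⌋₊ + 1 := if_pos hs
    omega
  have h1 : grid n t = ⌊(t + n) * n⌋₊ + 1 := if_pos ht
  have h2 : grid n s = ⌊(s + n) * n⌋₊ + 1 := if_pos hs
  have h3 : ⌊(t + n) * n⌋₊ = ⌊(s + n) * n⌋₊ := by omega
  have ha := abs_le.1 hs
  have hb := abs_le.1 ht
  have e1 : 0 ≤ (s + n) * n := by nlinarith only [ha]
  have e2 : 0 ≤ (t + n) * n := by nlinarith only [hb]
  have f1 := Nat.floor_le e1
  have f2 := Nat.floor_le e2
  have f3 := Nat.lt_floor_add_one ((s + n) * n)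
  have f4 := Nat.lt_floor_add_one ((t + n) * n)
  rw [h3] at f2 f4
  rw [le_div_iff₀ hn']
  have e3 : |t - s| * n = |(t - s) * n| := by rw [abs_mul, abs_of_pos hn']
  rw [e3, abs_le]
  constructor <;> nlinarith only [f1, f4, f2, f3]

lemma tendsto_measure_grid (ν : Measure ℝ) [IsFiniteMeasure ν] (hν : ∀ s, ν {s} = 0) (s : ℝ) :
    Tendsto (fun n : ℕ => ν (grid n ⁻¹' {grid n s})) atTop (𝓝 0) := by
  have h1 : Tendsto (fun r : ℝ => ν (Metric.cthickening r {s})) (𝓝 0) (𝓝 (ν {s})) :=
    tendsto_measure_cthickening_of_isClosed ⟨1, one_pos, measure_ne_top _ _⟩ isClosed_singleton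
  rw [hν s] at h1
  have h2 : Tendsto (fun n : ℕ => (1 : ℝ) / n) atTop (𝓝 0) := tendsto_one_div_atTop_nhds_zero_nat
  refine tendsto_of_tendsto_of_tendsto_of_le_of_le' tendsto_const_nhds (h1.comp h2)
    (Eventually.of_forall fun n => bot_le) ?_
  obtain ⟨N, hN⟩ := exists_nat_ge |s|
  filter_upwards [eventually_ge_atTop (N + 1)] with n hn
  apply measure_mono
  intro t ht
  have hs : |s| ≤ n := hN.trans (by exact_mod_cast (by omega : N ≤ n))
  have h3 := grid_fiber (by omega : 0 < n) hs ht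
  apply Metric.closedBall_subset_cthickening (Set.mem_singleton s)
  rw [Metric.mem_closedBall, Real.dist_eq]
  exact h3

theorem exists_partition (ν : Measure ℝ) [IsFiniteMeasure ν] (hν : ∀ s, ν {s} = 0) (ε : ℝ≥0∞)
    (hε : 0 < ε) : ∃ (n : ℕ) (q : ℝ → ℕ), Measurable q ∧ (∀ s, q s < n) ∧
      ∀ j, ν (q ⁻¹' {j}) ≤ ε := by
  have hmeas : ∀ n : ℕ, Measurable fun s => ν (grid n ⁻¹' {grid n s}) := by
    intro n
    have h : (fun s => ν (grid n ⁻¹' {grid n s})) = (fun k : ℕ => ν (grid n ⁻¹' {k})) ∘ grid n :=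
      rfl
    rw [h]
    exact (measurable_from_top).comp (measurable_grid n)
  have hlim : Tendsto (fun n : ℕ => ∫⁻ s, ν (grid n ⁻¹' {grid n s}) ∂ν) atTop (𝓝 0) := by
    have := tendsto_lintegral_of_dominated_convergence (μ := ν)
      (F := fun (n : ℕ) s => ν (grid n ⁻¹' {grid n s})) (f := fun _ => 0)
      (fun _ => ν Set.univ) hmeas (fun n => Eventually.of_forall fun s => measure_mono
        (Set.subset_univ _)) ?_ (Eventually.of_forall fun s => tendsto_measure_grid ν hν s)
    · simpa only [lintegral_const, zero_mul] using this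
    · rw [lintegral_const]
      exact ENNReal.mul_ne_top (measure_ne_top _ _) (measure_ne_top _ _)
  have hε2 : (0 : ℝ≥0∞) < ε * ε := ENNReal.mul_pos hε.ne' hε.ne'
  obtain ⟨n, hn⟩ := (hlim.eventually (gt_mem_nhds hε2)).exists
  refine ⟨2 * n * n + 2, grid n, measurable_grid n, grid_lt n, fun j => ?_⟩
  by_contra hcon
  push Not at hcon
  have hms : MeasurableSet (grid n ⁻¹' {j}) := measurable_grid n (measurableSet_singleton j)
  have h1 : ν (grid n ⁻¹' {j}) * ν (grid n ⁻¹' {j}) ≤ ∫⁻ s, ν (grid n ⁻¹' {grid n s}) ∂ν := by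
    calc ν (grid n ⁻¹' {j}) * ν (grid n ⁻¹' {j})
        = ∫⁻ s in grid n ⁻¹' {j}, ν (grid n ⁻¹' {j}) ∂ν := by rw [setLIntegral_const]
      _ = ∫⁻ s in grid n ⁻¹' {j}, ν (grid n ⁻¹' {grid n s}) ∂ν := by
          apply setLIntegral_congr_fun hms
          intro s hs
          have : grid n s = j := hs
          simp only [this]
      _ ≤ _ := setLIntegral_le_lintegral _ _
  have h2 : ε * ε ≤ ν (grid n ⁻¹' {j}) * ν (grid n ⁻¹' {j}) := by (clear * - hcon; gcongr)
  exact absurd (lt_of_le_of_lt (h2.trans h1) hn) (lt_irrefl _)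

end Vale.Agent.P352
end
end

section

section

/-!
Convolution identity for vector valued tempered distributions (task P352-C).
-/

open MeasureTheory SchwartzMap
open scoped SchwartzMap

namespace Vale.Agent.P352

section gen

variable {E : Type*} [NormedAddCommGroup E] [NormedSpace ℝ E]

omit [NormedSpace ℝ E] in
private lemma pow_le_aux (k : ℕ) (x ξ : E) :
    ‖x‖ ^ k ≤ 2 ^ k * (‖x - ξ‖ ^ k + ‖ξ‖ ^ k) := by
  have h1 : ‖x‖ ≤ ‖x - ξ‖ + ‖ξ‖ := by
    calc ‖x‖ = ‖(x - ξ) + ξ‖ := by rw [sub_add_cancel]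
      _ ≤ _ := norm_add_le _ _
  have h2 : ‖x - ξ‖ + ‖ξ‖ ≤ 2 * max ‖x - ξ‖ ‖ξ‖ := by
    have := le_max_left ‖x - ξ‖ ‖ξ‖
    have := le_max_right ‖x - ξ‖ ‖ξ‖
    linarith
  calc ‖x‖ ^ k ≤ (2 * max ‖x - ξ‖ ‖ξ‖) ^ k := by
        gcongr
        exact h1.trans h2
    _ = 2 ^ k * (max ‖x - ξ‖ ‖ξ‖) ^ k := by rw [mul_pow]
    _ ≤ 2 ^ k * (‖x - ξ‖ ^ k + ‖ξ‖ ^ k) := by
        gcongr
        rcases le_total ‖x - ξ‖ ‖ξ‖ with h | h
        · rw [max_eq_right h]
          have : 0 ≤ ‖x - ξ‖ ^ k := by positivity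
          linarith only [this]
        · rw [max_eq_left h]
          have : 0 ≤ ‖ξ‖ ^ k := by positivity
          linarith

/-- weighted bound of a derivative at a shifted point -/
private lemma shift_bound (g : 𝓢(E, ℂ)) (k n : ℕ) (x ξ : E) :
    ‖x‖ ^ k * ‖iteratedFDeriv ℝ n g (x - ξ)‖ ≤
      2 ^ k * (SchwartzMap.seminorm ℂ k n g + ‖ξ‖ ^ k * SchwartzMap.seminorm ℂ 0 n g) := by
  have h1 := le_seminorm ℂ k n g (x - ξ)
  have h2 := le_seminorm ℂ 0 n g (x - ξ)
  rw [pow_zero, one_mul] at h2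
  calc ‖x‖ ^ k * ‖iteratedFDeriv ℝ n g (x - ξ)‖
      ≤ (2 ^ k * (‖x - ξ‖ ^ k + ‖ξ‖ ^ k)) * ‖iteratedFDeriv ℝ n g (x - ξ)‖ := by
        gcongr
        exact pow_le_aux k x ξ
    _ = 2 ^ k * (‖x - ξ‖ ^ k * ‖iteratedFDeriv ℝ n g (x - ξ)‖
          + ‖ξ‖ ^ k * ‖iteratedFDeriv ℝ n g (x - ξ)‖) := by ring
    _ ≤ _ := by gcongr

private lemma iter_shift (g : 𝓢(E, ℂ)) (n : ℕ) (a x : E) :
    iteratedFDeriv ℝ n (compSubConstCLM ℂ a g) x = iteratedFDeriv ℝ n g (x - a) := by
  have : (compSubConstCLM ℂ a g : E → ℂ) = fun y => g (y - a) := rfl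
  rw [this]
  exact iteratedFDeriv_comp_sub n a x

/-- polynomial growth of the seminorms of translates -/
lemma seminorm_shift_le (g : 𝓢(E, ℂ)) (k n : ℕ) (a : E) :
    SchwartzMap.seminorm ℂ k n (compSubConstCLM ℂ a g) ≤
      2 ^ k * (SchwartzMap.seminorm ℂ k n g + ‖a‖ ^ k * SchwartzMap.seminorm ℂ 0 n g) := by
  refine seminorm_le_bound ℂ k n _ (by (clear * -; positivity)) fun x => ?_
  rw [iter_shift]
  exact shift_bound g k n x a

/-- local Lipschitz bound for translates -/
lemma seminorm_shift_sub_le (g : 𝓢(E, ℂ)) (k n : ℕ) (a b : E) (R : ℝ) (ha : ‖a‖ ≤ R)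
    (hb : ‖b‖ ≤ R) :
    SchwartzMap.seminorm ℂ k n (compSubConstCLM ℂ a g - compSubConstCLM ℂ b g) ≤
      2 ^ k * (SchwartzMap.seminorm ℂ k (n + 1) g + R ^ k * SchwartzMap.seminorm ℂ 0 (n + 1) g)
        * ‖a - b‖ := by
  have hR : 0 ≤ R := (norm_nonneg _).trans ha
  refine seminorm_le_bound ℂ k n _ (by (clear * - hR; positivity)) fun x => ?_
  have hsub : iteratedFDeriv ℝ n (⇑(compSubConstCLM ℂ a g - compSubConstCLM ℂ b g)) x =
      iteratedFDeriv ℝ n g (x - a) - iteratedFDeriv ℝ n g (x - b) := by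
    rw [← iter_shift, ← iter_shift]
    have : (⇑(compSubConstCLM ℂ a g - compSubConstCLM ℂ b g) : E → ℂ) =
        ⇑(compSubConstCLM ℂ a g) - ⇑(compSubConstCLM ℂ b g) := rfl
    rw [this, iteratedFDeriv_sub_apply ((SchwartzMap.smooth _ n).contDiffAt)
      ((SchwartzMap.smooth _ n).contDiffAt)]
  rw [hsub]
  have hdiff : Differentiable ℝ (iteratedFDeriv ℝ n (g : E → ℂ)) :=
    (g.smooth (n + 1)).differentiable_iteratedFDeriv (by exact_mod_cast Nat.lt_succ_self n)
  have key : ‖‖x‖ ^ k • iteratedFDeriv ℝ n g (x - a) - ‖x‖ ^ k • iteratedFDeriv ℝ n g (x - b)‖ ≤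
      2 ^ k * (SchwartzMap.seminorm ℂ k (n + 1) g + R ^ k * SchwartzMap.seminorm ℂ 0 (n + 1) g)
        * ‖a - b‖ := by
    have hconv : Convex ℝ (Metric.closedBall (0 : E) R) := convex_closedBall _ _
    refine hconv.norm_image_sub_le_of_norm_hasFDerivWithin_le
      (f := fun ξ => ‖x‖ ^ k • iteratedFDeriv ℝ n g (x - ξ))
      (f' := fun ξ => ‖x‖ ^ k • -(fderiv ℝ (iteratedFDeriv ℝ n (g : E → ℂ)) (x - ξ)))
      (fun ξ hξ => ?_) (fun ξ hξ => ?_) (by simpa only [Metric.mem_closedBall,
                                              dist_zero_right] using hb) (by simpa only [Metric.mem_closedBall,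
                                                                  dist_zero_right] using ha)
    · have h1 : HasFDerivAt (fun ξ : E => x - ξ) (-(ContinuousLinearMap.id ℝ E)) ξ := by
        simpa only [id_eq] using (hasFDerivAt_id ξ).const_sub x
      have h2 := (hdiff (x - ξ)).hasFDerivAt.comp ξ h1
      have h3 := h2.const_smul (‖x‖ ^ k)
      have h4 : (fderiv ℝ (iteratedFDeriv ℝ n (g : E → ℂ)) (x - ξ)).comp
          (-(ContinuousLinearMap.id ℝ E)) = -(fderiv ℝ (iteratedFDeriv ℝ n (g : E → ℂ)) (x - ξ)) := by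
        ext v; simp only [ContinuousLinearMap.comp_neg, ContinuousLinearMap.comp_id, neg_apply]
      rw [h4] at h3
      exact h3.hasFDerivWithinAt
    · rw [norm_smul, norm_neg, norm_pow, norm_norm, norm_fderiv_iteratedFDeriv]
      refine (shift_bound g k (n + 1) x ξ).trans ?_
      gcongr
      simpa only [Metric.mem_closedBall, dist_zero_right] using hξ
  rwa [← smul_sub, norm_smul, norm_pow, norm_norm] at key

/-- translations are continuous into Schwartz space -/
lemma continuous_shift (g : 𝓢(E, ℂ)) : Continuous fun a : E => compSubConstCLM ℂ a g := by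
  rw [continuous_iff_continuousAt]
  intro b
  rw [ContinuousAt, (schwartz_withSeminorms ℂ E ℂ).tendsto_nhds]
  intro i ε hε
  have hC : ∃ C : ℝ, 0 ≤ C ∧ ∀ a : E, ‖a - b‖ ≤ 1 →
      SchwartzMap.seminorm ℂ i.1 i.2 (compSubConstCLM ℂ a g - compSubConstCLM ℂ b g) ≤
        C * ‖a - b‖ := by
    refine ⟨2 ^ i.1 * (SchwartzMap.seminorm ℂ i.1 (i.2 + 1) g +
      (‖b‖ + 1) ^ i.1 * SchwartzMap.seminorm ℂ 0 (i.2 + 1) g), by (clear * -; positivity), fun a ha => ?_⟩
    refine seminorm_shift_sub_le g i.1 i.2 a b (‖b‖ + 1) ?_ (by linarith)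
    calc ‖a‖ = ‖b + (a - b)‖ := by rw [add_sub_cancel]
      _ ≤ ‖b‖ + ‖a - b‖ := norm_add_le _ _
      _ ≤ ‖b‖ + 1 := by linarith
  obtain ⟨C, hC0, hC⟩ := hC
  have hball : Metric.ball b (min 1 (ε / (C + 1))) ∈ nhds b :=
    Metric.ball_mem_nhds b (by (clear * - hε hC0; positivity))
  filter_upwards [hball] with a ha
  rw [Metric.mem_ball, dist_eq_norm] at ha
  have h1 : ‖a - b‖ ≤ 1 := ha.le.trans (min_le_left _ _)
  have h2 : ‖a - b‖ < ε / (C + 1) := ha.trans_le (min_le_right _ _)
  change SchwartzMap.seminorm ℂ i.1 i.2 (compSubConstCLM ℂ a g - compSubConstCLM ℂ b g) < ε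
  calc _ ≤ C * ‖a - b‖ := hC a h1
    _ ≤ (C + 1) * ‖a - b‖ := by gcongr; linarith only []
    _ < (C + 1) * (ε / (C + 1)) := by (clear * - hC0 h2; gcongr)
    _ = ε := by (clear * - hε hC0; field_simp)

/-- type synonym with canonical normed instances -/
def MM (E : Type*) [NormedAddCommGroup E] [NormedSpace ℝ E] (n : ℕ) : Type _ :=
  E [×n]→L[ℝ] ℂ

noncomputable instance (n : ℕ) : NormedAddCommGroup (MM E n) :=
  inferInstanceAs (NormedAddCommGroup (E [×n]→L[ℝ] ℂ))

noncomputable instance (n : ℕ) : NormedSpace ℂ (MM E n) :=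
  inferInstanceAs (NormedSpace ℂ (E [×n]→L[ℝ] ℂ))

instance (n : ℕ) : CompleteSpace (MM E n) :=
  inferInstanceAs (CompleteSpace (E [×n]→L[ℝ] ℂ))

/-- evaluation -/
noncomputable def MM.ev (n : ℕ) (m : Fin n → E) : MM E n →L[ℂ] ℂ :=
  LinearMap.mkContinuous
    { toFun := fun L => (show E [×n]→L[ℝ] ℂ from L) m
      map_add' := fun _ _ => rfl
      map_smul' := fun _ _ => rfl } (∏ i, ‖m i‖) (fun L => by
        rw [mul_comm]
        exact ContinuousMultilinearMap.le_opNorm (show E [×n]→L[ℝ] ℂ from L) m)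

/-- derivative as an element of the synonym -/
noncomputable def der (n : ℕ) (f : 𝓢(E, ℂ)) (x : E) : MM E n := iteratedFDeriv ℝ n (f : E → ℂ) x

lemma ev_der (n : ℕ) (f : 𝓢(E, ℂ)) (x : E) (m : Fin n → E) :
    MM.ev n m (der n f x) = iteratedFDeriv ℝ n f x m := rfl

lemma norm_der (n : ℕ) (f : 𝓢(E, ℂ)) (x : E) : ‖der n f x‖ = ‖iteratedFDeriv ℝ n f x‖ := rfl

lemma MM.ext {n : ℕ} {L L' : MM E n} (h : ∀ m, MM.ev n m L = MM.ev n m L') : L = L' :=
  ContinuousMultilinearMap.ext h

lemma continuous_der (n : ℕ) (f : 𝓢(E, ℂ)) : Continuous (der n f) :=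
  (f.smooth n).continuous_iteratedFDeriv le_rfl

/-- weighted derivative as a bounded continuous function -/
noncomputable def jfun (k n : ℕ) (f : 𝓢(E, ℂ)) :
    BoundedContinuousFunction E (MM E n) :=
  BoundedContinuousFunction.ofNormedAddCommGroup
    (fun x : E => ((‖x‖ ^ k : ℝ) : ℂ) • der n f x)
    ((Complex.continuous_ofReal.comp (continuous_norm.pow k)).smul (continuous_der n f))
    (SchwartzMap.seminorm ℂ k n f)
    (fun x => by
      rw [norm_smul, Complex.norm_real, norm_pow, norm_norm, norm_der]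
      exact le_seminorm ℂ k n f x)

lemma jfun_apply (k n : ℕ) (f : 𝓢(E, ℂ)) (x : E) :
    jfun k n f x = ((‖x‖ ^ k : ℝ) : ℂ) • der n f x := rfl

/-- weighted derivative as an element of a Banach space -/
noncomputable def jmap (k n : ℕ) :
    𝓢(E, ℂ) →L[ℂ] BoundedContinuousFunction E (MM E n) :=
  mkCLMtoNormedSpace (D := E) (E := ℂ) (𝕜 := ℂ) (σ := RingHom.id ℂ) (jfun (E := E) k n)
    (fun f g => by
      ext1 x
      refine MM.ext fun m => ?_
      rw [BoundedContinuousFunction.coe_add, Pi.add_apply, jfun_apply, jfun_apply, jfun_apply,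
        map_add, map_smul, map_smul, map_smul, ev_der, ev_der, ev_der]
      have : (⇑(f + g) : E → ℂ) = ⇑f + ⇑g := rfl
      rw [this, iteratedFDeriv_add_apply ((SchwartzMap.smooth _ n).contDiffAt)
        ((SchwartzMap.smooth _ n).contDiffAt), add_apply, smul_add])
    (fun a f => by
      ext1 x
      refine MM.ext fun m => ?_
      rw [BoundedContinuousFunction.coe_smul]
      simp only [RingHom.id_apply]
      rw [jfun_apply, jfun_apply, map_smul, map_smul, map_smul, ev_der, ev_der]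
      have : (⇑(a • f) : E → ℂ) = a • ⇑f := rfl
      rw [this, iteratedFDeriv_const_smul_apply ((SchwartzMap.smooth _ n).contDiffAt),
        smul_apply, smul_comm])
    ⟨{(k, n)}, 1, zero_le_one, fun f => by
      rw [Finset.sup_singleton, one_mul]
      exact BoundedContinuousFunction.norm_ofNormedAddCommGroup_le (f := fun x : E =>
        ((‖x‖ ^ k : ℝ) : ℂ) • der n f x) _ (apply_nonneg _ _) _⟩

lemma jmap_apply (k n : ℕ) (f : 𝓢(E, ℂ)) (x : E) :
    jmap k n f x = ((‖x‖ ^ k : ℝ) : ℂ) • der n f x := rfl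

lemma seminorm_le_jmap (k n : ℕ) (f : 𝓢(E, ℂ)) :
    SchwartzMap.seminorm ℂ k n f ≤ ‖jmap k n f‖ := by
  refine seminorm_le_bound ℂ k n f (norm_nonneg _) fun x => ?_
  have := (jmap k n f).norm_coe_le_norm x
  rwa [jmap_apply, norm_smul, Complex.norm_real, norm_pow, norm_norm, norm_der] at this

end gen

section int

variable {E : Type*} [NormedAddCommGroup E] [NormedSpace ℝ E] [FiniteDimensional ℝ E]
  [MeasurableSpace E] [BorelSpace E] (μ : Measure E) [μ.HasTemperateGrowth]

/-- A continuous linear image of the translates, weighted by a Schwartz function, is integrable. -/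
lemma integrable_shift {F : Type*} [NormedAddCommGroup F] [NormedSpace ℂ F]
    (κ : 𝓢(E, ℂ) →L[ℂ] F) (g k : 𝓢(E, ℂ)) :
    Integrable (fun a : E => k a • κ (compSubConstCLM ℂ a g)) μ := by
  have hcont : Continuous fun a : E => k a • κ (compSubConstCLM ℂ a g) :=
    k.continuous.smul (κ.continuous.comp (continuous_shift g))
  obtain ⟨s, C, _, hC⟩ := Seminorm.bound_of_continuous (schwartz_withSeminorms ℂ E ℂ)
    ((normSeminorm ℂ F).comp (κ : 𝓢(E, ℂ) →ₗ[ℂ] F)) (by
      exact continuous_norm.comp κ.continuous)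
  have hb : ∀ f : 𝓢(E, ℂ), ‖κ f‖ ≤ C * ∑ i ∈ s, SchwartzMap.seminorm ℂ i.1 i.2 f := by
    intro f
    have h1 := hC f
    have h2 : (s.sup (schwartzSeminormFamily ℂ E ℂ)) f ≤
        ∑ i ∈ s, SchwartzMap.seminorm ℂ i.1 i.2 f := by
      have h3 := Seminorm.finset_sup_le_sum (schwartzSeminormFamily ℂ E ℂ) s f
      have h4 : (∑ i ∈ s, schwartzSeminormFamily ℂ E ℂ i) f =
          ∑ i ∈ s, SchwartzMap.seminorm ℂ i.1 i.2 f := by
        rw [← FunLike.coeAddMonoidHom_apply, map_sum, Finset.sum_apply]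
        rfl
      rw [← h4]
      exact h3
    calc ‖κ f‖ ≤ (C • s.sup (schwartzSeminormFamily ℂ E ℂ)) f := h1
      _ = C * (s.sup (schwartzSeminormFamily ℂ E ℂ)) f := rfl
      _ ≤ _ := by gcongr
  have hbound : Integrable (fun a : E => ∑ i ∈ s, (C : ℝ) * (2 ^ i.1 *
      (SchwartzMap.seminorm ℂ i.1 i.2 g * ‖k a‖ +
        SchwartzMap.seminorm ℂ 0 i.2 g * (‖a‖ ^ i.1 * ‖k a‖)))) μ := by
    refine integrable_finsetSum _ fun i _ => ?_
    refine Integrable.const_mul (Integrable.const_mul (Integrable.add ?_ ?_) _) _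
    · exact (k.integrable (μ := μ)).norm.const_mul _
    · exact (SchwartzMap.integrable_pow_mul μ k i.1).const_mul _
  refine hbound.mono' hcont.aestronglyMeasurable (Filter.Eventually.of_forall fun a => ?_)
  rw [norm_smul]
  calc ‖k a‖ * ‖κ (compSubConstCLM ℂ a g)‖
      ≤ ‖k a‖ * (C * ∑ i ∈ s, SchwartzMap.seminorm ℂ i.1 i.2 (compSubConstCLM ℂ a g)) := by
        gcongr
        exact hb _
    _ ≤ ‖k a‖ * (C * ∑ i ∈ s, 2 ^ i.1 * (SchwartzMap.seminorm ℂ i.1 i.2 g
          + ‖a‖ ^ i.1 * SchwartzMap.seminorm ℂ 0 i.2 g)) := by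
        gcongr with i _
        exact seminorm_shift_le g i.1 i.2 a
    _ = _ := by
        rw [Finset.mul_sum, Finset.mul_sum]
        refine Finset.sum_congr rfl fun i _ => ?_
        ring

/-- scalar parametric derivative -/
lemma fderiv_conv_scalar (h : E → ℂ) (k : 𝓢(E, ℂ)) (hh : ContDiff ℝ 1 h) (C C' : ℝ)
    (hC : ∀ y, ‖h y‖ ≤ C) (hC' : ∀ y, ‖fderiv ℝ h y‖ ≤ C') (x v : E) :
    fderiv ℝ (fun y => ∫ a, k a * h (y - a) ∂μ) x v = ∫ a, k a * fderiv ℝ h (x - a) v ∂μ := by
  have hcontF : Continuous (fderiv ℝ h) := hh.continuous_fderiv one_ne_zero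
  have hint : ∀ y, Integrable (fun a => k a * h (y - a)) μ := by
    intro y
    refine ((k.integrable (μ := μ)).norm.const_mul C).mono'
      ?_ (Filter.Eventually.of_forall fun a => ?_)
    · exact (k.continuous.mul (hh.continuous.comp
        (continuous_const.sub continuous_id))).aestronglyMeasurable
    · rw [norm_mul, mul_comm]
      gcongr
      exact hC _
  have hintF : Integrable (fun a => k a • fderiv ℝ h (x - a)) μ := by
    refine ((k.integrable (μ := μ)).norm.const_mul C').mono'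
      ?_ (Filter.Eventually.of_forall fun a => ?_)
    · refine (k.continuous.smul ?_).aestronglyMeasurable
      exact hcontF.comp (continuous_const.sub continuous_id)
    · rw [norm_smul, mul_comm]
      gcongr
      exact hC' _
  have hder : HasFDerivAt (fun y => ∫ a, k a * h (y - a) ∂μ)
      (∫ a, k a • fderiv ℝ h (x - a) ∂μ) x := by
    refine hasFDerivAt_integral_of_dominated_of_fderiv_le (𝕜 := ℝ)
      (F := fun y a => k a * h (y - a))
      (F' := fun y a => k a • fderiv ℝ h (y - a))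
      (bound := fun a => C' * ‖k a‖)
      (s := Set.univ) Filter.univ_mem
      (Filter.Eventually.of_forall fun y => (hint y).aestronglyMeasurable)
      (hint x) hintF.aestronglyMeasurable ?_ ?_ ?_
    · refine Filter.Eventually.of_forall fun a y _ => ?_
      rw [norm_smul, mul_comm]
      gcongr
      exact hC' _
    · exact (k.integrable (μ := μ)).norm.const_mul _
    · refine Filter.Eventually.of_forall fun a y _ => ?_
      have h1 : HasFDerivAt (fun y : E => y - a) (ContinuousLinearMap.id ℝ E) y :=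
        (hasFDerivAt_id y).sub_const a
      have h2 := ((hh.differentiable one_ne_zero) (y - a)).hasFDerivAt.comp y h1
      rw [ContinuousLinearMap.comp_id] at h2
      exact h2.const_smul (k a)
  rw [hder.fderiv, ContinuousLinearMap.integral_apply hintF]
  rfl

/-- derivatives of a convolution -/
lemma iter_conv (g k c : 𝓢(E, ℂ)) (hc : ∀ x, c x = ∫ a, k a * g (x - a) ∂μ) (n : ℕ) :
    ∀ (x : E) (m : Fin n → E), iteratedFDeriv ℝ n c x m =
      ∫ a, k a * iteratedFDeriv ℝ n g (x - a) m ∂μ := by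
  induction n with
  | zero =>
    intro x m
    rw [iteratedFDeriv_zero_apply, hc x]
    refine integral_congr_ae (Filter.Eventually.of_forall fun a => ?_)
    simp only [iteratedFDeriv_zero_apply]
  | succ n IH =>
    intro x m
    have aux : ∀ (f : 𝓢(E, ℂ)) (y : E), iteratedFDeriv ℝ (n + 1) f y m =
        fderiv ℝ (fun z => iteratedFDeriv ℝ n f z (Fin.tail m)) y (m 0) := by
      intro f y
      have hG : Differentiable ℝ (iteratedFDeriv ℝ n (f : E → ℂ)) :=
        (f.smooth (n + 1)).differentiable_iteratedFDeriv (by exact_mod_cast Nat.lt_succ_self n)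
      rw [iteratedFDeriv_succ_apply_left]
      have h1 := (ContinuousMultilinearMap.apply ℝ (fun _ : Fin n => E) ℂ
        (Fin.tail m)).hasFDerivAt.comp y (hG y).hasFDerivAt
      have h2 : fderiv ℝ (fun z => iteratedFDeriv ℝ n f z (Fin.tail m)) y =
          (ContinuousMultilinearMap.apply ℝ (fun _ : Fin n => E) ℂ (Fin.tail m)).comp
            (fderiv ℝ (iteratedFDeriv ℝ n (f : E → ℂ)) y) := h1.fderiv
      rw [h2]
      rfl
    rw [aux c x]
    have hfun : (fun z => iteratedFDeriv ℝ n c z (Fin.tail m)) =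
        fun y => ∫ a, k a * iteratedFDeriv ℝ n g (y - a) (Fin.tail m) ∂μ := by
      funext y
      exact IH y _
    rw [hfun]
    have hsm : ContDiff ℝ 1 (fun z => iteratedFDeriv ℝ n g z (Fin.tail m)) := by
      have h1 : ContDiff ℝ 1 (iteratedFDeriv ℝ n (g : E → ℂ)) :=
        (g.smooth ((1 + n : ℕ) : ℕ∞)).iteratedFDeriv_right (by exact_mod_cast le_rfl)
      exact (ContinuousMultilinearMap.apply ℝ (fun _ : Fin n => E) ℂ (Fin.tail m)).contDiff.comp h1
    rw [fderiv_conv_scalar μ (fun z => iteratedFDeriv ℝ n g z (Fin.tail m)) k hsm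
      (SchwartzMap.seminorm ℂ 0 n g * ∏ i, ‖Fin.tail m i‖)
      (SchwartzMap.seminorm ℂ 0 (n + 1) g * ∏ i, ‖Fin.tail m i‖) ?_ ?_ x (m 0)]
    · refine integral_congr_ae (Filter.Eventually.of_forall fun a => ?_)
      change _ = k a * iteratedFDeriv ℝ (n + 1) g (x - a) m
      rw [aux g (x - a)]
    · intro y
      refine (ContinuousMultilinearMap.le_opNorm _ _).trans ?_
      gcongr
      simpa only [pow_zero, one_mul] using le_seminorm ℂ 0 n g y
    · intro y
      refine ContinuousLinearMap.opNorm_le_bound _ (by (clear * -; (clear * -; positivity))) fun v => ?_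
      have h3 : fderiv ℝ (fun z => iteratedFDeriv ℝ n g z (Fin.tail m)) y v =
          iteratedFDeriv ℝ (n + 1) g y (Fin.cons v (Fin.tail m)) := by
        have hG : Differentiable ℝ (iteratedFDeriv ℝ n (g : E → ℂ)) :=
          (g.smooth (n + 1)).differentiable_iteratedFDeriv (by exact_mod_cast Nat.lt_succ_self n)
        rw [iteratedFDeriv_succ_apply_left]
        have h1 := (ContinuousMultilinearMap.apply ℝ (fun _ : Fin n => E) ℂ
          (Fin.tail m)).hasFDerivAt.comp y (hG y).hasFDerivAt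
        have h2 : fderiv ℝ (fun z => iteratedFDeriv ℝ n g z (Fin.tail m)) y =
            (ContinuousMultilinearMap.apply ℝ (fun _ : Fin n => E) ℂ (Fin.tail m)).comp
              (fderiv ℝ (iteratedFDeriv ℝ n (g : E → ℂ)) y) := h1.fderiv
        rw [h2, Fin.cons_zero, Fin.tail_cons]
        rfl
      rw [h3]
      refine (ContinuousMultilinearMap.le_opNorm _ _).trans ?_
      rw [Fin.prod_univ_succ, Fin.cons_zero]
      simp only [Fin.cons_succ]
      have h4 := le_seminorm ℂ 0 (n + 1) g y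
      rw [pow_zero, one_mul] at h4
      calc ‖iteratedFDeriv ℝ (n + 1) g y‖ * (‖v‖ * ∏ i, ‖Fin.tail m i‖)
          ≤ SchwartzMap.seminorm ℂ 0 (n + 1) g * (‖v‖ * ∏ i, ‖Fin.tail m i‖) := by (clear * - h4; gcongr)
        _ = _ := by ring

lemma jmap_conv (g k c : 𝓢(E, ℂ)) (hc : ∀ x, c x = ∫ a, k a * g (x - a) ∂μ) (p n : ℕ) :
    jmap p n c = ∫ a, k a • jmap p n (compSubConstCLM ℂ a g) ∂μ := by
  have hI := integrable_shift μ (jmap p n) g k
  ext1 x
  refine MM.ext fun m => ?_
  let ev : BoundedContinuousFunction E (MM E n) →L[ℂ] ℂ :=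
    (MM.ev n m).comp (BoundedContinuousFunction.evalCLM ℂ x)
  have h1 : MM.ev n m ((∫ a, k a • jmap p n (compSubConstCLM ℂ a g) ∂μ) x) =
      ev (∫ a, k a • jmap p n (compSubConstCLM ℂ a g) ∂μ) := rfl
  rw [h1, ← ContinuousLinearMap.integral_comp_comm ev hI, jmap_apply, map_smul, ev_der,
    iter_conv μ g k c hc n x m, ← integral_smul]
  refine integral_congr_ae (Filter.Eventually.of_forall fun a => ?_)
  have h2 : ev (k a • jmap p n (compSubConstCLM ℂ a g)) =
      k a • (((‖x‖ ^ p : ℝ) : ℂ) • iteratedFDeriv ℝ n g (x - a) m) := by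
    rw [map_smul]
    change k a • MM.ev n m (jmap p n (compSubConstCLM ℂ a g) x) = _
    rw [jmap_apply, map_smul, ev_der]
    congr 3
    exact iteratedFDeriv_comp_sub n a x
  simp only [h2]
  simp only [smul_eq_mul]
  ring

/-- Abstract closure argument. -/
lemma conv_abstract {Y F : Type*} [NormedAddCommGroup Y] [NormedSpace ℂ Y] [CompleteSpace Y]
    [NormedAddCommGroup F] [NormedSpace ℂ F] [CompleteSpace F]
    (J : 𝓢(E, ℂ) →L[ℂ] Y) (κ : 𝓢(E, ℂ) →L[ℂ] F) (C : ℝ) (hC0 : 0 ≤ C)
    (hJ : ∀ f, ‖κ f‖ ≤ C * ‖J f‖) (g k c : 𝓢(E, ℂ))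
    (hc : J c = ∫ a, k a • J (compSubConstCLM ℂ a g) ∂μ) :
    κ c = ∫ a, k a • κ (compSubConstCLM ℂ a g) ∂μ := by
  let P : 𝓢(E, ℂ) →L[ℂ] (Y × F) := J.prod κ
  let V : Submodule ℂ (Y × F) :=
    (LinearMap.range (P : 𝓢(E, ℂ) →ₗ[ℂ] _)).topologicalClosure
  have hVmem : ∀ f, P f ∈ V := fun f => Submodule.le_topologicalClosure _ ⟨f, rfl⟩
  have hPI := integrable_shift μ P g k
  -- the integral lies in V
  have hmem : ∫ a, k a • P (compSubConstCLM ℂ a g) ∂μ ∈ V := by
    have : CompleteSpace V := Submodule.topologicalClosure.completeSpace _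
    let h : E → V := fun a => ⟨k a • P (compSubConstCLM ℂ a g), V.smul_mem _ (hVmem _)⟩
    have hh : Continuous h := Continuous.subtype_mk
      (k.continuous.smul (P.continuous.comp (continuous_shift g))) _
    have hhI : Integrable h μ := by
      refine hPI.norm.mono' hh.aestronglyMeasurable (Filter.Eventually.of_forall fun a => ?_)
      exact le_rfl
    have h3 := ContinuousLinearMap.integral_comp_comm V.subtypeL hhI
    have h4 : ∫ a, k a • P (compSubConstCLM ℂ a g) ∂μ = V.subtypeL (∫ a, h a ∂μ) := by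
      rw [← h3]
      rfl
    rw [h4]
    exact (∫ a, h a ∂μ).2
  have hfst : (∫ a, k a • P (compSubConstCLM ℂ a g) ∂μ).1 = J c := by
    rw [fst_integral hPI, hc]
    rfl
  have hsnd : (∫ a, k a • P (compSubConstCLM ℂ a g) ∂μ).2 =
      ∫ a, k a • κ (compSubConstCLM ℂ a g) ∂μ := by
    rw [snd_integral hPI]
    rfl
  rw [← hsnd]
  set I := ∫ a, k a • P (compSubConstCLM ℂ a g) ∂μ with hIdef
  -- approximate
  have hcl : I ∈ closure (Set.range P) := by
    have : (V : Set _) = closure (Set.range P) := by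
      rw [Submodule.topologicalClosure_coe]
      rfl
    rw [← this]
    exact hmem
  refine eq_of_forall_dist_le fun ε hε => ?_
  rw [Metric.mem_closure_range_iff] at hcl
  obtain ⟨f, hf⟩ := hcl (ε / (C + 1)) (by (clear * - hC0 hε; (clear * - hε hC0; positivity)))
  rw [dist_eq_norm] at hf
  have h8 : ‖J c - J f‖ ≤ ‖I - P f‖ := by
    rw [← hfst]
    exact norm_fst_le (I - P f)
  have h9 : ‖I.2 - κ f‖ ≤ ‖I - P f‖ := norm_snd_le (I - P f)
  rw [dist_eq_norm]
  calc ‖κ c - I.2‖ = ‖κ (c - f) - (I.2 - κ f)‖ := by rw [map_sub]; congr 1; abel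
    _ ≤ ‖κ (c - f)‖ + ‖I.2 - κ f‖ := norm_sub_le _ _
    _ ≤ C * ‖J (c - f)‖ + ‖I - P f‖ := by gcongr; exact hJ _
    _ ≤ C * ‖I - P f‖ + ‖I - P f‖ := by
        gcongr
        rw [map_sub]
        exact h8
    _ = (C + 1) * ‖I - P f‖ := by ring
    _ ≤ (C + 1) * (ε / (C + 1)) := by (clear * - hf hC0; gcongr)
    _ = ε := by (clear * - hC0 hε; field_simp)

/-- Main identity. -/
theorem conv_identity_gen {F : Type*} [NormedAddCommGroup F] [NormedSpace ℂ F] [CompleteSpace F]
    (κ : 𝓢(E, ℂ) →L[ℂ] F) (g k c : 𝓢(E, ℂ)) (hc : ∀ x, c x = ∫ a, k a * g (x - a) ∂μ) :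
    κ c = ∫ a, k a • κ (compSubConstCLM ℂ a g) ∂μ := by
  obtain ⟨s, C, _, hC⟩ := Seminorm.bound_of_continuous (schwartz_withSeminorms ℂ E ℂ)
    ((normSeminorm ℂ F).comp (κ : 𝓢(E, ℂ) →ₗ[ℂ] F)) (by
      exact continuous_norm.comp κ.continuous)
  -- joint map
  let J : 𝓢(E, ℂ) →L[ℂ] ((i : s) → BoundedContinuousFunction E (MM E i.1.2)) :=
    ContinuousLinearMap.pi fun i => jmap i.1.1 i.1.2
  have hJ : ∀ f : 𝓢(E, ℂ), ‖κ f‖ ≤ C * ‖J f‖ := by
    intro f
    have h1 := hC f
    have h2 : (s.sup (schwartzSeminormFamily ℂ E ℂ)) f ≤ ‖J f‖ := by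
      refine Seminorm.finset_sup_apply_le (norm_nonneg _) fun i hi => ?_
      refine (seminorm_le_jmap i.1 i.2 f).trans ?_
      exact norm_le_pi_norm (J f) ⟨i, hi⟩
    calc ‖κ f‖ ≤ (C • s.sup (schwartzSeminormFamily ℂ E ℂ)) f := h1
      _ = C * (s.sup (schwartzSeminormFamily ℂ E ℂ)) f := rfl
      _ ≤ _ := by gcongr
  refine conv_abstract μ J κ C C.2 hJ g k c ?_
  funext i
  let pr := ContinuousLinearMap.proj (R := ℂ)
    (φ := fun i : s => BoundedContinuousFunction E (MM E i.1.2)) i
  have h5 := ContinuousLinearMap.integral_comp_comm pr (integrable_shift μ J g k)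
  have h6 : (∫ a, k a • J (compSubConstCLM ℂ a g) ∂μ) i =
      pr (∫ a, k a • J (compSubConstCLM ℂ a g) ∂μ) := rfl
  rw [h6, ← h5]
  have h7 : J c i = jmap i.1.1 i.1.2 c := rfl
  rw [h7, jmap_conv μ g k c hc]
  rfl

end int

/-- `P352-C` (1) -/
theorem conv_integrable {F : Type*} [NormedAddCommGroup F] [NormedSpace ℂ F]
    (κ : 𝓢(EuclideanSpace ℝ (Fin 4), ℂ) →L[ℂ] F) (g k : 𝓢(EuclideanSpace ℝ (Fin 4), ℂ)) :
    Integrable (fun a => k a • κ (compSubConstCLM ℂ a g)) :=
  integrable_shift volume κ g k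

/-- `P352-C` (2) -/
theorem conv_identity {F : Type*} [NormedAddCommGroup F] [NormedSpace ℂ F] [CompleteSpace F]
    (κ : 𝓢(EuclideanSpace ℝ (Fin 4), ℂ) →L[ℂ] F) (g k c : 𝓢(EuclideanSpace ℝ (Fin 4), ℂ))
    (hc : ∀ x, c x = ∫ a, k a * g (x - a)) :
    κ c = ∫ a, k a • κ (compSubConstCLM ℂ a g) :=
  conv_identity_gen volume κ g k c hc

end Vale.Agent.P352
end
end

section

section

open MeasureTheory SchwartzMap Complex
open scoped SchwartzMap ComplexConjugate LineDeriv

namespace Vale.Agent.P352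

/-- complexified Minkowski pairing -/
noncomputable def cdot (k : Fin 4 → ℂ) (x : Mink) : ℂ :=
  k 0 * x 0 - k 1 * x 1 - k 2 * x 2 - k 3 * x 3

/-- Fourier-Laplace transform at a complex momentum -/
noncomputable def cft (f : 𝓢(Mink, ℂ)) (k : Fin 4 → ℂ) : ℂ :=
  ∫ x, exp (I * cdot k x) * f x

/-- sign of the metric -/
def sgn (j : Fin 4) : ℝ := if j = 0 then 1 else -1

/-- basis vectors -/
noncomputable def eb (j : Fin 4) : Mink := EuclideanSpace.single j 1

lemma cdot_add (k : Fin 4 → ℂ) (x y : Mink) : cdot k (x + y) = cdot k x + cdot k y := by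
  simp only [cdot, PiLp.add_apply, ofReal_add]; ring

lemma cdot_smul (k : Fin 4 → ℂ) (c : ℝ) (x : Mink) : cdot k (c • x) = c * cdot k x := by
  simp only [cdot, PiLp.smul_apply, smul_eq_mul, ofReal_mul]; ring

/-- `cdot k` as a continuous real-linear map -/
noncomputable def cdotL (k : Fin 4 → ℂ) : Mink →L[ℝ] ℂ :=
  LinearMap.toContinuousLinearMap
    { toFun := cdot k
      map_add' := cdot_add k
      map_smul' := fun c x => by
        simp only [cdot_smul, RingHom.id_apply, real_smul] }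

@[simp] lemma cdotL_apply (k : Fin 4 → ℂ) (x : Mink) : cdotL k x = cdot k x := rfl

lemma cdot_eb (k : Fin 4 → ℂ) (j : Fin 4) : cdot k (eb j) = sgn j * k j := by
  fin_cases j <;> simp [cdot, eb, sgn]

lemma continuous_cdot (k : Fin 4 → ℂ) : Continuous (cdot k) := (cdotL k).continuous

lemma hasFDerivAt_cexp_cdot (k : Fin 4 → ℂ) (x : Mink) :
    HasFDerivAt (fun x : Mink => exp (I * cdot k x))
      (exp (I * cdot k x) • (I • cdotL k)) x := by
  have h1 : HasFDerivAt (fun x : Mink => I * cdot k x) (I • cdotL k) x := by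
    have := (cdotL k).hasFDerivAt (x := x)
    simpa only [cdotL_apply] using this.const_mul I
  exact h1.cexp

lemma fderiv_cexp_cdot (k : Fin 4 → ℂ) (x v : Mink) :
    fderiv ℝ (fun x : Mink => exp (I * cdot k x)) x v = I * cdot k v * exp (I * cdot k x) := by
  rw [(hasFDerivAt_cexp_cdot k x).fderiv]
  simp only [smul_apply, cdotL_apply, smul_eq_mul]; ring

lemma continuous_cexp_cdot (k : Fin 4 → ℂ) : Continuous (fun x : Mink => exp (I * cdot k x)) :=
  continuous_exp.comp (continuous_const.mul (continuous_cdot k))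

lemma integrable_cexp_mul (k : Fin 4 → ℂ) (f : 𝓢(Mink, ℂ)) (hf : HasCompactSupport f) :
    Integrable (fun x => exp (I * cdot k x) * f x) := by
  apply Continuous.integrable_of_hasCompactSupport
  · exact (continuous_cexp_cdot k).mul f.continuous
  · exact hf.mul_left

lemma hasCompactSupport_lineDeriv (f : 𝓢(Mink, ℂ)) (hf : HasCompactSupport f) (v : Mink) :
    HasCompactSupport (∂_{v} f : 𝓢(Mink, ℂ)) := by
  refine IsCompact.of_isClosed_subset hf (isClosed_tsupport _) (tsupport_lineDerivOp_subset v f)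

lemma cft_lineDeriv (f : 𝓢(Mink, ℂ)) (hf : HasCompactSupport f) (v : Mink) (k : Fin 4 → ℂ) :
    cft (∂_{v} f) k = -(I * cdot k v) * cft f k := by
  have h := integral_mul_fderiv_eq_neg_fderiv_mul_of_integrable (𝕜 := ℂ) (μ := (volume : Measure Mink))
    (f := fun x : Mink => exp (I * cdot k x)) (g := f) (v := v) ?_ ?_ ?_ ?_ ?_
  · have h2 : cft (∂_{v} f) k = ∫ x, exp (I * cdot k x) * fderiv ℝ f x v := by
      rfl
    rw [h2, h, cft, ← integral_const_mul, ← integral_neg]
    congr 1
    ext x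
    rw [fderiv_cexp_cdot]; ring
  · simp_rw [fderiv_cexp_cdot]
    have := (integrable_cexp_mul k f hf).const_mul (I * cdot k v)
    refine this.congr (Filter.Eventually.of_forall fun x => ?_)
    simp only []; ring
  · exact integrable_cexp_mul k (∂_{v} f) (hasCompactSupport_lineDeriv f hf v)
  · exact integrable_cexp_mul k f hf
  · intro x _; exact (hasFDerivAt_cexp_cdot k x).differentiableAt
  · intro x _; exact f.differentiableAt

/-- test functions in an open set are stable under derivatives -/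
lemma IsTest.lineDeriv {W : Set Mink} {f : 𝓢(Mink, ℂ)} (hf : IsTest W f) (v : Mink) :
    IsTest W (∂_{v} f) :=
  ⟨hasCompactSupport_lineDeriv f hf.1 v, (tsupport_lineDerivOp_subset v f).trans hf.2⟩

lemma exists_iter_deriv {W : Set Mink} (f : 𝓢(Mink, ℂ)) (hf : IsTest W f) (v : Mink) (N : ℕ) :
    ∃ g : 𝓢(Mink, ℂ), IsTest W g ∧ ∀ k, cft g k = (-(I * cdot k v)) ^ N * cft f k := by
  induction N with
  | zero => exact ⟨f, hf, fun k => by simp⟩
  | succ N ih =>
    obtain ⟨g, hg, hk⟩ := ih
    refine ⟨∂_{v} g, hg.lineDeriv v, fun k => ?_⟩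
    rw [cft_lineDeriv g hg.1, hk, pow_succ]; ring

lemma norm_cft_le (f : 𝓢(Mink, ℂ)) (k : Fin 4 → ℂ)
    (hk : ∀ x ∈ tsupport f, 0 ≤ (cdot k x).im) : ‖cft f k‖ ≤ ∫ x, ‖f x‖ := by
  refine norm_integral_le_of_norm_le f.integrable.norm (Filter.Eventually.of_forall fun x => ?_)
  by_cases hx : x ∈ tsupport f
  · rw [norm_mul, norm_exp]
    have : (I * cdot k x).re ≤ 0 := by simpa only [mul_re, I_re, zero_mul, I_im, one_mul,
                                         zero_sub, Left.neg_nonpos_iff] using hk x hx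
    calc _ ≤ 1 * ‖f x‖ := by gcongr; exact Real.exp_le_one_iff.2 this
      _ = ‖f x‖ := one_mul _
  · simp [image_eq_zero_of_notMem_tsupport hx]

/-- the complex momenta that occur -/
def goodK (W : Set Mink) (k : Fin 4 → ℂ) : Prop := ∀ x ∈ W, 0 ≤ (cdot k x).im

lemma exists_decay_coord {W : Set Mink} (f : 𝓢(Mink, ℂ)) (hf : IsTest W f) (N : ℕ) :
    ∃ C : ℝ, 0 ≤ C ∧ ∀ k, goodK W k → ∀ j, ‖k j‖ ^ N * ‖cft f k‖ ≤ C := by
  choose g hg hk using fun j => exists_iter_deriv f hf (eb j) N
  refine ⟨∑ j, ∫ x, ‖g j x‖, Finset.sum_nonneg fun j _ => integral_nonneg fun x => norm_nonneg _,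
    fun k hk' j => ?_⟩
  have h1 : ‖cft (g j) k‖ ≤ ∫ x, ‖g j x‖ := norm_cft_le _ _ fun x hx => hk' x ((hg j).2 hx)
  rw [hk, norm_mul, norm_pow, norm_neg, norm_mul, norm_I, one_mul, cdot_eb, norm_mul] at h1
  have h2 : ‖((sgn j : ℝ) : ℂ)‖ = 1 := by
    unfold sgn; split_ifs <;> simp
  rw [h2, one_mul] at h1
  refine h1.trans ?_
  exact Finset.single_le_sum (f := fun j => ∫ x, ‖g j x‖)
    (fun j _ => integral_nonneg fun x => norm_nonneg _) (Finset.mem_univ j)

end Vale.Agent.P352
end
end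

section

section

open MeasureTheory SchwartzMap Complex
open scoped SchwartzMap ComplexConjugate LineDeriv

namespace Vale.Agent.P352

/-- complex boost in the 1-direction -/
noncomputable def cboost (z : ℂ) (p : Mink) : Fin 4 → ℂ :=
  ![p 0 * cosh z + p 1 * sinh z, p 0 * sinh z + p 1 * cosh z, p 2, p 3]

@[simp] lemma boost_0 (t : ℝ) (p : Mink) : boost t p 0 = p 0 * Real.cosh t + p 1 * Real.sinh t := rfl
@[simp] lemma boost_1 (t : ℝ) (p : Mink) : boost t p 1 = p 0 * Real.sinh t + p 1 * Real.cosh t := rfl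
@[simp] lemma boost_2 (t : ℝ) (p : Mink) : boost t p 2 = p 2 := rfl
@[simp] lemma boost_3 (t : ℝ) (p : Mink) : boost t p 3 = p 3 := rfl
@[simp] lemma rotPi_0 (p : Mink) : rotPi p 0 = p 0 := rfl
@[simp] lemma rotPi_1 (p : Mink) : rotPi p 1 = p 1 := rfl
@[simp] lemma rotPi_2 (p : Mink) : rotPi p 2 = - p 2 := rfl
@[simp] lemma rotPi_3 (p : Mink) : rotPi p 3 = - p 3 := rfl

lemma mink_ext {x y : Mink} (h0 : x 0 = y 0) (h1 : x 1 = y 1) (h2 : x 2 = y 2) (h3 : x 3 = y 3) :
    x = y := by
  ext j; fin_cases j <;> assumption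

lemma boost_boost (s t : ℝ) (p : Mink) : boost s (boost t p) = boost (s + t) p := by
  apply mink_ext <;> simp [Real.cosh_add, Real.sinh_add] <;> ring

@[simp] lemma boost_zero (p : Mink) : boost 0 p = p := by
  apply mink_ext <;> simp

lemma rotPi_rotPi (p : Mink) : rotPi (rotPi p) = p := by
  apply mink_ext <;> simp

lemma boost_rotPi (t : ℝ) (p : Mink) : boost t (rotPi p) = rotPi (boost t p) := by
  apply mink_ext <;> simp

lemma mdot_boost (t : ℝ) (p q : Mink) : mdot (boost t p) (boost t q) = mdot p q := by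
  have := Real.cosh_sq t
  simp only [mdot, boost_0, boost_1, boost_2, boost_3]
  linear_combination (p 0 * q 0 - p 1 * q 1) * this

lemma mdot_rotPi (p q : Mink) : mdot (rotPi p) (rotPi q) = mdot p q := by
  simp only [mdot, Fin.isValue, rotPi_0, rotPi_1, rotPi_2, mul_neg, neg_mul, neg_neg, rotPi_3]

lemma mdot_comm (p q : Mink) : mdot p q = mdot q p := by
  simp only [mdot, Fin.isValue]; ring

lemma abs_le_of_mem_fwdCone {p : Mink} (hp : p ∈ fwdCone) : |p 1| ≤ p 0 := by
  have h1 := hp.1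
  have h2 := hp.2
  simp only [mdot] at h2
  apply abs_le_of_sq_le_sq _ h1
  nlinarith only [h2]

lemma boost_mem_fwdCone {p : Mink} (hp : p ∈ fwdCone) (t : ℝ) : boost t p ∈ fwdCone := by
  refine ⟨?_, by rw [mdot_boost]; exact hp.2⟩
  have h := abs_le.1 (abs_le_of_mem_fwdCone hp)
  have hc := Real.cosh_pos t
  have hs : |Real.sinh t| ≤ Real.cosh t := by
    rw [Real.cosh_eq, Real.sinh_eq, abs_le]
    constructor <;> linarith only [Real.exp_pos (-t), Real.exp_pos t]
  have hs' := abs_le.1 hs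
  simp only [boost_0]
  nlinarith only [h, hs']

lemma cboost_add (s : ℝ) (z : ℂ) (p : Mink) : cboost (s + z) p = cboost z (boost s p) := by
  unfold cboost
  have h1 : ((Real.cosh s : ℝ) : ℂ) = cosh s := by simp
  have h2 : ((Real.sinh s : ℝ) : ℂ) = sinh s := by simp
  funext j
  fin_cases j
  · simp only [Fin.isValue, cosh_add, sinh_add, Nat.succ_eq_add_one, Nat.reduceAdd, Fin.zero_eta,
      Matrix.cons_val_zero, boost_0, ofReal_add, ofReal_mul, ofReal_cosh, ofReal_sinh, boost_1,
      boost_2, boost_3]; ring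
  · simp only [Fin.isValue, cosh_add, sinh_add, Nat.succ_eq_add_one, Nat.reduceAdd, Fin.mk_one,
      Matrix.cons_val_one, Matrix.cons_val_zero, boost_0, ofReal_add, ofReal_mul, ofReal_cosh,
      ofReal_sinh, boost_1, boost_2, boost_3]; ring
  · simp only [Fin.isValue, Nat.succ_eq_add_one, Nat.reduceAdd, Fin.reduceFinMk, Matrix.cons_val,
      boost_0, ofReal_add, ofReal_mul, ofReal_cosh, ofReal_sinh, boost_1, boost_2, boost_3]
  · simp only [Fin.isValue, Nat.succ_eq_add_one, Nat.reduceAdd, Fin.reduceFinMk, Matrix.cons_val,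
      boost_0, ofReal_add, ofReal_mul, ofReal_cosh, ofReal_sinh, boost_1, boost_2, boost_3]

lemma cboost_ofReal (t : ℝ) (p : Mink) : cboost t p = fun j => ((boost t p j : ℝ) : ℂ) := by
  funext j
  fin_cases j <;> simp [cboost]

lemma cft_ofReal (f : 𝓢(Mink, ℂ)) (p : Mink) : cft f (fun j => (p j : ℂ)) = mft f p := by
  simp only [cft, cdot, Fin.isValue, mft, mdot, ofReal_sub, ofReal_mul]

lemma cft_cboost_ofReal (f : 𝓢(Mink, ℂ)) (t : ℝ) (p : Mink) :
    cft f (cboost t p) = mft f (boost t p) := by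
  rw [cboost_ofReal, cft_ofReal]

/-- imaginary part of the boosted pairing -/
lemma cdot_cboost_neg_im (l : ℝ) (p x : Mink) :
    (cdot (cboost (-(l * I)) p) x).im = Real.sin l * (p 0 * x 1 - p 1 * x 0) := by
  have h1 : cosh (-(l * I)) = (Real.cos l : ℂ) := by
    rw [cosh_neg, cosh_mul_I]; simp
  have h2 : sinh (-(l * I)) = - (Real.sin l : ℂ) * I := by
    rw [sinh_neg, sinh_mul_I]; simp
  simp only [cdot, cboost, h1, h2]
  simp only [Fin.isValue, neg_mul, mul_neg, Matrix.cons_val_zero, Matrix.cons_val_one,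
    Matrix.cons_val, sub_im, mul_im, add_re, mul_re, ofReal_re, ofReal_im, mul_zero, sub_zero,
    neg_re, I_re, I_im, mul_one, sub_self, add_zero, zero_mul, neg_zero, add_im, neg_im, zero_add,
    sub_neg_eq_add]
  ring

lemma goodK_cboost {p : Mink} (hp : p ∈ fwdCone) {l : ℝ} (h0 : 0 ≤ l) (h1 : l ≤ Real.pi) :
    goodK wedge (cboost (-(l * I)) p) := by
  intro x hx
  rw [cdot_cboost_neg_im]
  apply mul_nonneg (Real.sin_nonneg_of_nonneg_of_le_pi h0 h1)
  have h := abs_le_of_mem_fwdCone hp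
  have hx' : |x 0| < x 1 := hx
  have : |p 1 * x 0| ≤ p 0 * x 1 := by
    rw [abs_mul]
    exact mul_le_mul h hx'.le (abs_nonneg _) hp.1
  linarith only [le_abs_self (p 1 * x 0), this]

lemma goodK_strip {p : Mink} (hp : p ∈ fwdCone) {z : ℂ} (h0 : -Real.pi ≤ z.im) (h1 : z.im ≤ 0) :
    goodK wedge (cboost z p) := by
  have hz : z = (z.re : ℂ) + (-((-z.im : ℝ) * I)) := by
    apply Complex.ext <;> simp
  rw [hz, cboost_add]
  exact goodK_cboost (boost_mem_fwdCone hp _) (by linarith) (by linarith only [h0])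

lemma norm_sq_cboost (l : ℝ) (p : Mink) :
    ‖cboost (-(l * I)) p 0‖ ^ 2 + ‖cboost (-(l * I)) p 1‖ ^ 2 = p 0 ^ 2 + p 1 ^ 2 := by
  have h1 : cosh (-(l * I)) = (Real.cos l : ℂ) := by
    rw [cosh_neg, cosh_mul_I]; simp
  have h2 : sinh (-(l * I)) = - (Real.sin l : ℂ) * I := by
    rw [sinh_neg, sinh_mul_I]; simp
  have := Real.sin_sq_add_cos_sq l
  simp only [cboost, h1, h2, ← normSq_eq_norm_sq, normSq_apply]
  simp only [Fin.isValue, neg_mul, mul_neg, Matrix.cons_val_zero, add_re, mul_re, ofReal_re,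
    ofReal_im, mul_zero, sub_zero, neg_re, I_re, I_im, mul_one, sub_self, mul_im, add_zero,
    zero_mul, neg_zero, add_im, neg_im, zero_add, neg_neg, Matrix.cons_val_one]
  linear_combination (p 0 ^ 2 + p 1 ^ 2) * this

lemma norm_sq_mink (p : Mink) : ‖p‖ ^ 2 = p 0 ^ 2 + p 1 ^ 2 + p 2 ^ 2 + p 3 ^ 2 := by
  rw [EuclideanSpace.norm_sq_eq]
  simp [Fin.sum_univ_four]

lemma norm_sq_le_sum (l : ℝ) (p : Mink) :
    ‖p‖ ^ 2 = ∑ j, ‖cboost (-(l * I)) p j‖ ^ 2 := by
  rw [norm_sq_mink, Fin.sum_univ_four, norm_sq_cboost]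
  simp only [Fin.isValue, cboost, cosh_neg, sinh_neg, mul_neg, Matrix.cons_val, norm_real,
    Real.norm_eq_abs, sq_abs]

lemma exists_coord (l : ℝ) (p : Mink) : ∃ j, ‖p‖ ≤ 2 * ‖cboost (-(l * I)) p j‖ := by
  by_contra hcon
  push Not at hcon
  have h := norm_sq_le_sum l p
  have h4 : ∀ j, (2 * ‖cboost (-(l * I)) p j‖) ^ 2 < ‖p‖ ^ 2 := fun j =>
    pow_lt_pow_left₀ (hcon j) (by positivity) (by norm_num)
  rw [Fin.sum_univ_four] at h
  nlinarith only [h, h4 0, h4 1, h4 2, h4 3]

/-- Uniform rapid decay of the Fourier-Laplace transform of a test function in the wedge. -/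
lemma exists_decay (f : 𝓢(Mink, ℂ)) (hf : IsTest wedge f) (N : ℕ) :
    ∃ C : ℝ, 0 ≤ C ∧ ∀ p ∈ fwdCone, ∀ z : ℂ, -Real.pi ≤ z.im → z.im ≤ 0 →
      (1 + ‖boost z.re p‖) ^ N * ‖cft f (cboost z p)‖ ≤ C := by
  obtain ⟨C0, hC0, h0⟩ := exists_decay_coord f hf 0
  obtain ⟨C1, hC1, h1⟩ := exists_decay_coord f hf N
  refine ⟨2 ^ N * C0 + 4 ^ N * C1, by (clear * - hC0 hC1; positivity), fun p hp z hz0 hz1 => ?_⟩
  have hz : z = (z.re : ℂ) + (-((-z.im : ℝ) * I)) := by
    apply Complex.ext <;> simp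
  set q := boost z.re p with hq
  set l : ℝ := -z.im with hl
  have hb : cboost z p = cboost (-(l * I)) q := by
    rw [hz, cboost_add]
  rw [hb]
  have hgood : goodK wedge (cboost (-(l * I)) q) := by
    rw [← hb]; exact goodK_strip hp hz0 hz1
  obtain ⟨j, hj⟩ := exists_coord l q
  have e0 := h0 _ hgood j
  have e1 := h1 _ hgood j
  rw [pow_zero, one_mul] at e0
  set c := ‖cft f (cboost (-(l * I)) q)‖ with hc
  have hc0 : 0 ≤ c := norm_nonneg _
  by_cases hq1 : ‖q‖ ≤ 1
  · calc (1 + ‖q‖) ^ N * c ≤ 2 ^ N * C0 := by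
          gcongr; linarith only [hq1]
      _ ≤ _ := by
          have : 0 ≤ 4 ^ N * C1 := by (clear * - hC1; positivity)
          linarith only [this]
  · push Not at hq1
    calc (1 + ‖q‖) ^ N * c ≤ (4 * ‖cboost (-(l * I)) q j‖) ^ N * c := by
          gcongr; linarith only [hj, hq1]
      _ = 4 ^ N * (‖cboost (-(l * I)) q j‖ ^ N * c) := by rw [mul_pow]; ring
      _ ≤ 4 ^ N * C1 := by (clear * - e1; gcongr)
      _ ≤ _ := by
          have : 0 ≤ 2 ^ N * C0 := by (clear * - hC0; positivity)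
          linarith only [this]

end Vale.Agent.P352
end
end

section

section

open MeasureTheory SchwartzMap Complex Filter Topology
open scoped SchwartzMap ComplexConjugate LineDeriv ENNReal

namespace Vale.Agent.P352

/-- The properties of the momentum space measure that are used for the wedge lemma. -/
structure GoodMeasure (μ : Measure Mink) : Prop where
  temp : μ.HasTemperateGrowth
  cone : μ fwdConeᶜ = 0
  boost : ∀ t, MeasurePreserving (boost t) μ μ
  rot : MeasurePreserving rotPi μ μ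

lemma continuous_coord (j : Fin 4) : Continuous fun p : Mink => p j := by
  fun_prop

lemma continuous_mink {X : Type*} [TopologicalSpace X] {a b c d : X → ℝ} (ha : Continuous a)
    (hb : Continuous b) (hc : Continuous c) (hd : Continuous d) :
    Continuous fun x => (WithLp.toLp 2 ![a x, b x, c x, d x] : Mink) := by
  apply (PiLp.continuous_toLp 2 _).comp
  refine continuous_pi fun j => ?_
  fin_cases j <;> simpa

lemma continuous_boost : Continuous fun q : ℝ × Mink => boost q.1 q.2 := by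
  apply continuous_mink
  all_goals
    first
    | exact ((continuous_coord 0).comp continuous_snd).mul
        (Real.continuous_cosh.comp continuous_fst) |>.add
        (((continuous_coord 1).comp continuous_snd).mul (Real.continuous_sinh.comp continuous_fst))
    | exact ((continuous_coord 0).comp continuous_snd).mul
        (Real.continuous_sinh.comp continuous_fst) |>.add
        (((continuous_coord 1).comp continuous_snd).mul (Real.continuous_cosh.comp continuous_fst))
    | exact (continuous_coord 2).comp continuous_snd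
    | exact (continuous_coord 3).comp continuous_snd

lemma continuous_boost_right (t : ℝ) : Continuous (boost t) :=
  continuous_boost.comp (by fun_prop : Continuous fun p : Mink => (t, p))

lemma continuous_rotPi : Continuous rotPi := by
  apply continuous_mink
  · exact continuous_coord 0
  · exact continuous_coord 1
  · exact (continuous_coord 2).neg
  · exact (continuous_coord 3).neg

lemma continuous_cboost : Continuous fun q : ℂ × Mink => cboost q.1 q.2 := by
  have h : ∀ j : Fin 4, Continuous fun q : ℂ × Mink => ((q.2 j : ℝ) : ℂ) := fun j =>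
    continuous_ofReal.comp ((continuous_coord j).comp continuous_snd)
  have hc : Continuous fun q : ℂ × Mink => cosh q.1 := continuous_cosh.comp continuous_fst
  have hs : Continuous fun q : ℂ × Mink => sinh q.1 := continuous_sinh.comp continuous_fst
  refine continuous_pi fun j => ?_
  fin_cases j
  · exact ((h 0).mul hc).add ((h 1).mul hs)
  · exact ((h 0).mul hs).add ((h 1).mul hc)
  · exact h 2
  · exact h 3

lemma continuous_cdot_uncurry : Continuous fun q : (Fin 4 → ℂ) × Mink => cdot q.1 q.2 := by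
  have h : ∀ j : Fin 4, Continuous fun q : (Fin 4 → ℂ) × Mink => ((q.2 j : ℝ) : ℂ) := fun j =>
    continuous_ofReal.comp ((continuous_coord j).comp continuous_snd)
  have hk : ∀ j : Fin 4, Continuous fun q : (Fin 4 → ℂ) × Mink => q.1 j := fun j =>
    (continuous_apply j).comp continuous_fst
  exact ((((hk 0).mul (h 0)).sub ((hk 1).mul (h 1))).sub ((hk 2).mul (h 2))).sub
    ((hk 3).mul (h 3))

lemma continuous_cft (f : 𝓢(Mink, ℂ)) (hf : HasCompactSupport f) : Continuous (cft f) := by
  have h1 : ∀ k, cft f k = ∫ x in tsupport f, exp (I * cdot k x) * f x := by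
    intro k
    rw [cft, setIntegral_eq_integral_of_forall_compl_eq_zero]
    intro x hx
    rw [image_eq_zero_of_notMem_tsupport hx, mul_zero]
  have h2 : cft f = fun k => ∫ x in tsupport f, exp (I * cdot k x) * f x := funext h1
  rw [h2]
  have := continuous_parametric_integral_of_continuous (μ := (volume : Measure Mink))
    (f := fun (k : Fin 4 → ℂ) (x : Mink) => exp (I * cdot k x) * f x) ?_ (s := tsupport f) hf
  · exact this
  · exact (continuous_exp.comp (continuous_const.mul continuous_cdot_uncurry)).mul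
      (f.continuous.comp continuous_snd)

lemma differentiable_cft_cboost (f : 𝓢(Mink, ℂ)) (hf : HasCompactSupport f) (p : Mink) :
    Differentiable ℂ fun z => cft f (cboost z p) := by
  intro z₀
  have hcont : Continuous fun q : ℂ × Mink => exp (I * cdot (cboost q.1 p) q.2) := by
    apply continuous_exp.comp
    apply continuous_const.mul
    have h1 : Continuous fun q : ℂ × Mink => cboost q.1 p :=
      continuous_cboost.comp (continuous_fst.prodMk continuous_const)
    have h2 : Continuous fun q : ℂ × Mink => (cboost q.1 p, q.2) := h1.prodMk continuous_snd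
    exact Continuous.comp (f := fun q : ℂ × Mink => (cboost q.1 p, q.2))
      (g := fun r : (Fin 4 → ℂ) × Mink => cdot r.1 r.2) continuous_cdot_uncurry h2
  obtain ⟨C, hC⟩ := ((isCompact_closedBall z₀ 1).prod hf).bddAbove_image
    (f := fun q : ℂ × Mink => ‖exp (I * cdot (cboost q.1 p) q.2)‖) hcont.norm.continuousOn
  have hC' : ∀ z ∈ Metric.closedBall z₀ 1, ∀ x ∈ tsupport f,
      ‖exp (I * cdot (cboost z p) x)‖ ≤ C := by
    intro z hz x hx
    exact hC ⟨(z, x), ⟨hz, hx⟩, rfl⟩
  refine differentiableAt_integral (U := Metric.ball z₀ 1) Metric.isOpen_ball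
    (F := fun z x => exp (I * cdot (cboost z p) x) * f x) (bound := fun x => C * ‖f x‖)
    ?_ ?_ ?_ ?_ (Metric.mem_ball_self one_pos)
  · intro z _
    exact (integrable_cexp_mul _ f hf).aestronglyMeasurable
  · refine Eventually.of_forall fun x => ?_
    have : Differentiable ℂ fun z : ℂ => exp (I * cdot (cboost z p) x) * f x := by
      have h1 : Differentiable ℂ fun z : ℂ => cdot (cboost z p) x := by
        simp only [cdot, cboost]
        simp only [Fin.isValue, Matrix.cons_val_zero, Matrix.cons_val_one, Matrix.cons_val,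
          differentiable_const, Differentiable.fun_sub_iff_left]
        fun_prop
      (clear * - h1; fun_prop)
    exact this.differentiableOn
  · refine Eventually.of_forall fun x z hz => ?_
    rw [norm_mul]
    by_cases hx : x ∈ tsupport f
    · gcongr
      exact hC' z (Metric.ball_subset_closedBall hz) x hx
    · simp [image_eq_zero_of_notMem_tsupport hx]
  · exact f.integrable.norm.const_mul C

lemma norm_boost_le (t : ℝ) (q : Mink) : ‖boost t q‖ ≤ 2 * Real.cosh t * ‖q‖ := by
  have h := norm_sq_mink (boost t q)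
  have h2 := norm_sq_mink q
  simp only [boost_0, boost_1, boost_2, boost_3] at h
  have hc := Real.one_le_cosh t
  have hcs := Real.cosh_sq t
  apply le_of_sq_le_sq _ (by (clear * -; (clear * -; positivity)))
  rw [h, mul_pow, h2]
  have e1 : (q 0 * Real.cosh t + q 1 * Real.sinh t) ^ 2 +
      (q 0 * Real.sinh t + q 1 * Real.cosh t) ^ 2 ≤
      4 * Real.cosh t ^ 2 * (q 0 ^ 2 + q 1 ^ 2) := by
    nlinarith only [sq_nonneg (q 0 * Real.sinh t - q 1 * Real.cosh t), sq_nonneg (q 0),
      sq_nonneg (q 1), hcs]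
  have e2 : q 2 ^ 2 + q 3 ^ 2 ≤ 4 * Real.cosh t ^ 2 * (q 2 ^ 2 + q 3 ^ 2) := by
    have : 1 ≤ 4 * Real.cosh t ^ 2 := by nlinarith only [hcs]
    nlinarith only [hcs]
  calc _ ≤ 4 * Real.cosh t ^ 2 * (q 0 ^ 2 + q 1 ^ 2) + 4 * Real.cosh t ^ 2 * (q 2 ^ 2 + q 3 ^ 2) := by
        linarith only [e1, e2]
    _ = _ := by ring

lemma norm_le_boost (t : ℝ) (q : Mink) : ‖q‖ ≤ 2 * Real.cosh t * ‖boost t q‖ := by
  have := norm_boost_le (-t) (boost t q)
  rwa [boost_boost, neg_add_cancel, boost_zero, Real.cosh_neg] at this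

lemma one_add_norm_le_boost (t : ℝ) (q : Mink) :
    1 + ‖q‖ ≤ 2 * Real.cosh t * (1 + ‖boost t q‖) := by
  have h := norm_le_boost t q
  have hc := Real.one_le_cosh t
  nlinarith only [h, hc]

/-- the weight `(1+|p|)^{-N}` -/
noncomputable def wt (N : ℕ) (p : Mink) : ℝ := ((1 + ‖p‖) ^ N)⁻¹

lemma wt_nonneg (N : ℕ) (p : Mink) : 0 ≤ wt N p := by unfold wt; (clear * -; positivity)

lemma continuous_wt (N : ℕ) : Continuous (wt N) := by
  unfold wt
  apply Continuous.inv₀ (by fun_prop)
  intro p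
  positivity

lemma wt_boost_le (N : ℕ) (t : ℝ) (p : Mink) :
    wt N (boost t p) ≤ (2 * Real.cosh t) ^ N * wt N p := by
  unfold wt
  have h := one_add_norm_le_boost t p
  rw [inv_le_comm₀ (by (clear * -; positivity)) (by have := Real.cosh_pos t; positivity), mul_inv, inv_inv]
  rw [← inv_pow, ← mul_pow]
  gcongr
  rw [inv_mul_le_iff₀ (by have := Real.cosh_pos t; positivity)]
  exact h

variable {μ : Measure Mink}

lemma exists_wt_memLp (hμ : μ.HasTemperateGrowth) : ∃ N : ℕ, MemLp (wt N) 2 μ := by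
  obtain ⟨k, hk⟩ := hμ.exists_eLpNorm_lt_top 2
  refine ⟨k, (continuous_wt k).aestronglyMeasurable, ?_⟩
  refine lt_of_eq_of_lt ?_ hk
  congr 1
  ext x
  rw [wt, Real.rpow_neg (by positivity), Real.rpow_natCast]

lemma exists_decay_wt (f : 𝓢(Mink, ℂ)) (hf : IsTest wedge f) (N : ℕ) :
    ∃ C : ℝ, 0 ≤ C ∧ ∀ p ∈ fwdCone, ∀ z ∈ cstrip,
      ‖cft f (cboost z p)‖ ≤ C * wt N (boost z.re p) := by
  obtain ⟨C, hC, h⟩ := exists_decay f hf N
  refine ⟨C, hC, fun p hp z hz => ?_⟩
  have := h p hp z hz.1 hz.2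
  rw [wt, ← div_eq_mul_inv, le_div_iff₀ (by (clear * -; positivity)), mul_comm]
  exact this

lemma ae_cone (hμ : GoodMeasure μ) : ∀ᵐ p ∂μ, p ∈ fwdCone := by
  rw [ae_iff]
  exact hμ.cone

/-- the functional `b_φ(z) = ∫ f^(Λ_z p) φ(p) dμ(p)` -/
noncomputable def bfun (μ : Measure Mink) (f : 𝓢(Mink, ℂ)) (φ : Mink → ℂ) (z : ℂ) : ℂ :=
  ∫ p, cft f (cboost z p) * φ p ∂μ

lemma continuous_cboost_right (z : ℂ) : Continuous fun p : Mink => cboost z p := by
  have h1 : Continuous fun p : Mink => ((z, p) : ℂ × Mink) := by fun_prop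
  exact continuous_cboost.comp h1

lemma continuous_cft_cboost_right (f : 𝓢(Mink, ℂ)) (hf : HasCompactSupport f) (z : ℂ) :
    Continuous fun p : Mink => cft f (cboost z p) := by
  have h1 := continuous_cft f hf
  have h2 := continuous_cboost_right z
  exact h1.comp h2

lemma memLp_cft (hμ : GoodMeasure μ) (f : 𝓢(Mink, ℂ)) (hf : IsTest wedge f) :
    ∃ C : ℝ≥0∞, C ≠ ∞ ∧ ∀ z ∈ cstrip, MemLp (fun p => cft f (cboost z p)) 2 μ ∧
      eLpNorm (fun p => cft f (cboost z p)) 2 μ ≤ C := by
  obtain ⟨N, hN⟩ := exists_wt_memLp hμ.temp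
  obtain ⟨C, hC, h⟩ := exists_decay_wt f hf N
  refine ⟨eLpNorm (fun p => C * wt N p) 2 μ, (hN.const_mul C).eLpNorm_ne_top, fun z hz => ?_⟩
  have hle : eLpNorm (fun p => cft f (cboost z p)) 2 μ ≤ eLpNorm (fun p => C * wt N p) 2 μ := by
    have e1 : eLpNorm (fun p => C * wt N p) 2 μ =
        eLpNorm ((fun p => C * wt N p) ∘ boost z.re) 2 μ :=
      (eLpNorm_comp_measurePreserving
        ((continuous_const.mul (continuous_wt N)).aestronglyMeasurable) (hμ.boost z.re)).symm
    rw [e1]
    apply eLpNorm_mono_ae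
    filter_upwards [ae_cone hμ] with p hp
    refine (h p hp z hz).trans ?_
    simp only [Function.comp, Real.norm_eq_abs]
    exact le_abs_self _
  exact ⟨⟨(continuous_cft_cboost_right f hf.1 z).aestronglyMeasurable,
    lt_of_le_of_lt hle (hN.const_mul C).eLpNorm_lt_top⟩, hle⟩

lemma bfun_bound (hμ : GoodMeasure μ) (f : 𝓢(Mink, ℂ)) (hf : IsTest wedge f) {φ : Mink → ℂ}
    (hφ : MemLp φ 2 μ) : ∃ M : ℝ, ∀ z ∈ cstrip, ‖bfun μ f φ z‖ ≤ M := by
  obtain ⟨C, hC, h⟩ := memLp_cft hμ f hf
  refine ⟨(C * eLpNorm φ 2 μ).toReal, fun z hz => ?_⟩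
  obtain ⟨h1, h2⟩ := h z hz
  have hle : eLpNorm (fun p => cft f (cboost z p) * φ p) 1 μ ≤ C * eLpNorm φ 2 μ := by
    calc eLpNorm (fun p => cft f (cboost z p) * φ p) 1 μ
        ≤ eLpNorm (fun p => cft f (cboost z p)) 2 μ * eLpNorm φ 2 μ := by
          have := eLpNorm_smul_le_mul_eLpNorm (p := 2) (q := 2) (r := 1)
            hφ.aestronglyMeasurable h1.aestronglyMeasurable
          exact this
      _ ≤ C * eLpNorm φ 2 μ := by (clear * - h2; (clear * - h2; gcongr))
  have hfin : C * eLpNorm φ 2 μ ≠ ∞ := ENNReal.mul_ne_top hC hφ.eLpNorm_ne_top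
  calc ‖bfun μ f φ z‖ ≤ (eLpNorm (fun p => cft f (cboost z p) * φ p) 1 μ).toReal := by
        unfold bfun
        rw [eLpNorm_one_eq_lintegral_enorm]
        have h3 := enorm_integral_le_lintegral_enorm (μ := μ) (fun p => cft f (cboost z p) * φ p)
        have h4 : ∫⁻ p, ‖cft f (cboost z p) * φ p‖ₑ ∂μ ≠ ∞ := by
          rw [← eLpNorm_one_eq_lintegral_enorm]
          exact ne_top_of_le_ne_top hfin hle
        rw [← toReal_enorm]
        exact ENNReal.toReal_mono h4 h3
    _ ≤ _ := ENNReal.toReal_mono hfin hle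

end Vale.Agent.P352
end
end

section

section

open MeasureTheory SchwartzMap Complex Filter Topology
open scoped SchwartzMap ComplexConjugate LineDeriv ENNReal

namespace Vale.Agent.P352

variable {μ : Measure Mink}

lemma cft_cboost_neg_pi (f : 𝓢(Mink, ℂ)) (t : ℝ) (p : Mink) :
    cft f (cboost ((t : ℂ) - Real.pi * I) p) = conj (mft (conjS f) (rotPi (boost t p))) := by
  rw [sub_eq_add_neg, cboost_add]
  set q := boost t p
  have h1 : ∀ x : Mink, cdot (cboost (-(Real.pi * I)) q) x = ((-(mdot (rotPi q) x) : ℝ) : ℂ) := by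
    intro x
    have e1 : cosh (-((Real.pi : ℂ) * I)) = -1 := by
      rw [cosh_neg, cosh_mul_I]; simp
    have e2 : sinh (-((Real.pi : ℂ) * I)) = 0 := by
      rw [sinh_neg, sinh_mul_I]; simp
    simp only [cdot, cboost, e1, e2, mdot]
    simp only [Fin.isValue, mul_neg, mul_one, mul_zero, add_zero, zero_add, Matrix.cons_val_zero,
      neg_mul, Matrix.cons_val_one, sub_neg_eq_add, Matrix.cons_val, rotPi_0, rotPi_1, rotPi_2,
      rotPi_3, neg_add_rev, neg_sub, ofReal_add, ofReal_neg, ofReal_mul, ofReal_sub]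
    ring
  rw [cft, mft, ← integral_conj]
  congr 1
  ext x
  rw [h1, map_mul, ← exp_conj, map_mul, conj_I, conj_ofReal, conjS_apply, conj_conj]
  congr 2
  push_cast
  ring

lemma memLp_wt_mul {N : ℕ} (hN : MemLp (wt N) 2 μ) {φ : Mink → ℂ} (hφ : MemLp φ 2 μ) :
    Integrable (fun p => wt N p * ‖φ p‖) μ := by
  exact hN.integrable_mul hφ.norm

lemma bfun_local_bound (hμ : GoodMeasure μ) (f : 𝓢(Mink, ℂ)) (hf : IsTest wedge f) {φ : Mink → ℂ}
    (hφ : MemLp φ 2 μ) (T : ℝ) : ∃ bound : Mink → ℝ, Integrable bound μ ∧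
      ∀ᵐ p ∂μ, ∀ z ∈ cstrip, |z.re| ≤ T → ‖cft f (cboost z p) * φ p‖ ≤ bound p := by
  obtain ⟨N, hN⟩ := exists_wt_memLp hμ.temp
  obtain ⟨C, hC, h⟩ := exists_decay_wt f hf N
  refine ⟨fun p => C * ((2 * Real.cosh T) ^ N * (wt N p * ‖φ p‖)),
    ((memLp_wt_mul hN hφ).const_mul _).const_mul _, ?_⟩
  filter_upwards [ae_cone hμ] with p hp z hz hT
  have hcosh : Real.cosh z.re ≤ Real.cosh T := by
    apply Real.cosh_le_cosh.2
    exact hT.trans (le_abs_self T)
  rw [norm_mul]
  calc ‖cft f (cboost z p)‖ * ‖φ p‖ ≤ (C * wt N (boost z.re p)) * ‖φ p‖ := by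
        gcongr
        exact h p hp z hz
    _ ≤ (C * ((2 * Real.cosh z.re) ^ N * wt N p)) * ‖φ p‖ := by
        gcongr
        exact wt_boost_le N z.re p
    _ ≤ (C * ((2 * Real.cosh T) ^ N * wt N p)) * ‖φ p‖ := by
        have := wt_nonneg N p
        have := Real.cosh_pos z.re
        gcongr
    _ = _ := by ring

lemma bfun_aesm (f : 𝓢(Mink, ℂ)) (hf : HasCompactSupport f) {φ : Mink → ℂ}
    (hφ : MemLp φ 2 μ) (z : ℂ) : AEStronglyMeasurable (fun p => cft f (cboost z p) * φ p) μ :=
  (continuous_cft_cboost_right f hf z).aestronglyMeasurable.mul hφ.aestronglyMeasurable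

lemma bfun_integrable (hμ : GoodMeasure μ) (f : 𝓢(Mink, ℂ)) (hf : IsTest wedge f) {φ : Mink → ℂ}
    (hφ : MemLp φ 2 μ) {z : ℂ} (hz : z ∈ cstrip) :
    Integrable (fun p => cft f (cboost z p) * φ p) μ := by
  obtain ⟨bound, hb, h⟩ := bfun_local_bound hμ f hf hφ |z.re|
  refine hb.mono' (bfun_aesm f hf.1 hφ z) ?_
  filter_upwards [h] with p hp using hp z hz le_rfl

lemma bfun_continuousOn (hμ : GoodMeasure μ) (f : 𝓢(Mink, ℂ)) (hf : IsTest wedge f) {φ : Mink → ℂ}
    (hφ : MemLp φ 2 μ) : ContinuousOn (bfun μ f φ) cstrip := by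
  intro z₀ hz₀
  obtain ⟨bound, hb, h⟩ := bfun_local_bound hμ f hf hφ (|z₀.re| + 1)
  unfold bfun
  apply continuousWithinAt_of_dominated (bound := bound)
  · exact Eventually.of_forall fun z => bfun_aesm f hf.1 hφ z
  · have hmem : {z : ℂ | |z.re| < |z₀.re| + 1} ∈ 𝓝 z₀ := by
      apply IsOpen.mem_nhds
      · exact isOpen_lt (by fun_prop) continuous_const
      · simp only [Set.mem_ofPred_eq, lt_add_iff_pos_right, zero_lt_one]
    filter_upwards [mem_nhdsWithin_of_mem_nhds hmem, self_mem_nhdsWithin] with z hz1 hz2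
    filter_upwards [h] with p hp using hp z hz2 (le_of_lt hz1)
  · exact hb
  · refine Eventually.of_forall fun p => ?_
    apply Continuous.continuousWithinAt
    exact ((differentiable_cft_cboost f hf.1 p).continuous).mul continuous_const

lemma bfun_differentiableOn (hμ : GoodMeasure μ) (f : 𝓢(Mink, ℂ)) (hf : IsTest wedge f)
    {φ : Mink → ℂ} (hφ : MemLp φ 2 μ) : DifferentiableOn ℂ (bfun μ f φ) ostrip := by
  intro z₀ hz₀
  apply DifferentiableAt.differentiableWithinAt
  obtain ⟨bound, hb, h⟩ := bfun_local_bound hμ f hf hφ (|z₀.re| + 1)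
  set U : Set ℂ := {z : ℂ | |z.re| < |z₀.re| + 1} ∩ ostrip with hU
  have hUo : IsOpen U := by
    apply IsOpen.inter
    · exact isOpen_lt (by fun_prop) continuous_const
    · apply IsOpen.inter
      · exact isOpen_lt continuous_const continuous_im
      · exact isOpen_lt continuous_im continuous_const
  refine differentiableAt_integral hUo (F := fun z p => cft f (cboost z p) * φ p)
    (bound := bound) ?_ ?_ ?_ hb ⟨by simp only [Set.mem_ofPred_eq, lt_add_iff_pos_right,
                                       zero_lt_one], hz₀⟩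
  · exact fun z _ => bfun_aesm f hf.1 hφ z
  · refine Eventually.of_forall fun p => ?_
    exact ((differentiable_cft_cboost f hf.1 p).mul_const _).differentiableOn
  · filter_upwards [h] with p hp z hz
    exact hp z ⟨hz.2.1.le, hz.2.2.le⟩ (le_of_lt hz.1)

lemma ofReal_mem_cstrip (t : ℝ) : (t : ℂ) ∈ cstrip := by
  constructor <;> simp [Real.pi_pos.le]

lemma ofReal_sub_mem_cstrip (t : ℝ) : (t : ℂ) - Real.pi * I ∈ cstrip := by
  constructor <;> simp [Real.pi_pos.le]

/-- contour shift for `b_φ` -/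
lemma bfun_shift (hμ : GoodMeasure μ) (f : 𝓢(Mink, ℂ)) (hf : IsTest wedge f)
    {φ : Mink → ℂ} (hφ : MemLp φ 2 μ) {s : ℝ} (hs : 0 < s) :
    ∫ t : ℝ, exp (-(s : ℂ) * (t : ℂ) ^ 2) * bfun μ f φ (t - Real.pi * I) =
      ∫ t : ℝ, exp (-(s : ℂ) * ((t : ℂ) + Real.pi * I) ^ 2) * bfun μ f φ t := by
  obtain ⟨M, hM⟩ := bfun_bound hμ f hf hφ
  exact strip_shift _ (bfun_continuousOn hμ f hf hφ) (bfun_differentiableOn hμ f hf hφ) hM hs

end Vale.Agent.P352
end
end

section

section

open MeasureTheory SchwartzMap Complex Filter Topology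
open scoped SchwartzMap ComplexConjugate RealInnerProductSpace

namespace Vale.Agent.P352

/-- flip of the space coordinates -/
noncomputable def flipS (a : Mink) : Mink := WithLp.toLp 2 ![a 0, - a 1, - a 2, - a 3]

lemma mdot_flipS (p t : Mink) : mdot p (flipS t) = ⟪p, t⟫ := by
  rw [PiLp.inner_apply, Fin.sum_univ_four]
  simp only [mdot, Fin.isValue, flipS, Matrix.cons_val_zero, Matrix.cons_val_one, mul_neg,
    sub_neg_eq_add, Matrix.cons_val, RCLike.inner_apply, Real.ringHom_apply]
  ring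

lemma ft_unique_real (μ : Measure Mink) (φ : Mink → ℝ) (hφ : Integrable φ μ)
    (h : ∀ a : Mink, ∫ p, exp (I * (mdot p a : ℂ)) * φ p ∂μ = 0) : φ =ᵐ[μ] 0 := by
  set f1 : Mink → ENNReal := fun p => ENNReal.ofReal (φ p) with hf1
  set f2 : Mink → ENNReal := fun p => ENNReal.ofReal (-(φ p)) with hf2
  have m1 : AEMeasurable f1 μ := hφ.aemeasurable.ennreal_ofReal
  have m2 : AEMeasurable f2 μ := hφ.aemeasurable.neg.ennreal_ofReal
  have fin1 : ∫⁻ p, f1 p ∂μ ≠ ⊤ := (hφ.lintegral_lt_top).ne
  have fin2 : ∫⁻ p, f2 p ∂μ ≠ ⊤ := (hφ.neg.lintegral_lt_top).ne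
  have i1 : IsFiniteMeasure (μ.withDensity f1) := isFiniteMeasure_withDensity fin1
  have i2 : IsFiniteMeasure (μ.withDensity f2) := isFiniteMeasure_withDensity fin2
  have key : μ.withDensity f1 = μ.withDensity f2 := by
    apply Measure.ext_of_charFun
    funext t
    rw [charFun_apply, charFun_apply]
    rw [integral_withDensity_eq_integral_toReal_smul₀ m1 (by simp [hf1]),
      integral_withDensity_eq_integral_toReal_smul₀ m2 (by simp [hf2])]
    rw [← sub_eq_zero, ← integral_sub]
    · rw [← h (flipS t)]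
      congr 1
      ext p
      rw [mdot_flipS]
      simp only [hf1, hf2]
      have e : (ENNReal.ofReal (φ p)).toReal - (ENNReal.ofReal (-(φ p))).toReal = φ p := by
        rcases le_total 0 (φ p) with h0 | h0
        · rw [ENNReal.toReal_ofReal h0, ENNReal.ofReal_of_nonpos (by linarith only [h0])]; simp
        · rw [ENNReal.toReal_ofReal (by (clear * - h0; linarith) : 0 ≤ -φ p), ENNReal.ofReal_of_nonpos h0]; simp
      rw [← sub_smul, e, real_smul]
      ring_nf
    · have : Integrable (fun p => ((f1 p).toReal : ℝ)) μ :=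
        integrable_toReal_of_lintegral_ne_top m1 fin1
      refine this.norm.mono' ?_ (Eventually.of_forall fun p => ?_)
      · refine this.aestronglyMeasurable.smul ?_
        apply Continuous.aestronglyMeasurable
        (clear * -; fun_prop)
      · rw [norm_smul, norm_exp_ofReal_mul_I, mul_one]
    · have : Integrable (fun p => ((f2 p).toReal : ℝ)) μ :=
        integrable_toReal_of_lintegral_ne_top m2 fin2
      refine this.norm.mono' ?_ (Eventually.of_forall fun p => ?_)
      · refine this.aestronglyMeasurable.smul ?_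
        apply Continuous.aestronglyMeasurable
        fun_prop
      · rw [norm_smul, norm_exp_ofReal_mul_I, mul_one]
  rw [withDensity_eq_iff m1 m2 fin1] at key
  filter_upwards [key] with p hp
  simp only [hf1, hf2] at hp
  simp only [Pi.zero_apply]
  rcases lt_trichotomy (φ p) 0 with h0 | h0 | h0
  · rw [ENNReal.ofReal_of_nonpos h0.le] at hp
    have := ENNReal.ofReal_pos.2 (by linarith only [h0] : 0 < -φ p)
    exact absurd hp this.ne
  · exact h0
  · rw [ENNReal.ofReal_of_nonpos (by linarith only [h0] : -φ p ≤ 0)] at hp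
    have := ENNReal.ofReal_pos.2 h0
    exact absurd hp this.ne'

lemma mdot_neg_right (p a : Mink) : mdot p (-a) = - mdot p a := by
  simp only [mdot, Fin.isValue, PiLp.neg_apply, mul_neg, sub_neg_eq_add, neg_sub]; ring

lemma continuous_mdot_left (a : Mink) : Continuous fun p : Mink => mdot p a := by
  unfold mdot; (clear * -; fun_prop)

/-- the characters -/
noncomputable def chr (a : Mink) (p : Mink) : ℂ := exp (I * (mdot p a : ℂ))

lemma continuous_chr (a : Mink) : Continuous (chr a) := by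
  unfold chr
  exact continuous_exp.comp (continuous_const.mul
    (continuous_ofReal.comp (continuous_mdot_left a)))

lemma norm_chr (a p : Mink) : ‖chr a p‖ = 1 := by
  rw [chr, mul_comm, norm_exp_ofReal_mul_I]

lemma integrable_chr_mul {μ : Measure Mink} {φ : Mink → ℂ} (hφ : Integrable φ μ) (a : Mink) :
    Integrable (fun p => chr a p * φ p) μ := by
  refine hφ.norm.mono' ((continuous_chr a).aestronglyMeasurable.mul hφ.aestronglyMeasurable)
    (Eventually.of_forall fun p => ?_)
  rw [norm_mul, norm_chr, one_mul]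

/-- A function whose Fourier transform against `μ` vanishes is zero. -/
theorem ft_unique (μ : Measure Mink) (φ : Mink → ℂ) (hφ : Integrable φ μ)
    (h : ∀ a : Mink, ∫ p, chr a p * φ p ∂μ = 0) : φ =ᵐ[μ] 0 := by
  have hc : ∀ a : Mink, ∫ p, chr a p * conj (φ p) ∂μ = 0 := by
    intro a
    have h1 := congrArg conj (h (-a))
    rw [← integral_conj, map_zero] at h1
    rw [← h1]
    congr 1
    ext p
    rw [map_mul]
    congr 1
    rw [chr, chr, ← exp_conj, mdot_neg_right]
    congr 1
    simp only [ofReal_neg, mul_neg, map_neg, map_mul, conj_I, conj_ofReal, neg_mul, neg_neg]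
  have hφc : Integrable (fun p => conj (φ p)) μ := by
    refine hφ.norm.mono' (Continuous.comp_aestronglyMeasurable continuous_conj
      hφ.aestronglyMeasurable) (Eventually.of_forall fun p => ?_)
    simp
  have hre : (fun p => (φ p).re) =ᵐ[μ] 0 := by
    apply ft_unique_real μ _ hφ.re
    intro a
    have e : ∀ p, exp (I * (mdot p a : ℂ)) * ((φ p).re : ℂ) =
        (1 / 2) * (chr a p * φ p + chr a p * conj (φ p)) := by
      intro p
      rw [re_eq_add_conj, chr]; ring
    refine (integral_congr_ae (Eventually.of_forall e)).trans ?_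
    rw [integral_const_mul, integral_add (integrable_chr_mul hφ a) (integrable_chr_mul hφc a), h, hc]
    simp
  have him : (fun p => (φ p).im) =ᵐ[μ] 0 := by
    apply ft_unique_real μ _ hφ.im
    intro a
    have e : ∀ p, exp (I * (mdot p a : ℂ)) * ((φ p).im : ℂ) =
        (1 / (2 * I)) * (chr a p * φ p - chr a p * conj (φ p)) := by
      intro p
      rw [im_eq_sub_conj, chr]; ring
    refine (integral_congr_ae (Eventually.of_forall e)).trans ?_
    rw [integral_const_mul, integral_sub (integrable_chr_mul hφ a) (integrable_chr_mul hφc a), h, hc]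
    simp
  filter_upwards [hre, him] with p h1 h2
  exact Complex.ext h1 h2

end Vale.Agent.P352
end
end

section

section

open MeasureTheory SchwartzMap Complex Filter Topology
open scoped SchwartzMap ComplexConjugate RealInnerProductSpace

namespace Vale.Agent.P352

variable {μ : Measure Mink}

lemma mdot_add_right (p a b : Mink) : mdot p (a + b) = mdot p a + mdot p b := by
  simp only [mdot, Fin.isValue, PiLp.add_apply]; ring

lemma mdot_smul_right (p a : Mink) (c : ℝ) : mdot p (c • a) = c * mdot p a := by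
  simp only [mdot, Fin.isValue, PiLp.smul_apply, smul_eq_mul]; ring

lemma mdot_smul_left (p a : Mink) (c : ℝ) : mdot (c • p) a = c * mdot p a := by
  simp only [mdot, Fin.isValue, PiLp.smul_apply, smul_eq_mul]; ring

/-- translation of a Schwartz function, `(τ_a f)(x) = f (x - a)` -/
noncomputable def tauS (a : Mink) (f : 𝓢(Mink, ℂ)) : 𝓢(Mink, ℂ) :=
  SchwartzMap.compSubConstCLM ℂ a f

@[simp] lemma tauS_apply (a : Mink) (f : 𝓢(Mink, ℂ)) (x : Mink) : tauS a f x = f (x - a) := by
  simp only [tauS, compSubConstCLM_apply]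

lemma mft_tauS (a : Mink) (f : 𝓢(Mink, ℂ)) (p : Mink) : mft (tauS a f) p = chr a p * mft f p := by
  unfold mft chr
  rw [← integral_add_right_eq_self _ a, ← integral_const_mul]
  congr 1
  ext x
  rw [tauS_apply, add_sub_cancel_right, mdot_add_right, ← mul_assoc, ← exp_add]
  congr 2
  push_cast
  ring

lemma tsupport_tauS (a : Mink) (f : 𝓢(Mink, ℂ)) :
    tsupport (tauS a f) = (fun x => x - a) ⁻¹' tsupport f := by
  have h : (tauS a f : Mink → ℂ) = f ∘ (Homeomorph.subRight a) := by
    ext x; simp only [tauS_apply, Homeomorph.coe_subRight, Function.comp_apply]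
  rw [h, tsupport_comp_eq_preimage]
  rfl

lemma IsTest.tauS {W W' : Set Mink} {f : 𝓢(Mink, ℂ)} (hf : IsTest W f) (a : Mink)
    (h : ∀ x ∈ W, x + a ∈ W') : IsTest W' (tauS a f) := by
  refine ⟨?_, ?_⟩
  · have h : (Vale.Agent.P352.tauS a f : Mink → ℂ) = f ∘ (Homeomorph.subRight a) := by
      ext x; simp only [tauS_apply, Homeomorph.coe_subRight, Function.comp_apply]
    rw [h]
    exact hf.1.comp_homeomorph _
  · rw [tsupport_tauS]
    intro x hx
    have := h _ (hf.2 hx)
    simpa using this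

/-- integral of a character against an integrable function -/
noncomputable def cint (μ : Measure Mink) (ψ : Mink → ℂ) (a : Mink) : ℂ := ∫ p, chr a p * ψ p ∂μ

/-- if `F(a) = ∫ e^{ip.a} ψ dμ` vanishes on an interval of a future directed line,
it vanishes on the whole line -/
lemma cint_line (hμ : ∀ᵐ p ∂μ, p ∈ fwdCone) {ψ : Mink → ℂ} (hψ : Integrable ψ μ) (a v : Mink)
    (hv : ∀ p ∈ fwdCone, 0 ≤ mdot p v) (s t : ℝ) (hst : s < t)
    (hz : ∀ r, s < r → r < t → cint μ ψ (a + r • v) = 0) (r : ℝ) :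
    cint μ ψ (a + r • v) = 0 := by
  set G : ℂ → ℂ := fun z => ∫ p, exp (I * z * (mdot p v : ℂ)) * (chr a p * ψ p) ∂μ with hG
  have hψa := integrable_chr_mul hψ a
  have hGr : ∀ r : ℝ, G r = cint μ ψ (a + r • v) := by
    intro r
    simp only [hG, cint]
    congr 1
    ext p
    rw [← mul_assoc]
    congr 1
    rw [chr, chr, ← exp_add, mdot_add_right, mdot_smul_right]
    congr 1
    push_cast
    ring
  have hmeas : ∀ z : ℂ, AEStronglyMeasurable
      (fun p => exp (I * z * (mdot p v : ℂ)) * (chr a p * ψ p)) μ := by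
    intro z
    refine AEStronglyMeasurable.mul ?_ hψa.aestronglyMeasurable
    exact (continuous_exp.comp (continuous_const.mul
      (continuous_ofReal.comp (continuous_mdot_left v)))).aestronglyMeasurable
  have hbd : ∀ᵐ p ∂μ, ∀ z : ℂ, 0 ≤ z.im →
      ‖exp (I * z * (mdot p v : ℂ)) * (chr a p * ψ p)‖ ≤ ‖chr a p * ψ p‖ := by
    filter_upwards [hμ] with p hp z hz
    rw [norm_mul, norm_exp]
    have h1 : (I * z * (mdot p v : ℂ)).re ≤ 0 := by
      simp only [mul_re, I_re, I_im, ofReal_re, ofReal_im, mul_im]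
      nlinarith only [mul_nonneg hz (hv p hp)]
    calc _ ≤ 1 * ‖chr a p * ψ p‖ := by gcongr; exact Real.exp_le_one_iff.2 h1
      _ = _ := one_mul _
  rw [← hGr]
  apply halfplane_unique G ?_ ?_ ?_ s t hst ?_ _ (by simp)
  · intro z₀ _
    apply continuousWithinAt_of_dominated (bound := fun p => ‖chr a p * ψ p‖)
    · exact Eventually.of_forall hmeas
    · filter_upwards [self_mem_nhdsWithin] with z hz
      filter_upwards [hbd] with p hp using hp z hz
    · exact hψa.norm
    · refine Eventually.of_forall fun p => Continuous.continuousWithinAt ?_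
      fun_prop
  · intro z₀ hz₀
    apply DifferentiableAt.differentiableWithinAt
    refine differentiableAt_integral (U := {z : ℂ | 0 < z.im})
      (isOpen_lt continuous_const continuous_im)
      (F := fun z p => exp (I * z * (mdot p v : ℂ)) * (chr a p * ψ p))
      (bound := fun p => ‖chr a p * ψ p‖) ?_ ?_ ?_ hψa.norm hz₀
    · exact fun z _ => hmeas z
    · refine Eventually.of_forall fun p => ?_
      apply Differentiable.differentiableOn
      fun_prop
    · filter_upwards [hbd] with p hp z hz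
      exact hp z (le_of_lt hz)
  · refine ⟨∫ p, ‖chr a p * ψ p‖ ∂μ, fun z hz => ?_⟩
    refine norm_integral_le_of_norm_le hψa.norm ?_
    filter_upwards [hbd] with p hp using hp z hz
  · intro r h1 h2
    rw [hGr]
    exact hz r h1 h2

lemma cint_eq_zero_of_wedge (hμ : ∀ᵐ p ∂μ, p ∈ fwdCone) {ψ : Mink → ℂ} (hψ : Integrable ψ μ)
    (h : ∀ a : Mink, |a 0| < a 1 → cint μ ψ a = 0) (a : Mink) : cint μ ψ a = 0 := by
  have e0 : ∀ a : Mink, 0 < a 1 → cint μ ψ a = 0 := by
    intro a ha
    have hv : ∀ p ∈ fwdCone, 0 ≤ mdot p (eb 0) := by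
      intro p hp
      have : mdot p (eb 0) = p 0 := by simp only [mdot, Fin.isValue, eb, PiLp.single_eq_same, mul_one, ne_eq, one_ne_zero, not_false_eq_true, PiLp.single_eq_of_ne, mul_zero, sub_zero, Fin.reduceEq]
      rw [this]; exact hp.1
    have := cint_line hμ hψ a (eb 0) hv (-(a 1) - a 0) (a 1 - a 0) (by linarith) ?_ 0
    · simpa using this
    · intro r h1 h2
      apply h
      have e1 : (a + r • eb 0) 0 = a 0 + r := by simp [eb]
      have e2 : (a + r • eb 0) 1 = a 1 := by simp [eb]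
      rw [e1, e2, abs_lt]
      constructor <;> linarith only [h1, h2]
  set v : Mink := WithLp.toLp 2 ![2, -1, 0, 0] with hvdef
  have hv : ∀ p ∈ fwdCone, 0 ≤ mdot p v := by
    intro p hp
    have : mdot p v = 2 * p 0 + p 1 := by simp only [mdot, Fin.isValue, hvdef, Matrix.cons_val_zero, Matrix.cons_val_one, mul_neg, mul_one, sub_neg_eq_add, Matrix.cons_val, mul_zero, sub_zero, add_left_inj]; ring
    rw [this]
    have h1 := abs_le.1 (abs_le_of_mem_fwdCone hp)
    linarith only [h1]
  have := cint_line hμ hψ a v hv (a 1 - 1) (a 1) (by linarith) ?_ 0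
  · simpa only [zero_smul, add_zero] using this
  · intro r h1 h2
    apply e0
    have e1 : (a + r • v) 1 = a 1 - r := by simp only [Fin.isValue, hvdef, PiLp.add_apply,
                                              PiLp.smul_apply, Matrix.cons_val_one,
                                              Matrix.cons_val_zero, smul_eq_mul, mul_neg, mul_one]; ring
    rw [e1]
    linarith

end Vale.Agent.P352
end
end

section

section

open MeasureTheory SchwartzMap Complex Filter Topology
open scoped SchwartzMap ComplexConjugate RealInnerProductSpace ContDiff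

namespace Vale.Agent.P352

variable {μ : Measure Mink}

lemma norm_flipS (a : Mink) : ‖flipS a‖ = ‖a‖ := by
  have h1 := norm_sq_mink (flipS a)
  have h2 := norm_sq_mink a
  have h3 : ‖flipS a‖ ^ 2 = ‖a‖ ^ 2 := by
    rw [h1, h2]; simp only [Fin.isValue, flipS, Matrix.cons_val_zero, Matrix.cons_val_one,
                   even_two, Even.neg_pow, Matrix.cons_val]
  exact (pow_left_inj₀ (norm_nonneg _) (norm_nonneg _) (by norm_num)).1 h3

lemma flipS_flipS (a : Mink) : flipS (flipS a) = a := by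
  apply mink_ext <;> simp [flipS]

lemma abs_mdot_le (p a : Mink) : |mdot p a| ≤ ‖p‖ * ‖a‖ := by
  have := mdot_flipS p (flipS a)
  rw [flipS_flipS] at this
  rw [this]
  refine (abs_real_inner_le_norm _ _).trans ?_
  rw [norm_flipS]

/-- the bump Schwartz function -/
noncomputable def bumpS {c : Mink} (f : ContDiffBump c) : 𝓢(Mink, ℂ) :=
  HasCompactSupport.toSchwartzMap (f := fun x => ((f x : ℝ) : ℂ))
    (f.hasCompactSupport.comp_left (g := fun r : ℝ => (r : ℂ)) (by simp))
    (ofRealCLM.contDiff.comp f.contDiff)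

@[simp] lemma bumpS_apply {c : Mink} (f : ContDiffBump c) (x : Mink) : bumpS f x = (f x : ℂ) := rfl

lemma tsupport_bumpS {c : Mink} (f : ContDiffBump c) :
    tsupport (bumpS f) = Metric.closedBall c f.rOut := by
  rw [← f.tsupport_eq]
  unfold tsupport
  congr 1
  ext x
  simp [Function.mem_support]

lemma exists_test_ne_zero {W : Set Mink} (hW : IsOpen W) (hne : W.Nonempty) (R : ℝ) :
    ∃ f, IsTest W f ∧ ∀ p : Mink, ‖p‖ ≤ R → mft f p ≠ 0 := by
  obtain ⟨b, hb⟩ := hne
  obtain ⟨ε, hε, hball⟩ := Metric.isOpen_iff.1 hW b hb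
  set r : ℝ := min (ε / 2) (1 / (2 * (|R| + 1))) with hr
  have hr0 : 0 < r := by rw [hr]; (clear * - hε; positivity)
  have hr1 : r ≤ ε / 2 := min_le_left _ _
  have hr2 : r * |R| ≤ 1 / 2 := by
    have h1 : r ≤ 1 / (2 * (|R| + 1)) := min_le_right _ _
    have h2 := abs_nonneg R
    calc r * |R| ≤ 1 / (2 * (|R| + 1)) * |R| := by (clear * - h1; gcongr)
      _ ≤ 1 / 2 := by
        rw [div_mul_eq_mul_div, div_le_div_iff₀ (by (clear * -; positivity)) (by norm_num)]
        nlinarith only []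
  set ρ : ContDiffBump b := ⟨r / 2, r, by (clear * - hε; positivity), by linarith only [hr0]⟩ with hρ
  refine ⟨bumpS ρ, ⟨?_, ?_⟩, fun p hp => ?_⟩
  · rw [HasCompactSupport, tsupport_bumpS]
    exact isCompact_closedBall _ _
  · rw [tsupport_bumpS]
    refine (Metric.closedBall_subset_ball ?_).trans hball
    change r < ε
    linarith only [hr0, hr1]
  have hint : Integrable (fun x => ρ x) := by
    apply Continuous.integrable_of_hasCompactSupport ρ.continuous ρ.hasCompactSupport
  have hpos : 0 < ∫ x, ρ x := by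
    apply Continuous.integral_pos_of_hasCompactSupport_nonneg_nonzero ρ.continuous
      ρ.hasCompactSupport (fun x => ρ.nonneg)
    · exact (ρ.pos_of_mem_ball (Metric.mem_ball_self hr0)).ne'
  have e1 : mft (bumpS ρ) p = chr b p * ∫ x, exp (I * (mdot p (x - b) : ℂ)) * (ρ x : ℂ) := by
    unfold mft chr
    rw [← integral_const_mul]
    congr 1
    ext x
    rw [bumpS_apply, ← mul_assoc, ← exp_add]
    congr 2
    have : mdot p x = mdot p b + mdot p (x - b) := by
      rw [← mdot_add_right]; congr 1; abel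
    rw [this]; push_cast; ring
  have hcont : Continuous fun x : Mink => exp (I * (mdot p (x - b) : ℂ)) * (ρ x : ℂ) := by
    apply Continuous.mul
    · apply continuous_exp.comp
      apply continuous_const.mul
      apply continuous_ofReal.comp
      unfold mdot
      (clear * -; fun_prop)
    · exact continuous_ofReal.comp ρ.continuous
  have hint2 : Integrable fun x : Mink => exp (I * (mdot p (x - b) : ℂ)) * (ρ x : ℂ) := by
    refine hint.norm.mono' hcont.aestronglyMeasurable (Eventually.of_forall fun x => ?_)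
    rw [norm_mul, mul_comm I, norm_exp_ofReal_mul_I, one_mul, norm_real]
  have e2 : ‖(∫ x, exp (I * (mdot p (x - b) : ℂ)) * (ρ x : ℂ)) - ((∫ x, ρ x : ℝ) : ℂ)‖ ≤
      1 / 2 * ∫ x, ρ x := by
    have e0 : ((∫ x, ρ x : ℝ) : ℂ) = ∫ x, ((ρ x : ℝ) : ℂ) := integral_ofReal.symm
    have hint3 : Integrable (fun x => ((ρ x : ℝ) : ℂ)) := hint.ofReal
    rw [e0, ← integral_sub hint2 hint3, ← integral_const_mul]
    refine norm_integral_le_of_norm_le (hint.const_mul _) (Eventually.of_forall fun x => ?_)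
    have e3 : exp (I * (mdot p (x - b) : ℂ)) * (ρ x : ℂ) - (ρ x : ℂ) =
        (exp (I * (mdot p (x - b) : ℂ)) - 1) * (ρ x : ℂ) := by ring
    rw [e3, norm_mul, norm_real, Real.norm_of_nonneg ρ.nonneg]
    by_cases hx : x ∈ Metric.ball b r
    · apply mul_le_mul_of_nonneg_right _ ρ.nonneg
      rw [mul_comm I, mul_comm _ I]
      refine (Real.norm_exp_I_mul_ofReal_sub_one_le).trans ?_
      rw [Real.norm_eq_abs]
      refine (abs_mdot_le _ _).trans ?_
      have h1 : ‖x - b‖ ≤ r := by
        rw [← dist_eq_norm]; exact (Metric.mem_ball.1 hx).le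
      calc ‖p‖ * ‖x - b‖ ≤ |R| * r := by
            gcongr
            exact hp.trans (le_abs_self R)
        _ ≤ 1 / 2 := by linarith only [hr2]
    · have : ρ x = 0 := ρ.zero_of_le_dist (by
        rw [Metric.mem_ball, not_lt] at hx
        exact hx)
      rw [this]; simp
  intro h0
  rw [e1] at h0
  have h1 : (∫ x, exp (I * (mdot p (x - b) : ℂ)) * (ρ x : ℂ)) = 0 := by
    rcases mul_eq_zero.1 h0 with h | h
    · exact absurd h (exp_ne_zero _)
    · exact h
  rw [h1, zero_sub, norm_neg, norm_real, Real.norm_of_nonneg hpos.le] at e2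
  linarith only [hpos, e2]

lemma isOpen_wedge : IsOpen wedge := by
  apply isOpen_lt <;> fun_prop

lemma wedge_nonempty : wedge.Nonempty :=
  ⟨eb 1, by simp only [wedge, Fin.isValue, eb, Set.mem_ofPred_eq, ne_eq, zero_ne_one,
              not_false_eq_true, PiLp.single_eq_of_ne, abs_zero, PiLp.single_eq_same, zero_lt_one]⟩

lemma add_mem_wedge {x a : Mink} (hx : x ∈ wedge) (ha : |a 0| ≤ a 1) : x + a ∈ wedge := by
  have h1 : |x 0| < x 1 := hx
  change |(x + a) 0| < (x + a) 1
  simp only [PiLp.add_apply]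
  exact lt_of_le_of_lt (abs_add_le _ _) (by linarith)

/-- the linear change of variables that turns the Mathlib Fourier transform into `mft` -/
noncomputable def mftEquiv : Mink ≃L[ℝ] Mink :=
  LinearEquiv.toContinuousLinearEquiv
    { toFun := fun p => (-(2 * Real.pi)⁻¹) • flipS p
      invFun := fun p => (-(2 * Real.pi)) • flipS p
      map_add' := fun x y => by apply mink_ext <;> simp [flipS] <;> ring
      map_smul' := fun c x => by apply mink_ext <;> simp [flipS] <;> ring
      left_inv := fun x => by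
        have := Real.pi_ne_zero
        apply mink_ext <;> simp only [Fin.isValue, flipS, mul_inv_rev, neg_smul, PiLp.neg_apply,
                             PiLp.smul_apply, Matrix.cons_val_zero, smul_eq_mul,
                             Matrix.cons_val_one, mul_neg, neg_neg, Matrix.cons_val] <;> field_simp
      right_inv := fun x => by
        have := Real.pi_ne_zero
        apply mink_ext <;> simp only [Fin.isValue, mul_inv_rev, flipS, neg_smul, PiLp.neg_apply,
                             PiLp.smul_apply, Matrix.cons_val_zero, smul_eq_mul,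
                             Matrix.cons_val_one, mul_neg, neg_neg, Matrix.cons_val] <;> field_simp }

/-- `mft` as a continuous linear map on Schwartz space -/
noncomputable def mftS : 𝓢(Mink, ℂ) →L[ℂ] 𝓢(Mink, ℂ) :=
  (SchwartzMap.compCLMOfContinuousLinearEquiv ℂ mftEquiv).comp
    (FourierTransform.fourierCLM ℂ 𝓢(Mink, ℂ))

open scoped FourierTransform in
lemma mftS_apply (f : 𝓢(Mink, ℂ)) (p : Mink) : mftS f p = mft f p := by
  have h : mftS f p = 𝓕 (f : Mink → ℂ) (mftEquiv p) := by
    simp [mftS, SchwartzMap.fourier_coe]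
  rw [h, Real.fourier_eq', mft]
  congr 1
  ext x
  rw [smul_eq_mul]
  congr 2
  have : ⟪x, mftEquiv p⟫ = -(2 * Real.pi)⁻¹ * mdot p x := by
    change ⟪x, (-(2 * Real.pi)⁻¹) • flipS p⟫ = _
    rw [inner_smul_right, ← mdot_flipS, flipS_flipS, mdot_comm]
  rw [this]
  have := Real.pi_ne_zero
  push_cast
  (clear * -; field_simp)

lemma mft_memLp (hμ : μ.HasTemperateGrowth) (f : 𝓢(Mink, ℂ)) : MemLp (mft f) 2 μ := by
  have h : (mft f) = (mftS f : Mink → ℂ) := by
    ext p; rw [mftS_apply]
  rw [h]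
  exact (mftS f).memLp 2 μ

lemma continuous_mft (f : 𝓢(Mink, ℂ)) : Continuous (mft f) := by
  have h : (mft f) = (mftS f : Mink → ℂ) := by
    ext p; rw [mftS_apply]
  rw [h]
  exact (mftS f).continuous

lemma mft_add (f g : 𝓢(Mink, ℂ)) (p : Mink) : mft (f + g) p = mft f p + mft g p := by
  rw [← mftS_apply, ← mftS_apply, ← mftS_apply, map_add]; rfl

lemma mft_smul (c : ℂ) (f : 𝓢(Mink, ℂ)) (p : Mink) : mft (c • f) p = c * mft f p := by
  rw [← mftS_apply, ← mftS_apply, map_smul]; rfl

lemma mft_zero (p : Mink) : mft (0 : 𝓢(Mink, ℂ)) p = 0 := by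
  rw [← mftS_apply, map_zero]; rfl

/-- Reeh-Schlieder type uniqueness for the right wedge. -/
theorem rs_wedge (hμ : GoodMeasure μ) (φ : Mink → ℂ) (hφ : MemLp φ 2 μ)
    (h : ∀ f, IsTest wedge f → ∫ p, mft f p * φ p ∂μ = 0) : φ =ᵐ[μ] 0 := by
  have key : ∀ f, IsTest wedge f → (fun p => mft f p * φ p) =ᵐ[μ] 0 := by
    intro f hf
    have hint : Integrable (fun p => mft f p * φ p) μ :=
      (mft_memLp hμ.temp f).integrable_mul hφ
    apply ft_unique μ _ hint
    intro a
    apply cint_eq_zero_of_wedge (ae_cone hμ) hint _ a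
    intro a ha
    have hf' : IsTest wedge (tauS a f) := hf.tauS a fun x hx => add_mem_wedge hx ha.le
    have := h _ hf'
    rw [cint, ← this]
    congr 1
    ext p
    rw [mft_tauS]; ring
  choose f hf hne using fun n : ℕ => exists_test_ne_zero isOpen_wedge wedge_nonempty (n : ℝ)
  have := ae_all_iff.2 fun n => key (f n) (hf n)
  filter_upwards [this] with p hp
  obtain ⟨n, hn⟩ := exists_nat_ge ‖p‖
  have h1 := hp n
  simp only [Pi.zero_apply, mul_eq_zero] at h1
  rcases h1 with h1 | h1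
  · exact absurd h1 (hne n p hn)
  · exact h1

end Vale.Agent.P352
end
end

section

section

open MeasureTheory SchwartzMap Complex Filter Topology
open scoped SchwartzMap ComplexConjugate ENNReal RealInnerProductSpace

namespace Vale.Agent.P352

/-- finite measures with the same characters integrals agree -/
lemma measure_ext_chr (ν₁ ν₂ : Measure Mink) [IsFiniteMeasure ν₁] [IsFiniteMeasure ν₂]
    (h : ∀ a, ∫ p, chr a p ∂ν₁ = ∫ p, chr a p ∂ν₂) : ν₁ = ν₂ := by
  apply Measure.ext_of_charFun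
  funext t
  rw [charFun_apply, charFun_apply]
  have := h (flipS t)
  simp only [chr, mdot_flipS] at this
  simpa [mul_comm I] using this

lemma norm_mft_le (k : 𝓢(Mink, ℂ)) (p : Mink) : ‖mft k p‖ ≤ ∫ x, ‖k x‖ := by
  refine norm_integral_le_of_norm_le k.integrable.norm (Eventually.of_forall fun x => ?_)
  rw [norm_mul, mul_comm I, norm_exp_ofReal_mul_I, one_mul]

lemma continuous_chr2 : Continuous fun q : Mink × Mink => chr q.1 q.2 := by
  unfold chr mdot
  apply continuous_exp.comp
  apply continuous_const.mul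
  apply continuous_ofReal.comp
  (clear * -; fun_prop)

lemma chr_add (a b p : Mink) : chr (a + b) p = chr a p * chr b p := by
  rw [chr, chr, chr, ← exp_add, mdot_add_right]
  congr 1
  push_cast
  ring

lemma chr_neg (a p : Mink) : chr (-a) p = conj (chr a p) := by
  rw [chr, chr, ← exp_conj, mdot_neg_right]
  congr 1
  simp only [ofReal_neg, mul_neg, map_mul, conj_I, conj_ofReal, neg_mul]

/-- Fubini for smeared characters -/
lemma fub (ν : Measure Mink) [IsFiniteMeasure ν] (k : 𝓢(Mink, ℂ)) (φ : Mink → ℂ)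
    (hφ : AEStronglyMeasurable φ ν) (C : ℝ) (hC : ∀ p, ‖φ p‖ ≤ C) :
    ∫ b, k b * ∫ p, chr b p * φ p ∂ν = ∫ p, mft k p * φ p ∂ν := by
  have hC0 : 0 ≤ C := (norm_nonneg _).trans (hC 0)
  have h1 : ∀ b, k b * ∫ p, chr b p * φ p ∂ν = ∫ p, k b * (chr b p * φ p) ∂ν := by
    intro b
    rw [integral_const_mul]
  simp_rw [h1]
  rw [integral_integral_swap]
  · congr 1
    ext p
    rw [mft, ← integral_mul_const]
    congr 1
    ext b
    rw [chr]
    ring
  · have hint : Integrable (fun q : Mink × Mink => ‖k q.1‖ * C)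
        ((volume : Measure Mink).prod ν) := by
      have := ((k.integrable (μ := (volume : Measure Mink))).norm).mul_prod
        (integrable_const (μ := ν) C)
      exact this
    refine hint.mono' ?_ (Eventually.of_forall fun q => ?_)
    · apply AEStronglyMeasurable.mul
      · exact (k.continuous.comp continuous_fst).aestronglyMeasurable
      · apply AEStronglyMeasurable.mul
        · exact continuous_chr2.aestronglyMeasurable
        · exact hφ.comp_snd
    · simp only [Function.uncurry]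
      rw [norm_mul, norm_mul, norm_chr, one_mul]
      gcongr
      exact hC _

variable {F : Type*} [NormedAddCommGroup F] [InnerProductSpace ℂ F] [CompleteSpace F]

/-- the convolution identity -/
def ConvId (κ : 𝓢(Mink, ℂ) → F) : Prop :=
  ∀ g k c : 𝓢(Mink, ℂ), (∀ x, c x = ∫ a, k a * g (x - a)) →
    Integrable (fun a => k a • κ (tauS a g)) ∧ κ c = ∫ a, k a • κ (tauS a g)

lemma tauS_tauS (a b : Mink) (g : 𝓢(Mink, ℂ)) : tauS b (tauS a g) = tauS (a + b) g := by
  ext x
  simp only [tauS_apply]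
  congr 1
  abel

lemma exists_conv (g k : 𝓢(Mink, ℂ)) : ∃ c : 𝓢(Mink, ℂ), ∀ x, c x = ∫ a, k a * g (x - a) := by
  refine ⟨SchwartzMap.convolution (ContinuousLinearMap.mul ℂ ℂ) k g, fun x => ?_⟩
  rw [SchwartzMap.convolution_apply]
  rfl

lemma conv_comm {g k c : 𝓢(Mink, ℂ)} (hc : ∀ x, c x = ∫ a, k a * g (x - a)) :
    ∀ x, c x = ∫ a, g a * k (x - a) := by
  intro x
  rw [hc, ← integral_sub_left_eq_self _ _ x]
  congr 1
  ext a
  rw [sub_sub_cancel]
  ring

/-- spectral data for a covariant vector valued distribution -/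
structure SpecData (κ : 𝓢(Mink, ℂ) → F) (ν : 𝓢(Mink, ℂ) → Measure Mink) : Prop where
  conv : ConvId κ
  fin : ∀ g, IsFiniteMeasure (ν g)
  cone : ∀ g, ν g fwdConeᶜ = 0
  spec : ∀ g a, inner ℂ (κ g) (κ (tauS a g)) = ∫ p, chr a p ∂(ν g)
  inv : ∀ f g a, inner ℂ (κ (tauS a f)) (κ (tauS a g)) = inner ℂ (κ f) (κ g)

namespace SpecData

variable {κ : 𝓢(Mink, ℂ) → F} {ν : 𝓢(Mink, ℂ) → Measure Mink} (S : SpecData κ ν)
include S

lemma spec2 (g : 𝓢(Mink, ℂ)) (b c : Mink) :
    inner ℂ (κ (tauS b g)) (κ (tauS c g)) = ∫ p, chr (c - b) p ∂(ν g) := by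
  have : tauS c g = tauS b (tauS (c - b) g) := by
    rw [tauS_tauS]; congr 1; abel
  rw [this, S.inv, S.spec]

lemma conv_spec (g k c : 𝓢(Mink, ℂ)) (hc : ∀ x, c x = ∫ a, k a * g (x - a)) (a : Mink) :
    inner ℂ (κ c) (κ (tauS a c)) = ∫ p, chr a p * (conj (mft k p) * mft k p) ∂(ν g) := by
  have hfin := S.fin g
  have hca : ∀ x, tauS a c x = ∫ b, k b * tauS a g (x - b) := by
    intro x
    rw [tauS_apply, hc]
    congr 1
    ext b
    rw [tauS_apply]
    congr 2
    abel
  obtain ⟨hi1, h1⟩ := S.conv (tauS a g) k (tauS a c) hca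
  obtain ⟨hi2, h2⟩ := S.conv g k c hc
  have hmk : Continuous (mft k) := continuous_mft k
  -- inner product with a translate
  have key : ∀ w : Mink, inner ℂ (κ c) (κ (tauS w g)) = ∫ p, chr w p * conj (mft k p) ∂(ν g) := by
    intro w
    rw [← inner_conj_symm, h2, ← integral_inner hi2]
    have e1 : ∀ b, inner ℂ (κ (tauS w g)) (k b • κ (tauS b g)) =
        k b * ∫ p, chr b p * conj (chr w p) ∂(ν g) := by
      intro b
      rw [inner_smul_right, S.spec2]
      congr 2
      ext p
      rw [sub_eq_add_neg, chr_add, chr_neg]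
    simp_rw [e1]
    rw [fub (ν g) k (fun p => conj (chr w p))
      (continuous_conj.comp (continuous_chr w)).aestronglyMeasurable 1
      (fun p => by rw [norm_conj, norm_chr]), ← integral_conj]
    congr 1
    ext p
    rw [map_mul, conj_conj]
    ring
  rw [h1, ← integral_inner hi1]
  have e2 : ∀ b, inner ℂ (κ c) (k b • κ (tauS b (tauS a g))) =
      k b * ∫ p, chr b p * (chr a p * conj (mft k p)) ∂(ν g) := by
    intro b
    rw [inner_smul_right, tauS_tauS, key]
    congr 2
    ext p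
    rw [chr_add]
    ring
  simp_rw [e2]
  rw [fub (ν g) k (fun p => chr a p * conj (mft k p))
    ((continuous_chr a).mul (continuous_conj.comp hmk)).aestronglyMeasurable (∫ x, ‖k x‖)
    (fun p => by rw [norm_mul, norm_chr, one_mul, norm_conj]; exact norm_mft_le k p)]
  congr 1
  ext p
  ring

/-- the density -/
lemma conv_measure (g k c : 𝓢(Mink, ℂ)) (hc : ∀ x, c x = ∫ a, k a * g (x - a)) :
    ν c = (ν g).withDensity fun p => ‖mft k p‖ₑ ^ 2 := by
  have hfin := S.fin g
  have hfinc := S.fin c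
  have hmeas : Measurable fun p => ‖mft k p‖ₑ ^ 2 := by
    have : Continuous (mft k) := continuous_mft k
    (clear * - this; fun_prop)
  have hb : ∀ p, ‖mft k p‖ₑ ^ 2 ≤ ENNReal.ofReal ((∫ x, ‖k x‖) ^ 2) := by
    intro p
    rw [← ofReal_norm, ← ENNReal.ofReal_pow (norm_nonneg _)]
    apply ENNReal.ofReal_le_ofReal
    gcongr
    exact norm_mft_le k p
  have hfin2 : IsFiniteMeasure ((ν g).withDensity fun p => ‖mft k p‖ₑ ^ 2) := by
    apply isFiniteMeasure_withDensity
    refine ne_top_of_le_ne_top ?_ (lintegral_mono hb)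
    rw [lintegral_const]
    exact ENNReal.mul_ne_top ENNReal.ofReal_ne_top (measure_ne_top _ _)
  apply measure_ext_chr
  intro a
  rw [← S.spec, S.conv_spec g k c hc,
    integral_withDensity_eq_integral_toReal_smul hmeas (Eventually.of_forall fun p =>
      lt_of_le_of_lt (hb p) ENNReal.ofReal_lt_top)]
  congr 1
  ext p
  have : (‖mft k p‖ₑ ^ 2).toReal = ‖mft k p‖ ^ 2 := by
    rw [ENNReal.toReal_pow, toReal_enorm]
  rw [this, real_smul, mul_comm (conj _), mul_conj, normSq_eq_norm_sq]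
  push_cast
  ring

/-- the basic symmetry -/
lemma symm_measure (g k : 𝓢(Mink, ℂ)) :
    (ν g).withDensity (fun p => ‖mft k p‖ₑ ^ 2) = (ν k).withDensity fun p => ‖mft g p‖ₑ ^ 2 := by
  obtain ⟨c, hc⟩ := exists_conv g k
  rw [← S.conv_measure g k c hc, ← S.conv_measure k g c (conv_comm hc)]

end SpecData

end Vale.Agent.P352
end
end

section

section

open MeasureTheory SchwartzMap Complex Filter Topology
open scoped SchwartzMap ComplexConjugate ENNReal

namespace Vale.Agent.P352

/-- density `|g^|²` -/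
noncomputable def dens (g : 𝓢(Mink, ℂ)) (p : Mink) : ℝ≥0∞ := ‖mft g p‖ₑ ^ 2

lemma measurable_dens (g : 𝓢(Mink, ℂ)) : Measurable (dens g) := by
  have : Continuous (mft g) := continuous_mft g
  unfold dens
  (clear * - this; fun_prop)

lemma dens_ne_top (g : 𝓢(Mink, ℂ)) (p : Mink) : dens g p ≠ ∞ :=
  ENNReal.pow_ne_top enorm_ne_top

lemma measurableSet_fwdCone : MeasurableSet fwdCone := by
  have h0 : Measurable fun p : Mink => p 0 := by fun_prop
  have h1 : Measurable fun p : Mink => mdot p p := by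
    unfold mdot; (clear * -; fun_prop)
  exact (measurableSet_le measurable_const h0).inter (measurableSet_le measurable_const h1)

/-- shells -/
def shell (n : ℕ) : Set Mink := (fun p : Mink => ⌊‖p‖⌋₊) ⁻¹' {n}

lemma measurableSet_shell (n : ℕ) : MeasurableSet (shell n) := by
  apply (Nat.measurable_floor.comp measurable_norm)
  exact measurableSet_singleton n

lemma shell_disjoint : Pairwise (Function.onFun Disjoint shell) := by
  intro i j hij
  apply Disjoint.preimage
  simpa using hij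

lemma iUnion_shell : ⋃ n, shell n = Set.univ := by
  ext p
  simp only [shell, Set.mem_iUnion, Set.mem_preimage, Set.mem_singleton_iff, exists_eq',
    Set.mem_univ]

lemma norm_lt_of_shell {n : ℕ} {p : Mink} (hp : p ∈ shell n) : ‖p‖ ≤ (n : ℝ) + 1 := by
  have h : ⌊‖p‖⌋₊ = n := hp
  have := Nat.lt_floor_add_one ‖p‖
  rw [h] at this
  exact this.le

variable {F : Type*} [NormedAddCommGroup F] [InnerProductSpace ℂ F] [CompleteSpace F]

theorem SpecData.exists_KL {κ : 𝓢(Mink, ℂ) → F} {ν : 𝓢(Mink, ℂ) → Measure Mink}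
    (S : SpecData κ ν) : ∃ μ : Measure Mink, μ fwdConeᶜ = 0 ∧
      ∀ g, ν g = μ.withDensity (dens g) := by
  choose f hf hne using fun n : ℕ => exists_test_ne_zero (W := (Set.univ : Set Mink))
    isOpen_univ ⟨0, trivial⟩ ((n : ℝ) + 1)
  set A : ℕ → Measure Mink := fun n => (ν (f n)).restrict (shell n) with hA
  set μ : Measure Mink := Measure.sum fun n => (A n).withDensity fun p => (dens (f n) p)⁻¹ with hμ
  have hw : ∀ n, Measurable fun p => (dens (f n) p)⁻¹ := fun n => (measurable_dens _).inv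
  refine ⟨μ, ?_, fun g => ?_⟩
  · have hcm : MeasurableSet (fwdConeᶜ : Set Mink) := by
      exact measurableSet_fwdCone.compl
    rw [hμ, Measure.sum_apply _ hcm, ENNReal.tsum_eq_zero]
    intro n
    apply withDensity_absolutelyContinuous
    exact le_antisymm ((Measure.restrict_apply_le _ _).trans_eq (S.cone _)) bot_le
  · rw [hμ, withDensity_sum]
    have key : ∀ n, ((A n).withDensity fun p => (dens (f n) p)⁻¹).withDensity (dens g) =
        (ν g).restrict (shell n) := by
      intro n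
      have h1 := S.symm_measure (f n) g
      have h2 : (A n).withDensity (dens g) =
          ((ν g).restrict (shell n)).withDensity (dens (f n)) := by
        rw [hA]
        simp only
        rw [← restrict_withDensity (measurableSet_shell n),
          ← restrict_withDensity (measurableSet_shell n)]
        congr 1
      rw [← withDensity_mul _ (hw n) (measurable_dens g), mul_comm,
        withDensity_mul _ (measurable_dens g) (hw n), h2,
        ← withDensity_mul _ (measurable_dens _) (hw n)]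
      have h3 : (dens (f n) * fun p => (dens (f n) p)⁻¹) =ᵐ[(ν g).restrict (shell n)]
          fun _ => 1 := by
        rw [EventuallyEq, ae_restrict_iff' (measurableSet_shell n)]
        refine Eventually.of_forall fun p hp => ?_
        have h4 : dens (f n) p ≠ 0 := by
          unfold dens
          have := hne n p (norm_lt_of_shell hp)
          simpa only [ne_eq, OfNat.ofNat_ne_zero, not_false_eq_true, pow_eq_zero_iff, enorm_eq_zero] using this
        exact ENNReal.mul_inv_cancel h4 (dens_ne_top _ _)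
      rw [withDensity_congr_ae h3]
      have : (fun _ : Mink => (1 : ℝ≥0∞)) = 1 := rfl
      rw [this, withDensity_one]
    simp_rw [key]
    rw [← Measure.restrict_iUnion shell_disjoint measurableSet_shell, iUnion_shell,
      Measure.restrict_univ]

end Vale.Agent.P352
end
end

section

section

open MeasureTheory SchwartzMap Complex Filter Topology
open scoped SchwartzMap ComplexConjugate ENNReal

namespace Vale.Agent.P352

lemma restrict_shell_eq (μ : Measure Mink) (f : 𝓢(Mink, ℂ)) (n : ℕ)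
    (hne : ∀ p : Mink, ‖p‖ ≤ (n : ℝ) + 1 → mft f p ≠ 0) :
    (((μ.withDensity (dens f)).restrict (shell n)).withDensity fun p => (dens f p)⁻¹) =
      μ.restrict (shell n) := by
  have hw : Measurable fun p => (dens f p)⁻¹ := (measurable_dens _).inv
  rw [restrict_withDensity (measurableSet_shell n), ← withDensity_mul _ (measurable_dens f) hw]
  have h3 : (dens f * fun p => (dens f p)⁻¹) =ᵐ[μ.restrict (shell n)] fun _ => 1 := by
    rw [EventuallyEq, ae_restrict_iff' (measurableSet_shell n)]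
    refine Eventually.of_forall fun p hp => ?_
    have h4 : dens f p ≠ 0 := by
      unfold dens
      have := hne p (norm_lt_of_shell hp)
      simpa only [ne_eq, OfNat.ofNat_ne_zero, not_false_eq_true, pow_eq_zero_iff,
        enorm_eq_zero] using this
    exact ENNReal.mul_inv_cancel h4 (dens_ne_top _ _)
  rw [withDensity_congr_ae h3]
  have : (fun _ : Mink => (1 : ℝ≥0∞)) = 1 := rfl
  rw [this, withDensity_one]

lemma measure_unique (μ₁ μ₂ : Measure Mink)
    (h : ∀ g, μ₁.withDensity (dens g) = μ₂.withDensity (dens g)) : μ₁ = μ₂ := by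
  choose f hf hne using fun n : ℕ => exists_test_ne_zero (W := (Set.univ : Set Mink))
    isOpen_univ ⟨0, trivial⟩ ((n : ℝ) + 1)
  have h1 : ∀ n, μ₁.restrict (shell n) = μ₂.restrict (shell n) := by
    intro n
    rw [← restrict_shell_eq μ₁ (f n) n (hne n), ← restrict_shell_eq μ₂ (f n) n (hne n), h]
  have h2 : ∀ μ : Measure Mink, μ = Measure.sum fun n => μ.restrict (shell n) := by
    intro μ
    rw [← Measure.restrict_iUnion shell_disjoint measurableSet_shell, iUnion_shell,
      Measure.restrict_univ]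
  rw [h2 μ₁, h2 μ₂]
  simp_rw [h1]

lemma map_withDensity_comp (μ : Measure Mink) (M : Mink → Mink) (hM : Measurable M)
    (h : Mink → ℝ≥0∞) (hh : Measurable h) :
    (μ.withDensity fun p => h (M p)).map M = (μ.map M).withDensity h := by
  ext B hB
  rw [Measure.map_apply hM hB, withDensity_apply _ (hM hB), withDensity_apply _ hB,
    setLIntegral_map hB hh hM]

variable {F : Type*} [NormedAddCommGroup F] [InnerProductSpace ℂ F] [CompleteSpace F]

/-- a symmetry of the two point function gives an invariance of the spectral measure -/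
theorem SpecData.inv_measure {κ : 𝓢(Mink, ℂ) → F} {ν : 𝓢(Mink, ℂ) → Measure Mink}
    (S : SpecData κ ν) {μ : Measure Mink} (hμ : ∀ g, ν g = μ.withDensity (dens g))
    (M : Mink → Mink) (hM : Measurable M) (C c : ℝ) (hC : 0 ≤ C)
    (τ : 𝓢(Mink, ℂ) → 𝓢(Mink, ℂ)) (σ : Mink → Mink)
    (h1 : ∀ g a, τ (tauS a g) = tauS (σ a) (τ g))
    (h2 : ∀ f g, inner ℂ (κ f) (κ g) = (C : ℂ) * inner ℂ (κ (τ f)) (κ (τ g)))
    (h3 : ∀ g p, mft (τ g) p = c * mft g (M p))
    (h4 : ∀ a p, chr (σ a) p = chr a (M p)) :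
    μ = ENNReal.ofReal (C * c ^ 2) • μ.map M := by
  apply measure_unique
  intro g
  have hA : ν g = ENNReal.ofReal C • (ν (τ g)).map M := by
    have hf1 := S.fin g
    have hf2 := S.fin (τ g)
    have hf3 : IsFiniteMeasure (ENNReal.ofReal C • (ν (τ g)).map M) := by
      apply Measure.smul_finite
      exact ENNReal.ofReal_ne_top
    apply measure_ext_chr
    intro a
    rw [← S.spec, h2, h1, S.spec, integral_smul_measure, ENNReal.toReal_ofReal hC,
      integral_map hM.aemeasurable (continuous_chr a).aestronglyMeasurable, real_smul]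
    congr 2
    ext p
    rw [h4]
  have hd : dens (τ g) = fun p => ENNReal.ofReal (c ^ 2) * dens g (M p) := by
    ext p
    unfold dens
    rw [h3, enorm_mul, mul_pow]
    congr 1
    rw [← ofReal_norm, norm_real, ← ENNReal.ofReal_pow (norm_nonneg _), Real.norm_eq_abs, sq_abs]
  rw [← hμ g, hA, hμ (τ g), hd]
  have e1 : (μ.withDensity fun p => ENNReal.ofReal (c ^ 2) * dens g (M p)) =
      ENNReal.ofReal (c ^ 2) • μ.withDensity fun p => dens g (M p) := by
    have := withDensity_smul (μ := μ) (ENNReal.ofReal (c ^ 2)) ((measurable_dens g).comp hM)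
    exact this
  rw [e1, Measure.map_smul, map_withDensity_comp μ M hM _ (measurable_dens g), smul_smul,
    ENNReal.ofReal_mul hC, withDensity_smul_measure]

end Vale.Agent.P352
end
end

section

section

open MeasureTheory SchwartzMap Complex Filter Topology
open scoped SchwartzMap ComplexConjugate ENNReal

namespace Vale.Agent.P352

open GF (Ix V)

lemma eta_0 : GF.eta 0 = 1 := by simp [GF.eta, GF.o]
lemma eta_1 : GF.eta 1 = -1 := by simp [GF.eta, GF.o]
lemma eta_2 : GF.eta 2 = -1 := by simp [GF.eta, GF.o]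
lemma eta_3 : GF.eta 3 = -1 := by simp [GF.eta, GF.o]

lemma eta_sq (m : Ix) : GF.eta m * GF.eta m = 1 := by
  unfold GF.eta; split_ifs <;> norm_num

lemma gf_mdot (x y : V) : GF.mdot x y = x 0 * y 0 - x 1 * y 1 - x 2 * y 2 - x 3 * y 3 := by
  unfold GF.mdot
  rw [Fin.sum_univ_four, eta_0, eta_1, eta_2, eta_3]
  ring

lemma mdot_eq (x y : Mink) : mdot x y = GF.mdot x.ofLp y.ofLp := by
  rw [gf_mdot]; rfl

/-- the linear map with matrix `L` -/
noncomputable def lam (L : Ix → V) (x : Mink) : Mink :=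
  WithLp.toLp 2 fun n => ∑ m, x m * L m n

@[simp] lemma lam_apply (L : Ix → V) (x : Mink) (n : Ix) : lam L x n = ∑ m, x m * L m n := rfl

/-- the linear map with matrix `L` -/
noncomputable def lamL (L : Ix → V) : Mink →ₗ[ℝ] Mink where
  toFun := lam L
  map_add' x y := by
    ext n
    simp only [lam_apply, PiLp.add_apply, add_mul, Finset.sum_add_distrib]
  map_smul' c x := by
    ext n
    simp only [lam_apply, PiLp.smul_apply, smul_eq_mul, mul_assoc, Real.ringHom_apply,
      Finset.mul_sum]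

lemma det_lamL (L : Ix → V) : LinearMap.det (lamL L) = Matrix.det L := by
  rw [← LinearMap.det_toMatrix (EuclideanSpace.basisFun (Fin 4) ℝ).toBasis]
  have : LinearMap.toMatrix (EuclideanSpace.basisFun (Fin 4) ℝ).toBasis
      (EuclideanSpace.basisFun (Fin 4) ℝ).toBasis (lamL L) =
      Matrix.transpose (Matrix.of L) := by
    ext i j
    rw [LinearMap.toMatrix_apply]
    simp only [lamL, OrthonormalBasis.coe_toBasis, EuclideanSpace.basisFun_apply, LinearMap.coe_mk, AddHom.coe_mk, OrthonormalBasis.coe_toBasis_repr_apply, EuclideanSpace.basisFun_repr, lam_apply, PiLp.single_apply, ite_mul, one_mul, zero_mul, Finset.sum_ite_eq', Finset.mem_univ, ↓reduceIte, Matrix.transpose_apply, Matrix.of_apply]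
  rw [this, Matrix.det_transpose]
  rfl

lemma continuous_lam (L : Ix → V) : Continuous (lam L) := (lamL L).continuous_of_finiteDimensional

lemma mdot_lam {L : Ix → V} (hL : GF.IsLor L) (x y : Mink) :
    mdot (lam L x) (lam L y) = mdot x y := by
  have h := hL.1
  have e : ∀ m n, L m 0 * L n 0 - L m 1 * L n 1 - L m 2 * L n 2 - L m 3 * L n 3 =
      GF.bas m (GF.eta m) n := by
    intro m n
    rw [← gf_mdot, h]
  simp only [mdot, lam_apply, Fin.sum_univ_four]
  have h00 := e 0 0
  have h01 := e 0 1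
  have h02 := e 0 2
  have h03 := e 0 3
  have h11 := e 1 1
  have h12 := e 1 2
  have h13 := e 1 3
  have h22 := e 2 2
  have h23 := e 2 3
  have h33 := e 3 3
  simp only [Fin.isValue, GF.bas, ↓reduceIte, eta_0, one_ne_zero, Fin.reduceEq, eta_1, eta_2,
    eta_3] at h00 h01 h02 h03 h11 h12 h13 h22 h23 h33
  linear_combination (x 0 * y 0) * h00 + (x 0 * y 1 + x 1 * y 0) * h01 +
    (x 0 * y 2 + x 2 * y 0) * h02 + (x 0 * y 3 + x 3 * y 0) * h03 + (x 1 * y 1) * h11 +
    (x 1 * y 2 + x 2 * y 1) * h12 + (x 1 * y 3 + x 3 * y 1) * h13 + (x 2 * y 2) * h22 +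
    (x 2 * y 3 + x 3 * y 2) * h23 + (x 3 * y 3) * h33

lemma lam_injective {L : Ix → V} (hL : GF.IsLor L) : Function.Injective (lamL L) := by
  have hdet : LinearMap.det (lamL L) ≠ 0 := by
    rw [det_lamL, hL.2.2]; exact one_ne_zero
  have := LinearMap.equivOfDetNeZero (lamL L) hdet
  exact (LinearMap.equivOfDetNeZero (lamL L) hdet).injective

/-- the equivalence with matrix `L` -/
noncomputable def lamE {L : Ix → V} (hL : GF.IsLor L) : Mink ≃L[ℝ] Mink :=
  (LinearEquiv.ofInjectiveEndo (lamL L) (lam_injective hL)).toContinuousLinearEquiv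

@[simp] lemma lamE_apply {L : Ix → V} (hL : GF.IsLor L) (x : Mink) : lamE hL x = lam L x := rfl

lemma measurePreserving_lam_volume {L : Ix → V} (hL : GF.IsLor L) :
    MeasurePreserving (lam L) (volume : Measure Mink) volume := by
  refine ⟨(continuous_lam L).measurable, ?_⟩
  have hdet : LinearMap.det (lamL L) = 1 := by rw [det_lamL, hL.2.2]
  have h := Measure.map_linearMap_addHaar_eq_smul_addHaar (μ := (volume : Measure Mink))
    (f := lamL L) (by rw [hdet]; norm_num)
  rw [hdet] at h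
  simp only [inv_one, abs_one, ENNReal.ofReal_one, one_smul] at h
  exact h

/-- `g ∘ Λ` -/
noncomputable def compLam {L : Ix → V} (hL : GF.IsLor L) (g : 𝓢(Mink, ℂ)) : 𝓢(Mink, ℂ) :=
  SchwartzMap.compCLMOfContinuousLinearEquiv ℂ (lamE hL) g

@[simp] lemma compLam_apply {L : Ix → V} (hL : GF.IsLor L) (g : 𝓢(Mink, ℂ)) (x : Mink) :
    compLam hL g x = g (lam L x) := by
  simp [compLam]

lemma mdot_lam_symm {L : Ix → V} (hL : GF.IsLor L) (p y : Mink) :
    mdot p ((lamE hL).symm y) = mdot (lam L p) y := by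
  rw [← mdot_lam hL, ← lamE_apply hL ((lamE hL).symm y), ContinuousLinearEquiv.apply_symm_apply]

lemma mft_compLam {L : Ix → V} (hL : GF.IsLor L) (g : 𝓢(Mink, ℂ)) (p : Mink) :
    mft (compLam hL g) p = mft g (lam L p) := by
  unfold mft
  have hemb : MeasurableEmbedding (lam L) := (lamE hL).toHomeomorph.measurableEmbedding
  rw [← (measurePreserving_lam_volume hL).integral_comp hemb
    (fun x => exp (I * (mdot (lam L p) x : ℂ)) * g x)]
  congr 1
  ext x
  rw [compLam_apply, mdot_lam hL]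

lemma compLam_tauS {L : Ix → V} (hL : GF.IsLor L) (g : 𝓢(Mink, ℂ)) (a : Mink) :
    compLam hL (tauS a g) = tauS ((lamE hL).symm a) (compLam hL g) := by
  ext x
  simp only [compLam_apply, tauS_apply]
  congr 1
  rw [← lamE_apply hL, ← lamE_apply hL, map_sub, ContinuousLinearEquiv.apply_symm_apply]

lemma chr_lam_symm {L : Ix → V} (hL : GF.IsLor L) (a p : Mink) :
    chr ((lamE hL).symm a) p = chr a (lam L p) := by
  rw [chr, chr, mdot_lam_symm]

/-- `g (s ·)` -/
noncomputable def scaleS (s : ℝ) (hs : s ≠ 0) (g : 𝓢(Mink, ℂ)) : 𝓢(Mink, ℂ) :=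
  SchwartzMap.compCLMOfContinuousLinearEquiv ℂ
    (LinearEquiv.smulOfNeZero ℝ Mink s hs).toContinuousLinearEquiv g

@[simp] lemma scaleS_apply (s : ℝ) (hs : s ≠ 0) (g : 𝓢(Mink, ℂ)) (x : Mink) :
    scaleS s hs g x = g (s • x) := by
  simp only [scaleS, compCLMOfContinuousLinearEquiv_apply,
    LinearEquiv.coe_toContinuousLinearEquiv', Function.comp_apply, LinearEquiv.smulOfNeZero_apply]

lemma mft_scaleS (s : ℝ) (hs : 0 < s) (g : 𝓢(Mink, ℂ)) (p : Mink) :
    mft (scaleS s hs.ne' g) p = ((s ^ 4)⁻¹ : ℝ) * mft g (s⁻¹ • p) := by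
  unfold mft
  have h := Measure.integral_comp_smul (μ := (volume : Measure Mink))
    (fun x => exp (I * (mdot (s⁻¹ • p) x : ℂ)) * g x) s
  have hd : Module.finrank ℝ Mink = 4 := by simp
  rw [hd, abs_of_pos (by (clear * - hs; positivity)), real_smul] at h
  rw [← h]
  congr 1
  ext x
  rw [scaleS_apply, mdot_smul_right, mdot_smul_left]
  congr 4
  field_simp

lemma scaleS_tauS (s : ℝ) (hs : s ≠ 0) (g : 𝓢(Mink, ℂ)) (a : Mink) :
    scaleS s hs (tauS a g) = tauS (s⁻¹ • a) (scaleS s hs g) := by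
  ext x
  simp only [scaleS_apply, tauS_apply]
  congr 1
  rw [smul_sub, smul_inv_smul₀ hs]

lemma chr_smul (s : ℝ) (a p : Mink) : chr (s⁻¹ • a) p = chr a (s⁻¹ • p) := by
  rw [chr, chr, mdot_smul_right, mdot_smul_left]

end Vale.Agent.P352
end
end

section

section

open MeasureTheory SchwartzMap Complex Filter Topology
open scoped SchwartzMap ComplexConjugate ENNReal

namespace Vale.Agent.P352

open GF (Ix V)

/-- matrix of the boost -/
noncomputable def mBoost (t : ℝ) : Ix → V :=
  ![![Real.cosh t, Real.sinh t, 0, 0], ![Real.sinh t, Real.cosh t, 0, 0], ![0, 0, 1, 0],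
    ![0, 0, 0, 1]]

/-- matrix of the rotation by `π` in the 2-3-plane -/
def mRot23 : Ix → V := ![![1, 0, 0, 0], ![0, 1, 0, 0], ![0, 0, -1, 0], ![0, 0, 0, -1]]

/-- matrix of the rotation by `π` in the 1-2-plane -/
def mRot12 : Ix → V := ![![1, 0, 0, 0], ![0, -1, 0, 0], ![0, 0, -1, 0], ![0, 0, 0, 1]]

/-- cyclic permutation of the axes -/
def mCyc : Ix → V := ![![1, 0, 0, 0], ![0, 0, 1, 0], ![0, 0, 0, 1], ![0, 1, 0, 0]]

/-- null rotation -/
noncomputable def mNull (b : ℝ) : Ix → V :=
  ![![1 + b ^ 2 / 2, -(b ^ 2 / 2), b, 0], ![b ^ 2 / 2, 1 - b ^ 2 / 2, b, 0], ![b, -b, 1, 0],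
    ![0, 0, 0, 1]]

/-- null rotation -/
noncomputable def mNull' (b : ℝ) : Ix → V :=
  ![![1 + b ^ 2 / 2, -(b ^ 2 / 2), 0, b], ![b ^ 2 / 2, 1 - b ^ 2 / 2, 0, b], ![0, 0, 1, 0],
    ![b, -b, 0, 1]]

lemma isLor_boost (t : ℝ) : GF.IsLor (mBoost t) := by
  have h := Real.cosh_sq t
  refine ⟨?_, ?_, ?_⟩
  · intro m n
    rw [gf_mdot]
    fin_cases m <;> fin_cases n <;>
      simp [mBoost, GF.bas, eta_0, eta_1, eta_2, eta_3] <;> nlinarith only [h]
  · change 0 < Real.cosh t
    exact Real.cosh_pos t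
  · change Matrix.det (Matrix.of (mBoost t)) = 1
    rw [Matrix.det_succ_row_zero]
    simp only [Nat.succ_eq_add_one, Nat.reduceAdd, mBoost, Fin.isValue, Matrix.of_apply, Matrix.cons_val', Matrix.cons_val_fin_one, Matrix.cons_val_zero, Matrix.det_fin_three, Matrix.submatrix_apply, Fin.succ_zero_eq_one, Matrix.cons_val_one, Fin.succ_one_eq_two, Matrix.cons_val, Fin.reduceSucc, Fin.sum_univ_four, Fin.coe_ofNat_eq_mod, Nat.zero_mod, pow_zero, one_mul, Fin.zero_succAbove, mul_one, mul_zero, sub_zero, add_zero, Nat.one_mod, pow_one, neg_mul, ne_eq, one_ne_zero, not_false_eq_true, Fin.succAbove_ne_zero_zero, Fin.one_succAbove_one, zero_mul, Nat.reduceMod, even_two, Even.neg_pow, one_pow, Fin.reduceEq, Nat.mod_succ]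
    simp only [Fin.succAbove, Nat.reduceAdd, Fin.isValue, Fin.reduceCastSucc, Fin.lt_one_iff,
      Fin.reduceEq, ↓reduceIte, Fin.reduceSucc, Matrix.cons_val, mul_one]
    linarith

lemma isLor_rot23 : GF.IsLor mRot23 := by
  refine ⟨?_, ?_, ?_⟩
  · intro m n
    rw [gf_mdot]
    fin_cases m <;> fin_cases n <;>
      simp [mRot23, GF.bas, eta_0, eta_1, eta_2, eta_3]
  · change (0 : ℝ) < 1
    norm_num
  · change Matrix.det (Matrix.of mRot23) = 1
    rw [Matrix.det_succ_row_zero]
    simp only [Nat.succ_eq_add_one, Nat.reduceAdd, mRot23, Fin.isValue, Matrix.of_apply,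
      Matrix.cons_val', Matrix.cons_val_fin_one, Matrix.cons_val_zero, Matrix.det_fin_three,
      Matrix.submatrix_apply, Fin.succ_zero_eq_one, Matrix.cons_val_one, Fin.succ_one_eq_two,
      Matrix.cons_val, Fin.reduceSucc, Fin.sum_univ_four, Fin.coe_ofNat_eq_mod, Nat.zero_mod,
      pow_zero, mul_one, Fin.zero_succAbove, mul_neg, neg_neg, mul_zero, sub_zero, neg_zero,
      add_zero, Nat.one_mod, pow_one, ne_eq, one_ne_zero, not_false_eq_true,
      Fin.succAbove_ne_zero_zero, Fin.one_succAbove_one, zero_mul, sub_self, Nat.reduceMod,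
      even_two, Even.neg_pow, one_pow, Fin.reduceEq, Nat.mod_succ]

lemma isLor_rot12 : GF.IsLor mRot12 := by
  refine ⟨?_, ?_, ?_⟩
  · intro m n
    rw [gf_mdot]
    fin_cases m <;> fin_cases n <;>
      simp [mRot12, GF.bas, eta_0, eta_1, eta_2, eta_3]
  · change (0 : ℝ) < 1
    norm_num
  · change Matrix.det (Matrix.of mRot12) = 1
    rw [Matrix.det_succ_row_zero]
    simp only [Nat.succ_eq_add_one, Nat.reduceAdd, mRot12, Fin.isValue, Matrix.of_apply,
      Matrix.cons_val', Matrix.cons_val_fin_one, Matrix.cons_val_zero, Matrix.det_fin_three,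
      Matrix.submatrix_apply, Fin.succ_zero_eq_one, Matrix.cons_val_one, Fin.succ_one_eq_two,
      Matrix.cons_val, Fin.reduceSucc, Fin.sum_univ_four, Fin.coe_ofNat_eq_mod, Nat.zero_mod,
      pow_zero, mul_one, Fin.zero_succAbove, mul_neg, neg_neg, mul_zero, sub_zero, add_zero,
      neg_zero, Nat.one_mod, pow_one, ne_eq, one_ne_zero, not_false_eq_true,
      Fin.succAbove_ne_zero_zero, Fin.one_succAbove_one, zero_mul, sub_self, Nat.reduceMod,
      even_two, Even.neg_pow, one_pow, Fin.reduceEq, Nat.mod_succ]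

lemma isLor_cyc : GF.IsLor mCyc := by
  refine ⟨?_, ?_, ?_⟩
  · intro m n
    rw [gf_mdot]
    fin_cases m <;> fin_cases n <;>
      simp [mCyc, GF.bas, eta_0, eta_1, eta_2, eta_3]
  · change (0 : ℝ) < 1
    norm_num
  · change Matrix.det (Matrix.of mCyc) = 1
    rw [Matrix.det_succ_row_zero]
    simp only [Nat.succ_eq_add_one, Nat.reduceAdd, mCyc, Fin.isValue, Matrix.of_apply,
      Matrix.cons_val', Matrix.cons_val_fin_one, Matrix.cons_val_zero, Matrix.det_fin_three,
      Matrix.submatrix_apply, Fin.succ_zero_eq_one, Matrix.cons_val_one, Fin.succ_one_eq_two,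
      Matrix.cons_val, Fin.reduceSucc, Fin.sum_univ_four, Fin.coe_ofNat_eq_mod, Nat.zero_mod,
      pow_zero, mul_one, Fin.zero_succAbove, mul_zero, sub_self, zero_add, add_zero, sub_zero,
      Nat.one_mod, pow_one, ne_eq, one_ne_zero, not_false_eq_true, Fin.succAbove_ne_zero_zero,
      Fin.one_succAbove_one, zero_mul, one_mul, Nat.reduceMod, even_two, Even.neg_pow, one_pow,
      Fin.reduceEq, Nat.mod_succ]

lemma isLor_null (b : ℝ) : GF.IsLor (mNull b) := by
  refine ⟨?_, ?_, ?_⟩
  · intro m n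
    rw [gf_mdot]
    fin_cases m <;> fin_cases n <;>
      simp [mNull, GF.bas, eta_0, eta_1, eta_2, eta_3] <;> ring
  · change (0 : ℝ) < 1 + b ^ 2 / 2
    (clear * -; positivity)
  · change Matrix.det (Matrix.of (mNull b)) = 1
    rw [Matrix.det_succ_row_zero]
    simp only [Nat.succ_eq_add_one, Nat.reduceAdd, mNull, Fin.isValue, Matrix.of_apply,
      Matrix.cons_val', Matrix.cons_val_fin_one, Matrix.cons_val_zero, Matrix.det_fin_three,
      Matrix.submatrix_apply, Fin.succ_zero_eq_one, Matrix.cons_val_one, Fin.succ_one_eq_two,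
      Matrix.cons_val, Fin.reduceSucc, Fin.sum_univ_four, Fin.coe_ofNat_eq_mod, Nat.zero_mod,
      pow_zero, one_mul, Fin.zero_succAbove, mul_one, mul_zero, sub_zero, mul_neg, sub_neg_eq_add,
      add_zero, zero_mul, neg_zero, Nat.one_mod, pow_one, neg_mul, neg_neg, ne_eq, one_ne_zero,
      not_false_eq_true, Fin.succAbove_ne_zero_zero, Fin.one_succAbove_one, Nat.reduceMod,
      even_two, Even.neg_pow, one_pow, Fin.reduceEq, Nat.mod_succ]
    simp only [Fin.succAbove, Nat.reduceAdd, Fin.isValue, Fin.reduceCastSucc, Fin.lt_one_iff,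
      Fin.reduceEq, ↓reduceIte, Fin.reduceSucc, Matrix.cons_val, mul_one, Fin.castSucc_one,
      Fin.reduceLT, Matrix.cons_val_one, Matrix.cons_val_zero, mul_neg, lt_self_iff_false,
      mul_zero, sub_zero, zero_mul, add_zero]
    ring

lemma isLor_null' (b : ℝ) : GF.IsLor (mNull' b) := by
  refine ⟨?_, ?_, ?_⟩
  · intro m n
    rw [gf_mdot]
    fin_cases m <;> fin_cases n <;>
      simp [mNull', GF.bas, eta_0, eta_1, eta_2, eta_3] <;> ring
  · change (0 : ℝ) < 1 + b ^ 2 / 2
    (clear * -; (clear * -; positivity))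
  · change Matrix.det (Matrix.of (mNull' b)) = 1
    rw [Matrix.det_succ_row_zero]
    simp only [Nat.succ_eq_add_one, Nat.reduceAdd, mNull', Fin.isValue, Matrix.of_apply,
      Matrix.cons_val', Matrix.cons_val_fin_one, Matrix.cons_val_zero, Matrix.det_fin_three,
      Matrix.submatrix_apply, Fin.succ_zero_eq_one, Matrix.cons_val_one, Fin.succ_one_eq_two,
      Matrix.cons_val, Fin.reduceSucc, Fin.sum_univ_four, Fin.coe_ofNat_eq_mod, Nat.zero_mod,
      pow_zero, one_mul, Fin.zero_succAbove, mul_one, mul_zero, sub_zero, mul_neg, zero_mul,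
      neg_zero, add_zero, sub_neg_eq_add, Nat.one_mod, pow_one, neg_mul, neg_neg, ne_eq,
      one_ne_zero, not_false_eq_true, Fin.succAbove_ne_zero_zero, Fin.one_succAbove_one,
      Nat.reduceMod, even_two, Even.neg_pow, one_pow, Fin.reduceEq, Nat.mod_succ]
    simp only [Fin.succAbove, Nat.reduceAdd, Fin.isValue, Fin.reduceCastSucc, Fin.lt_one_iff, Fin.reduceEq, ↓reduceIte, Fin.reduceSucc, Matrix.cons_val, mul_one, Fin.castSucc_one, Fin.reduceLT, Matrix.cons_val_one, Matrix.cons_val_zero, mul_zero, mul_neg, sub_neg_eq_add, zero_add, zero_mul, sub_zero]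
    ring

lemma lam_boost (t : ℝ) : lam (mBoost t) = boost t := by
  funext x
  apply mink_ext <;> simp [Fin.sum_univ_four, mBoost]

lemma lam_rot23 : lam mRot23 = rotPi := by
  funext x
  apply mink_ext <;> simp [Fin.sum_univ_four, mRot23]

/-- the invariance properties of the spectral measure -/
structure SymMeasure (μ : Measure Mink) (d : ℝ) : Prop where
  cone : μ fwdConeᶜ = 0
  lor : ∀ L, GF.IsLor L → MeasurePreserving (lam L) μ μ
  scale : ∀ s : ℝ, 0 < s → ∀ B : Set Mink, MeasurableSet B →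
    μ ((fun p => s⁻¹ • p) ⁻¹' B) = ENNReal.ofReal (s ^ (2 * d)) * μ B
  fin : ∀ R, μ (Metric.closedBall 0 R) < ∞

end Vale.Agent.P352
end
end

section

section

open MeasureTheory SchwartzMap Complex Filter Topology
open scoped SchwartzMap ComplexConjugate LineDeriv ENNReal

namespace Vale.Agent.P352

variable {μ : Measure Mink}

/-- `boost t` as a linear map -/
noncomputable def boostLin (t : ℝ) : Mink →ₗ[ℝ] Mink where
  toFun := boost t
  map_add' x y := by apply mink_ext <;> simp <;> ring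
  map_smul' c x := by apply mink_ext <;> simp <;> ring

/-- `boost t` as a continuous linear equivalence -/
noncomputable def boostE (t : ℝ) : Mink ≃L[ℝ] Mink :=
  LinearEquiv.toContinuousLinearEquiv
    { boostLin t with
      invFun := boost (-t)
      left_inv := fun x => by
        change boost (-t) (boost t x) = x
        rw [boost_boost]; simp
      right_inv := fun x => by
        change boost t (boost (-t) x) = x
        rw [boost_boost]; simp }

@[simp] lemma boostE_apply (t : ℝ) (x : Mink) : boostE t x = boost t x := rfl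

lemma det_boostLin (t : ℝ) : LinearMap.det (boostLin t) = 1 := by
  have hb := (EuclideanSpace.basisFun (Fin 4) ℝ).toBasis
  rw [← LinearMap.det_toMatrix (EuclideanSpace.basisFun (Fin 4) ℝ).toBasis]
  have : LinearMap.toMatrix (EuclideanSpace.basisFun (Fin 4) ℝ).toBasis
      (EuclideanSpace.basisFun (Fin 4) ℝ).toBasis (boostLin t) =
      !![Real.cosh t, Real.sinh t, 0, 0; Real.sinh t, Real.cosh t, 0, 0; 0, 0, 1, 0; 0, 0, 0, 1] := by
    ext i j
    rw [LinearMap.toMatrix_apply]
    fin_cases i <;> fin_cases j <;> simp [boostLin]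
  rw [this]
  rw [Matrix.det_succ_row_zero]
  simp only [Nat.succ_eq_add_one, Nat.reduceAdd, Fin.isValue, Matrix.of_apply, Matrix.cons_val', Matrix.cons_val_fin_one, Matrix.cons_val_zero, Matrix.det_fin_three, Matrix.submatrix_apply, Fin.succ_zero_eq_one, Matrix.cons_val_one, Fin.succ_one_eq_two, Matrix.cons_val, Fin.reduceSucc, Fin.sum_univ_four, Fin.coe_ofNat_eq_mod, Nat.zero_mod, pow_zero, one_mul, Fin.zero_succAbove, mul_one, mul_zero, sub_zero, add_zero, Nat.one_mod, pow_one, neg_mul, ne_eq, one_ne_zero, not_false_eq_true, Fin.succAbove_ne_zero_zero, Fin.one_succAbove_one, zero_mul, Nat.reduceMod, even_two, Even.neg_pow, one_pow, Fin.reduceEq, Nat.mod_succ]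
  simp only [Fin.succAbove, Nat.reduceAdd, Fin.isValue, Fin.reduceCastSucc, Fin.lt_one_iff,
    Fin.reduceEq, ↓reduceIte, Fin.reduceSucc, Matrix.cons_val, mul_one]
  have := Real.cosh_sq t
  nlinarith only [this]

lemma measurePreserving_boost_volume (t : ℝ) :
    MeasurePreserving (boost t) (volume : Measure Mink) volume := by
  refine ⟨(continuous_boost_right t).measurable, ?_⟩
  have h := Measure.map_linearMap_addHaar_eq_smul_addHaar (μ := (volume : Measure Mink))
    (f := boostLin t) (by rw [det_boostLin]; norm_num)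
  rw [det_boostLin] at h
  simp only [inv_one, abs_one, ENNReal.ofReal_one, one_smul] at h
  exact h

/-- `f ∘ boost t` as a Schwartz function -/
noncomputable def boostS (t : ℝ) (f : 𝓢(Mink, ℂ)) : 𝓢(Mink, ℂ) :=
  SchwartzMap.compCLMOfContinuousLinearEquiv ℂ (boostE t) f

@[simp] lemma boostS_apply (t : ℝ) (f : 𝓢(Mink, ℂ)) (x : Mink) : boostS t f x = f (boost t x) := by
  simp only [boostS, compCLMOfContinuousLinearEquiv_apply, Function.comp_apply, boostE_apply]

lemma mft_boostS (t : ℝ) (f : 𝓢(Mink, ℂ)) (p : Mink) : mft (boostS t f) p = mft f (boost t p) := by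
  unfold mft
  have hmp := measurePreserving_boost_volume t
  have hemb : MeasurableEmbedding (boost t) :=
    (boostE t).toHomeomorph.measurableEmbedding
  rw [← hmp.integral_comp hemb (fun x => exp (I * (mdot (boost t p) x : ℂ)) * f x)]
  congr 1
  ext x
  rw [boostS_apply, mdot_boost]

lemma conjS_boostS (t : ℝ) (f : 𝓢(Mink, ℂ)) : conjS (boostS t f) = boostS t (conjS f) := by
  ext x; simp only [conjS_apply, boostS_apply]

lemma boost_mem_wedge {x : Mink} (t : ℝ) : boost t x ∈ wedge ↔ x ∈ wedge := by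
  have key : ∀ (s : ℝ) (y : Mink), y ∈ wedge → boost s y ∈ wedge := by
    intro s y hy
    have hy' : |y 0| < y 1 := hy
    obtain ⟨h1, h2⟩ := abs_lt.1 hy'
    change |boost s y 0| < boost s y 1
    simp only [boost_0, boost_1]
    have e1 : 0 < Real.cosh s + Real.sinh s := by
      rw [Real.cosh_add_sinh]; exact Real.exp_pos _
    have e2 : 0 < Real.cosh s - Real.sinh s := by
      rw [Real.cosh_sub_sinh]; exact Real.exp_pos _
    rw [abs_lt]
    constructor
    · nlinarith only [h1, e1]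
    · nlinarith only [h2, e2]
  refine ⟨fun h => ?_, key t x⟩
  have := key (-t) _ h
  rwa [boost_boost, neg_add_cancel, boost_zero] at this

lemma tsupport_boostS (t : ℝ) (f : 𝓢(Mink, ℂ)) :
    tsupport (boostS t f) = boost t ⁻¹' (tsupport f) := by
  have h : (boostS t f : Mink → ℂ) = f ∘ (boostE t).toHomeomorph := by
    ext x; simp only [boostS_apply, ContinuousLinearEquiv.coe_toHomeomorph, Function.comp_apply,
             boostE_apply]
  rw [h, tsupport_comp_eq_preimage]
  rfl

lemma IsTest.boostS {f : 𝓢(Mink, ℂ)} (hf : IsTest wedge f) (t : ℝ) :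
    IsTest wedge (boostS t f) := by
  refine ⟨?_, ?_⟩
  · have h : (Vale.Agent.P352.boostS t f : Mink → ℂ) = f ∘ (boostE t).toHomeomorph := by
      ext x; simp only [boostS_apply, ContinuousLinearEquiv.coe_toHomeomorph, Function.comp_apply, boostE_apply]
    rw [h]
    exact hf.1.comp_homeomorph _
  · rw [tsupport_boostS]
    intro x hx
    exact (boost_mem_wedge t).1 (hf.2 hx)

end Vale.Agent.P352
end
end

section

section

open MeasureTheory SchwartzMap Complex Filter Topology
open scoped SchwartzMap ComplexConjugate ENNReal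

namespace Vale.Agent.P352

variable {μ : Measure Mink}

lemma IsTest.add {W : Set Mink} {f g : 𝓢(Mink, ℂ)} (hf : IsTest W f) (hg : IsTest W g) :
    IsTest W (f + g) := by
  refine ⟨HasCompactSupport.add hf.1 hg.1, ?_⟩
  have h1 : tsupport ((f + g : 𝓢(Mink, ℂ)) : Mink → ℂ) ⊆ tsupport f ∪ tsupport g := tsupport_add _ _
  exact h1.trans (Set.union_subset hf.2 hg.2)

lemma IsTest.smul {W : Set Mink} {f : 𝓢(Mink, ℂ)} (hf : IsTest W f) (c : ℂ) :
    IsTest W (c • f) := by
  refine ⟨HasCompactSupport.smul_left (f := fun _ => c) hf.1, ?_⟩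
  have h1 : tsupport ((c • f : 𝓢(Mink, ℂ)) : Mink → ℂ) ⊆ tsupport f :=
    tsupport_smul_subset_right (fun _ => c) f
  exact h1.trans hf.2

lemma isTest_zero (W : Set Mink) : IsTest W (0 : 𝓢(Mink, ℂ)) := by
  have h : ((0 : 𝓢(Mink, ℂ)) : Mink → ℂ) = 0 := rfl
  refine ⟨?_, ?_⟩
  · rw [h]; exact HasCompactSupport.zero
  · rw [h]; simp only [tsupport_zero, Set.empty_subset]

/-- the subspace of `L²(μ)` generated by the wedge -/
noncomputable def wedgeSub (μ : Measure Mink) (hμ : μ.HasTemperateGrowth) (W : Set Mink) :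
    Submodule ℂ (Lp ℂ 2 μ) where
  carrier := {v | ∃ f, IsTest W f ∧ v = (mft_memLp hμ f).toLp (mft f)}
  add_mem' := by
    rintro _ _ ⟨f, hf, rfl⟩ ⟨g, hg, rfl⟩
    refine ⟨f + g, hf.add hg, ?_⟩
    rw [← MemLp.toLp_add]
    congr 1
    ext p
    simp [mft_add]
  zero_mem' := by
    refine ⟨0, isTest_zero W, ?_⟩
    symm
    rw [MemLp.toLp_eq_toLp_iff (mft_memLp hμ 0) (MemLp.zero (p := 2)) |>.2]
    · rfl
    · exact Eventually.of_forall fun p => by simp [mft_zero]
  smul_mem' := by
    rintro c _ ⟨f, hf, rfl⟩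
    refine ⟨c • f, hf.smul c, ?_⟩
    rw [← MemLp.toLp_const_smul]
    congr 1
    ext p
    simp [mft_smul]

lemma wedgeSub_dense (hμ : GoodMeasure μ) :
    (wedgeSub μ hμ.temp wedge).topologicalClosure = ⊤ := by
  rw [Submodule.topologicalClosure_eq_top_iff, Submodule.eq_bot_iff]
  intro u hu
  have h0 : (fun p => conj (u p)) =ᵐ[μ] 0 := by
    apply rs_wedge hμ
    · exact (Lp.memLp u).star
    · intro f hf
      have h1 := (Submodule.mem_orthogonal' _ _).1 hu _
        (⟨f, hf, rfl⟩ : (mft_memLp hμ.temp f).toLp (mft f) ∈ wedgeSub μ hμ.temp wedge)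
      rw [L2.inner_def] at h1
      rw [← h1]
      apply integral_congr_ae
      filter_upwards [MemLp.coeFn_toLp (mft_memLp hμ.temp f)] with p hp
      rw [hp]
      rfl
  rw [Lp.eq_zero_iff_ae_eq_zero]
  filter_upwards [h0] with p hp
  simpa only [Pi.zero_apply, map_eq_zero] using hp

lemma dense_wedge (hμ : GoodMeasure μ) (u : Mink → ℂ) (hu : MemLp u 2 μ) (ε : ℝ) (hε : 0 < ε) :
    ∃ f, IsTest wedge f ∧ eLpNorm (fun p => u p - mft f p) 2 μ ≤ ENNReal.ofReal ε := by
  have h1 : hu.toLp u ∈ (wedgeSub μ hμ.temp wedge).topologicalClosure := by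
    rw [wedgeSub_dense hμ]; trivial
  obtain ⟨v, ⟨f, hf, rfl⟩, hv⟩ := Metric.mem_closure_iff.1 h1 ε hε
  refine ⟨f, hf, ?_⟩
  rw [dist_eq_norm, ← MemLp.toLp_sub, Lp.norm_toLp] at hv
  change eLpNorm (u - mft f) 2 μ ≤ _
  rw [ENNReal.le_ofReal_iff_toReal_le (hu.sub (mft_memLp hμ.temp f)).eLpNorm_ne_top hε.le]
  exact hv.le

/-- Cauchy-Schwarz for integrals of products. -/
lemma norm_integral_mul_le {u v : Mink → ℂ} (hu : MemLp u 2 μ) (hv : MemLp v 2 μ) :
    ‖∫ p, u p * v p ∂μ‖ ≤ (eLpNorm u 2 μ).toReal * (eLpNorm v 2 μ).toReal := by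
  rw [← ENNReal.toReal_mul]
  have hle : eLpNorm (fun p => u p * v p) 1 μ ≤ eLpNorm u 2 μ * eLpNorm v 2 μ := by
    have := eLpNorm_smul_le_mul_eLpNorm (p := 2) (q := 2) (r := 1)
      hv.aestronglyMeasurable hu.aestronglyMeasurable
    exact this
  have hfin : eLpNorm u 2 μ * eLpNorm v 2 μ ≠ ∞ :=
    ENNReal.mul_ne_top hu.eLpNorm_ne_top hv.eLpNorm_ne_top
  calc ‖∫ p, u p * v p ∂μ‖ ≤ (eLpNorm (fun p => u p * v p) 1 μ).toReal := by
        rw [eLpNorm_one_eq_lintegral_enorm]
        have h3 := enorm_integral_le_lintegral_enorm (μ := μ) (fun p => u p * v p)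
        have h4 : ∫⁻ p, ‖u p * v p‖ₑ ∂μ ≠ ∞ := by
          rw [← eLpNorm_one_eq_lintegral_enorm]
          exact ne_top_of_le_ne_top hfin hle
        rw [← toReal_enorm]
        exact ENNReal.toReal_mono h4 h3
    _ ≤ _ := ENNReal.toReal_mono hfin hle

/-- approximate identity -/
lemma gauss_unique (c : ℝ → ℂ) (hc : Continuous c) (M : ℝ) (hM : ∀ t, ‖c t‖ ≤ M)
    (h : ∀ s : ℝ, 0 < s → ∫ t : ℝ, exp (-(s : ℂ) * (t : ℂ) ^ 2) * c t = 0) : c 0 = 0 := by
  have h1 : ∀ n : ℕ, ∫ u : ℝ, exp (-(u : ℂ) ^ 2) * c (u / (n + 1)) = 0 := by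
    intro n
    have hn : (0 : ℝ) < (n : ℝ) + 1 := by (clear * -; positivity)
    have h2 := h (((n : ℝ) + 1) ^ 2) (by (clear * -; positivity))
    have h3 := Measure.integral_comp_div (fun t : ℝ =>
      exp (-((((n : ℝ) + 1) ^ 2 : ℝ) : ℂ) * (t : ℂ) ^ 2) * c t) ((n : ℝ) + 1)
    rw [h2, smul_zero] at h3
    rw [← h3]
    congr 1
    ext u
    congr 2
    push_cast
    have : ((n : ℂ) + 1) ≠ 0 := by exact_mod_cast hn.ne'
    field_simp
  have hint : Integrable (fun u : ℝ => Real.exp (-u ^ 2)) := by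
    have := integrable_exp_neg_mul_sq (b := 1) one_pos
    simpa only [neg_mul, one_mul] using this
  have hnorm : ∀ u : ℝ, ‖exp (-(u : ℂ) ^ 2)‖ = Real.exp (-u ^ 2) := by
    intro u
    rw [norm_exp]
    congr 1
    rw [← ofReal_pow, ← ofReal_neg, ofReal_re]
  have h4 : Tendsto (fun n : ℕ => ∫ u : ℝ, exp (-(u : ℂ) ^ 2) * c (u / (n + 1))) atTop
      (𝓝 (∫ u : ℝ, exp (-(u : ℂ) ^ 2) * c 0)) := by
    apply tendsto_integral_of_dominated_convergence (fun u => Real.exp (-u ^ 2) * M)
    · intro n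
      apply Continuous.aestronglyMeasurable
      fun_prop
    · exact hint.mul_const M
    · intro n
      refine Eventually.of_forall fun u => ?_
      rw [norm_mul, hnorm]
      gcongr
      exact hM _
    · refine Eventually.of_forall fun u => ?_
      apply Tendsto.const_mul
      have h5 : Tendsto (fun n : ℕ => u / ((n : ℝ) + 1)) atTop (𝓝 0) :=
        tendsto_const_div_atTop_nhds_zero_nat u |>.comp (tendsto_add_atTop_nat 1) |>.congr
          (fun n => by simp only [Function.comp_apply, Nat.cast_add, Nat.cast_one])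
      exact (hc.tendsto 0).comp h5
  simp_rw [h1] at h4
  have h5 := tendsto_nhds_unique h4 tendsto_const_nhds
  rw [integral_mul_const] at h5
  have h6 : ∫ u : ℝ, exp (-(u : ℂ) ^ 2) ≠ 0 := by
    have h7 : ∫ u : ℝ, exp (-(u : ℂ) ^ 2) = ((∫ u : ℝ, Real.exp (-u ^ 2) : ℝ) : ℂ) := by
      rw [← integral_complex_ofReal]
      congr 1
      ext u
      push_cast
      rfl
    rw [h7]
    have h8 := integral_gaussian 1
    simp only [neg_mul, one_mul, div_one] at h8
    rw [h8]
    have := Real.sqrt_pos.2 Real.pi_pos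
    exact_mod_cast this.ne'
  rcases mul_eq_zero.1 h5 with h | h
  · exact absurd h h6
  · exact h

end Vale.Agent.P352
end
end

section

section

open MeasureTheory SchwartzMap Complex Filter Topology
open scoped SchwartzMap ComplexConjugate ENNReal

namespace Vale.Agent.P352

variable {μ : Measure Mink}

lemma integral_rotPi (hμ : GoodMeasure μ) (F : Mink → ℂ) :
    ∫ p, F (rotPi p) ∂μ = ∫ p, F p ∂μ := by
  have hemb : MeasurableEmbedding rotPi := by
    have h : (rotPi : Mink → Mink) = (⟨⟨rotPi, rotPi, rotPi_rotPi, rotPi_rotPi⟩,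
      continuous_rotPi, continuous_rotPi⟩ : Mink ≃ₜ Mink) := rfl
    rw [h]
    exact Homeomorph.measurableEmbedding _
  exact hμ.rot.integral_comp hemb F

lemma memLp_rotPi (hμ : GoodMeasure μ) {φ : Mink → ℂ} (hφ : MemLp φ 2 μ) :
    MemLp (fun p => φ (rotPi p)) 2 μ :=
  hφ.comp_measurePreserving hμ.rot

lemma memLp_boost (hμ : GoodMeasure μ) {φ : Mink → ℂ} (hφ : MemLp φ 2 μ) (t : ℝ) :
    MemLp (fun p => φ (boost t p)) 2 μ :=
  hφ.comp_measurePreserving (hμ.boost t)

lemma eLpNorm_boost (hμ : GoodMeasure μ) {φ : Mink → ℂ} (hφ : MemLp φ 2 μ) (t : ℝ) :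
    eLpNorm (fun p => φ (boost t p)) 2 μ = eLpNorm φ 2 μ :=
  eLpNorm_comp_measurePreserving hφ.aestronglyMeasurable (hμ.boost t)

lemma memLp_mul_bdd {m : Mink → ℝ} (hm : Measurable m) {C : ℝ} (hC : ∀ p, |m p| ≤ C)
    {φ : Mink → ℂ} (hφ : MemLp φ 2 μ) : MemLp (fun p => (m p : ℂ) * φ p) 2 μ := by
  refine MemLp.of_le_mul (c := C) hφ ?_ (Eventually.of_forall fun p => ?_)
  · exact (measurable_ofReal.comp hm).aestronglyMeasurable.mul hφ.aestronglyMeasurable
  · rw [norm_mul, norm_real]
    gcongr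
    exact hC p

/-- The insertion of a bounded invariant function into a wedge duality relation. -/
theorem wedge_dual (hμ : GoodMeasure μ) {η ζ : Mink → ℂ} (hη : MemLp η 2 μ) (hζ : MemLp ζ 2 μ)
    (h : ∀ f, IsTest wedge f →
      ∫ p, mft f p * η p ∂μ = ∫ p, conj (mft (conjS f) p) * ζ p ∂μ)
    {m : Mink → ℝ} (hm : Measurable m) {C : ℝ} (hC : ∀ p, |m p| ≤ C)
    (hboost : ∀ t p, m (boost t p) = m p) (hrot : ∀ p, m (rotPi p) = m p)
    (f : 𝓢(Mink, ℂ)) (hf : IsTest wedge f) :
    ∫ p, mft f p * ((m p : ℂ) * η p) ∂μ = ∫ p, conj (mft (conjS f) p) * ((m p : ℂ) * ζ p) ∂μ := by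
  set ζ' : Mink → ℂ := fun p => ζ (rotPi p) with hζ'def
  have hζ' : MemLp ζ' 2 μ := memLp_rotPi hμ hζ
  have hmη := memLp_mul_bdd hm hC hη
  have hmζ' := memLp_mul_bdd hm hC hζ'
  have hpi := Real.pi_pos
  -- boosted relation
  have H : ∀ g, IsTest wedge g → ∀ t : ℝ, bfun μ g η t = bfun μ g ζ' (t - Real.pi * I) := by
    intro g hg t
    have h1 := h _ (hg.boostS t)
    have e1 : bfun μ g η t = ∫ p, mft (boostS t g) p * η p ∂μ := by
      unfold bfun
      congr 1
      ext p
      rw [cft_cboost_ofReal, mft_boostS]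
    have e2 : bfun μ g ζ' (t - Real.pi * I) =
        ∫ p, conj (mft (conjS (boostS t g)) p) * ζ p ∂μ := by
      rw [← integral_rotPi hμ]
      unfold bfun
      congr 1
      ext p
      rw [cft_cboost_neg_pi, conjS_boostS, mft_boostS, boost_rotPi]
    rw [e1, e2, h1]
  -- smeared and shifted relation
  have E : ∀ s : ℝ, 0 < s → ∀ g, IsTest wedge g →
      ∫ t : ℝ, exp (-(s : ℂ) * (t : ℂ) ^ 2) * bfun μ g η t =
      ∫ t : ℝ, exp (-(s : ℂ) * ((t : ℂ) + Real.pi * I) ^ 2) * bfun μ g ζ' t := by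
    intro s hs g hg
    rw [← bfun_shift hμ g hg hζ' hs]
    congr 1
    ext t
    rw [H g hg]
  -- estimates
  have hbd : ∀ g, IsTest wedge g → ∀ φ : Mink → ℂ, MemLp φ 2 μ → ∀ ε : ℝ, 0 < ε →
      eLpNorm (fun p => (m p : ℂ) * mft f p - mft g p) 2 μ ≤ ENNReal.ofReal ε → ∀ t : ℝ,
      ‖bfun μ f (fun p => (m p : ℂ) * φ p) t - bfun μ g φ t‖ ≤ ε * (eLpNorm φ 2 μ).toReal := by
    intro g hg φ hφ ε hε hle t
    have hmφ := memLp_mul_bdd hm hC hφ
    have hu : MemLp (fun p => (m p : ℂ) * mft f p - mft g p) 2 μ :=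
      (memLp_mul_bdd hm hC (mft_memLp hμ.temp f)).sub (mft_memLp hμ.temp g)
    have e1 : bfun μ f (fun p => (m p : ℂ) * φ p) t - bfun μ g φ t =
        ∫ p, (fun q => (m q : ℂ) * mft f q - mft g q) (boost t p) * φ p ∂μ := by
      unfold bfun
      rw [← integral_sub (bfun_integrable hμ f hf hmφ (ofReal_mem_cstrip t))
        (bfun_integrable hμ g hg hφ (ofReal_mem_cstrip t))]
      congr 1
      ext p
      simp only [cft_cboost_ofReal, hboost]
      ring
    rw [e1]
    refine (norm_integral_mul_le (memLp_boost hμ hu t) hφ).trans ?_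
    rw [eLpNorm_boost hμ hu]
    gcongr
    exact ENNReal.toReal_le_of_le_ofReal hε.le hle
  have hcont : ∀ g, IsTest wedge g → ∀ φ : Mink → ℂ, MemLp φ 2 μ →
      Continuous fun t : ℝ => bfun μ g φ t := by
    intro g hg φ hφ
    have h1 := bfun_continuousOn hμ g hg hφ
    exact h1.comp_continuous continuous_ofReal ofReal_mem_cstrip
  have hnorm1 : ∀ (s : ℝ) (t : ℝ), ‖exp (-(s : ℂ) * (t : ℂ) ^ 2)‖ = Real.exp (-s * t ^ 2) := by
    intro s t
    rw [norm_exp]
    congr 1
    rw [← ofReal_pow, ← ofReal_neg, ← ofReal_mul, ofReal_re]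
  have hnorm2 : ∀ (s : ℝ) (t : ℝ), ‖exp (-(s : ℂ) * ((t : ℂ) + Real.pi * I) ^ 2)‖ =
      Real.exp (s * Real.pi ^ 2) * Real.exp (-s * t ^ 2) := by
    intro s t
    rw [norm_exp, ← Real.exp_add]
    congr 1
    simp only [pow_two, neg_mul, neg_re, mul_re, ofReal_re, add_re, I_re, mul_zero, ofReal_im,
      I_im, mul_one, sub_self, add_zero, add_im, mul_im, zero_add, zero_mul, sub_zero]
    ring
  have hgi : ∀ s : ℝ, 0 < s → Integrable fun t : ℝ => Real.exp (-s * t ^ 2) := fun s hs =>
    integrable_exp_neg_mul_sq hs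
  have hint1 : ∀ s : ℝ, 0 < s → ∀ g, IsTest wedge g → ∀ φ : Mink → ℂ, MemLp φ 2 μ →
      Integrable fun t : ℝ => exp (-(s : ℂ) * (t : ℂ) ^ 2) * bfun μ g φ t := by
    intro s hs g hg φ hφ
    obtain ⟨M, hM⟩ := bfun_bound hμ g hg hφ
    refine ((hgi s hs).mul_const M).mono' ?_ (Eventually.of_forall fun t => ?_)
    · apply Continuous.aestronglyMeasurable
      exact (by (clear * -; fun_prop) : Continuous fun t : ℝ => exp (-(s : ℂ) * (t : ℂ) ^ 2)).mul
        (hcont g hg φ hφ)
    · rw [norm_mul, hnorm1]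
      gcongr
      exact hM _ (ofReal_mem_cstrip t)
  have hint2 : ∀ s : ℝ, 0 < s → ∀ g, IsTest wedge g → ∀ φ : Mink → ℂ, MemLp φ 2 μ →
      Integrable fun t : ℝ => exp (-(s : ℂ) * ((t : ℂ) + Real.pi * I) ^ 2) * bfun μ g φ t := by
    intro s hs g hg φ hφ
    obtain ⟨M, hM⟩ := bfun_bound hμ g hg hφ
    refine (((hgi s hs).const_mul (Real.exp (s * Real.pi ^ 2))).mul_const M).mono' ?_
      (Eventually.of_forall fun t => ?_)
    · apply Continuous.aestronglyMeasurable
      exact (by (clear * -; fun_prop) : Continuous fun t : ℝ =>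
        exp (-(s : ℂ) * ((t : ℂ) + Real.pi * I) ^ 2)).mul (hcont g hg φ hφ)
    · rw [norm_mul, hnorm2]
      gcongr
      exact hM _ (ofReal_mem_cstrip t)
  -- the smeared relation with `m` inserted
  have E' : ∀ s : ℝ, 0 < s →
      ∫ t : ℝ, exp (-(s : ℂ) * (t : ℂ) ^ 2) * bfun μ f (fun p => (m p : ℂ) * η p) t =
      ∫ t : ℝ, exp (-(s : ℂ) * ((t : ℂ) + Real.pi * I) ^ 2) *
        bfun μ f (fun p => (m p : ℂ) * ζ' p) t := by
    intro s hs
    rw [← sub_eq_zero, ← norm_eq_zero]
    apply le_antisymm _ (norm_nonneg _)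
    set K : ℝ := (∫ t : ℝ, Real.exp (-s * t ^ 2)) * (eLpNorm η 2 μ).toReal +
      (∫ t : ℝ, Real.exp (s * Real.pi ^ 2) * Real.exp (-s * t ^ 2)) * (eLpNorm ζ' 2 μ).toReal
      with hK
    apply le_of_forall_pos_le_add
    intro δ hδ
    have hK0 : 0 ≤ K := by
      rw [hK]
      have e1 : 0 ≤ ∫ t : ℝ, Real.exp (-s * t ^ 2) := integral_nonneg fun t => (Real.exp_pos _).le
      have e2 : 0 ≤ ∫ t : ℝ, Real.exp (s * Real.pi ^ 2) * Real.exp (-s * t ^ 2) :=
        integral_nonneg fun t => by positivity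
      (clear * -; (clear * -; positivity))
    obtain ⟨g, hg, hle⟩ := dense_wedge hμ (fun p => (m p : ℂ) * mft f p)
      (memLp_mul_bdd hm hC (mft_memLp hμ.temp f)) (δ / (K + 1)) (by (clear * - hδ; (clear * - hδ; positivity)))
    have hEg := E s hs g hg
    have e3 : (∫ t : ℝ, exp (-(s : ℂ) * (t : ℂ) ^ 2) * bfun μ f (fun p => (m p : ℂ) * η p) t) -
        (∫ t : ℝ, exp (-(s : ℂ) * ((t : ℂ) + Real.pi * I) ^ 2) *
          bfun μ f (fun p => (m p : ℂ) * ζ' p) t) =
        (∫ t : ℝ, exp (-(s : ℂ) * (t : ℂ) ^ 2) *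
          (bfun μ f (fun p => (m p : ℂ) * η p) t - bfun μ g η t)) -
        (∫ t : ℝ, exp (-(s : ℂ) * ((t : ℂ) + Real.pi * I) ^ 2) *
          (bfun μ f (fun p => (m p : ℂ) * ζ' p) t - bfun μ g ζ' t)) := by
      simp_rw [mul_sub]
      rw [integral_sub (hint1 s hs f hf _ hmη) (hint1 s hs g hg _ hη),
        integral_sub (hint2 s hs f hf _ hmζ') (hint2 s hs g hg _ hζ'), hEg]
      ring
    rw [e3]
    have e4 : ‖∫ t : ℝ, exp (-(s : ℂ) * (t : ℂ) ^ 2) *
          (bfun μ f (fun p => (m p : ℂ) * η p) t - bfun μ g η t)‖ ≤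
          (∫ t : ℝ, Real.exp (-s * t ^ 2)) * (δ / (K + 1) * (eLpNorm η 2 μ).toReal) := by
      rw [← integral_mul_const]
      refine norm_integral_le_of_norm_le ((hgi s hs).mul_const _) (Eventually.of_forall fun t => ?_)
      rw [norm_mul, hnorm1]
      gcongr
      exact hbd g hg η hη _ (by (clear * - hδ; (clear * - hδ; positivity))) hle t
    have e5 : ‖∫ t : ℝ, exp (-(s : ℂ) * ((t : ℂ) + Real.pi * I) ^ 2) *
          (bfun μ f (fun p => (m p : ℂ) * ζ' p) t - bfun μ g ζ' t)‖ ≤
          (∫ t : ℝ, Real.exp (s * Real.pi ^ 2) * Real.exp (-s * t ^ 2)) *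
            (δ / (K + 1) * (eLpNorm ζ' 2 μ).toReal) := by
      rw [← integral_mul_const]
      refine norm_integral_le_of_norm_le (((hgi s hs).const_mul _).mul_const _)
        (Eventually.of_forall fun t => ?_)
      rw [norm_mul, hnorm2]
      gcongr
      exact hbd g hg ζ' hζ' _ (by (clear * - hδ; (clear * - hδ; positivity))) hle t
    refine (norm_sub_le _ _).trans ((add_le_add e4 e5).trans ?_)
    have e6 : (∫ t : ℝ, Real.exp (-s * t ^ 2)) * (δ / (K + 1) * (eLpNorm η 2 μ).toReal) +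
        (∫ t : ℝ, Real.exp (s * Real.pi ^ 2) * Real.exp (-s * t ^ 2)) *
            (δ / (K + 1) * (eLpNorm ζ' 2 μ).toReal) = δ * (K / (K + 1)) := by
      rw [hK]; ring
    rw [e6, zero_add]
    have : K / (K + 1) ≤ 1 := by
      rw [div_le_one (by (clear * -; positivity))]; linarith only []
    nlinarith only [hδ, this]
  -- conclusion
  obtain ⟨M1, hM1⟩ := bfun_bound hμ f hf hmη
  obtain ⟨M2, hM2⟩ := bfun_bound hμ f hf hmζ'
  have hc : Continuous fun t : ℝ => bfun μ f (fun p => (m p : ℂ) * η p) t -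
      bfun μ f (fun p => (m p : ℂ) * ζ' p) (t - Real.pi * I) := by
    apply (hcont f hf _ hmη).sub
    exact (bfun_continuousOn hμ f hf hmζ').comp_continuous (by fun_prop) ofReal_sub_mem_cstrip
  have h0 := gauss_unique _ hc (M1 + M2)
    (fun t => (norm_sub_le _ _).trans (add_le_add (hM1 _ (ofReal_mem_cstrip t))
      (hM2 _ (ofReal_sub_mem_cstrip t)))) ?_
  · rw [sub_eq_zero] at h0
    have e1 : bfun μ f (fun p => (m p : ℂ) * η p) ((0 : ℝ) : ℂ) =
        ∫ p, mft f p * ((m p : ℂ) * η p) ∂μ := by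
      unfold bfun
      congr 1
      ext p
      rw [cft_cboost_ofReal, boost_zero]
    have e2 : bfun μ f (fun p => (m p : ℂ) * ζ' p) (((0 : ℝ) : ℂ) - Real.pi * I) =
        ∫ p, conj (mft (conjS f) p) * ((m p : ℂ) * ζ p) ∂μ := by
      rw [← integral_rotPi hμ]
      unfold bfun
      congr 1
      ext p
      rw [cft_cboost_neg_pi, boost_zero, hrot]
    rw [e1, e2] at h0
    exact h0
  · intro s hs
    have hint3 : Integrable fun t : ℝ => exp (-(s : ℂ) * (t : ℂ) ^ 2) *
        bfun μ f (fun p => (m p : ℂ) * ζ' p) (t - Real.pi * I) := by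
      refine ((hgi s hs).mul_const M2).mono' ?_ (Eventually.of_forall fun t => ?_)
      · apply Continuous.aestronglyMeasurable
        exact (by (clear * -; fun_prop) : Continuous fun t : ℝ => exp (-(s : ℂ) * (t : ℂ) ^ 2)).mul
          ((bfun_continuousOn hμ f hf hmζ').comp_continuous (by fun_prop) ofReal_sub_mem_cstrip)
      · rw [norm_mul, hnorm1]
        gcongr
        exact hM2 _ (ofReal_sub_mem_cstrip t)
    simp_rw [mul_sub]
    rw [integral_sub (hint1 s hs f hf _ hmη) hint3, E' s hs, bfun_shift hμ f hf hmζ' hs, sub_self]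

end Vale.Agent.P352
end
end

section

section

set_option maxSynthPendingDepth 3

open MeasureTheory SchwartzMap Complex Filter Topology
open scoped SchwartzMap ComplexConjugate ENNReal

namespace Vale.Agent.P352

variable {μ : Measure Mink}
variable {D : Type*} [NormedAddCommGroup D] [InnerProductSpace ℂ D]

/-- `L²` class of the Fourier transform -/
noncomputable def toL (hμ : μ.HasTemperateGrowth) : 𝓢(Mink, ℂ) →ₗ[ℂ] Lp ℂ 2 μ where
  toFun f := (mft_memLp hμ f).toLp (mft f)
  map_add' f g := by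
    rw [← MemLp.toLp_add]
    congr 1
    ext p
    simp [mft_add]
  map_smul' c f := by
    rw [RingHom.id_apply, ← MemLp.toLp_const_smul]
    congr 1
    ext p
    simp [mft_smul]

lemma coeFn_toL (hμ : μ.HasTemperateGrowth) (f : 𝓢(Mink, ℂ)) : toL hμ f =ᵐ[μ] mft f :=
  MemLp.coeFn_toLp (mft_memLp hμ f)

lemma inner_toL (hμ : μ.HasTemperateGrowth) (f : 𝓢(Mink, ℂ)) (u : Lp ℂ 2 μ) :
    inner ℂ (toL hμ f) u = ∫ p, conj (mft f p) * u p ∂μ := by
  rw [L2.inner_def]
  apply integral_congr_ae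
  filter_upwards [coeFn_toL hμ f] with p hp
  rw [hp]
  simp only [RCLike.inner_apply, mul_comm]

lemma inner_toL_toL (hμ : μ.HasTemperateGrowth) (f g : 𝓢(Mink, ℂ)) :
    inner ℂ (toL hμ f) (toL hμ g) = ∫ p, conj (mft f p) * mft g p ∂μ := by
  rw [inner_toL]
  apply integral_congr_ae
  filter_upwards [coeFn_toL hμ g] with p hp
  rw [hp]

lemma denseRange_toL (hμ : GoodMeasure μ) : DenseRange (toL hμ.temp) := by
  intro u
  have h1 : u ∈ (wedgeSub μ hμ.temp wedge).topologicalClosure := by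
    rw [wedgeSub_dense hμ]; trivial
  refine closure_mono ?_ h1
  rintro _ ⟨f, _, rfl⟩
  exact ⟨f, rfl⟩

/-- Two and four point data of the field `A` on the vacuum. -/
structure GFData (Ω : D) (A : 𝓢(Mink, ℂ) →ₗ[ℂ] D →ₗ[ℂ] D) (μ : Measure Mink) : Prop where
  good : GoodMeasure μ
  norm_vac : ‖Ω‖ = 1
  two : ∀ f g, inner ℂ (A f Ω) (A g Ω) = ∫ p, conj (mft f p) * mft g p ∂μ
  herm : ∀ f ψ χ, inner ℂ (A f ψ) χ = inner ℂ ψ (A (conjS f) χ)
  four : ∀ f1 f2 f3 f4, inner ℂ Ω (A f1 (A f2 (A f3 (A f4 Ω)))) =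
    inner ℂ Ω (A f1 (A f2 Ω)) * inner ℂ Ω (A f3 (A f4 Ω)) +
    inner ℂ Ω (A f1 (A f3 Ω)) * inner ℂ Ω (A f2 (A f4 Ω)) +
    inner ℂ Ω (A f1 (A f4 Ω)) * inner ℂ Ω (A f2 (A f3 Ω))

lemma conjS_conjS (f : 𝓢(Mink, ℂ)) : conjS (conjS f) = f := by
  ext x; simp only [conjS_apply, RingHomCompTriple.comp_apply, RingHom.id_apply]

namespace GFData

variable {Ω : D} {A : 𝓢(Mink, ℂ) →ₗ[ℂ] D →ₗ[ℂ] D} (G : GFData Ω A μ)
include G

lemma inner_eq (f g : 𝓢(Mink, ℂ)) :
    inner ℂ (A f Ω) (A g Ω) = inner ℂ (toL G.good.temp f) (toL G.good.temp g) := by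
  rw [G.two, inner_toL_toL]

lemma herm' (f : 𝓢(Mink, ℂ)) (ψ χ : D) :
    inner ℂ (A (conjS f) ψ) χ = inner ℂ ψ (A f χ) := by
  rw [G.herm, conjS_conjS]

lemma norm_eq (f : 𝓢(Mink, ℂ)) : ‖A f Ω‖ = ‖toL G.good.temp f‖ := by
  have h := G.inner_eq f f
  rw [inner_self_eq_norm_sq_to_K, inner_self_eq_norm_sq_to_K] at h
  have h2 : ‖A f Ω‖ ^ 2 = ‖toL G.good.temp f‖ ^ 2 := by exact_mod_cast h
  exact (pow_left_inj₀ (norm_nonneg _) (norm_nonneg _) (by norm_num)).1 h2

/-- the one-particle map -/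
noncomputable def iMap : Lp ℂ 2 μ →L[ℂ] UniformSpace.Completion D :=
  ((UniformSpace.Completion.toComplₗᵢ (𝕜 := ℂ) (E := D)).toLinearMap ∘ₗ
    (LinearMap.applyₗ Ω ∘ₗ A)).extendOfNorm (toL G.good.temp)

lemma iMap_toL (f : 𝓢(Mink, ℂ)) : G.iMap (toL G.good.temp f) = ((A f Ω : D) : UniformSpace.Completion D) := by
  unfold iMap
  rw [LinearMap.extendOfNorm_eq (denseRange_toL G.good)]
  · simp
  · refine ⟨1, fun x => ?_⟩
    simp only [LinearMap.coe_comp, LinearIsometry.coe_toLinearMap, UniformSpace.Completion.coe_toComplₗᵢ, Function.comp_apply, LinearMap.applyₗ_apply_apply, UniformSpace.Completion.norm_coe, G.norm_eq, one_mul, Std.le_refl]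

lemma inner_iMap (u v : Lp ℂ 2 μ) : inner ℂ (G.iMap u) (G.iMap v) = inner ℂ u v := by
  refine (denseRange_toL G.good).induction_on₂ (p := fun u v =>
    inner ℂ (G.iMap u) (G.iMap v) = inner ℂ u v) ?_ ?_ u v
  · apply isClosed_eq <;> fun_prop
  · intro f g
    rw [G.iMap_toL, G.iMap_toL, UniformSpace.Completion.inner_coe, G.inner_eq]

/-- truncated two-particle vectors -/
noncomputable def Phi (_ : GFData Ω A μ) (f g : 𝓢(Mink, ℂ)) : D := A f (A g Ω) - inner ℂ Ω (A f (A g Ω)) • Ω

lemma w_conj (f g : 𝓢(Mink, ℂ)) :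
    inner ℂ Ω (A (conjS g) (A (conjS f) Ω)) = conj (inner ℂ Ω (A f (A g Ω))) := by
  rw [← G.herm, inner_conj_symm, ← G.herm]

lemma inner_Phi (f g f' g' : 𝓢(Mink, ℂ)) :
    inner ℂ (G.Phi f g) (G.Phi f' g') =
      inner ℂ (A f Ω) (A f' Ω) * inner ℂ (A g Ω) (A g' Ω) +
      inner ℂ (A g Ω) (A f' Ω) * inner ℂ (A f Ω) (A g' Ω) := by
  have hΩ : inner ℂ Ω Ω = (1 : ℂ) := by
    rw [inner_self_eq_norm_sq_to_K, G.norm_vac]; simp only [coe_algebraMap, ofReal_one, one_pow]
  have e1 : inner ℂ (A f (A g Ω)) (A f' (A g' Ω)) =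
      inner ℂ Ω (A (conjS g) (A (conjS f) (A f' (A g' Ω)))) := by
    rw [G.herm, G.herm]
  have e2 : inner ℂ (A f (A g Ω)) Ω = conj (inner ℂ Ω (A f (A g Ω))) := by
    rw [inner_conj_symm]
  simp only [Phi, inner_sub_left, inner_sub_right, inner_smul_left, inner_smul_right, hΩ]
  rw [e1, e2, G.four, G.w_conj]
  simp only [G.herm g, G.herm f]
  ring

lemma Phi_add_left (f f' g : 𝓢(Mink, ℂ)) : G.Phi (f + f') g = G.Phi f g + G.Phi f' g := by
  simp only [Phi, map_add, LinearMap.add_apply, inner_add_right, add_smul]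
  abel

lemma Phi_smul_left (c : ℂ) (f g : 𝓢(Mink, ℂ)) : G.Phi (c • f) g = c • G.Phi f g := by
  simp only [Phi, map_smul, LinearMap.smul_apply, inner_smul_right, smul_sub, smul_smul]

lemma Phi_add_right (f g g' : 𝓢(Mink, ℂ)) : G.Phi f (g + g') = G.Phi f g + G.Phi f g' := by
  simp only [Phi, map_add, LinearMap.add_apply, inner_add_right, add_smul]
  abel

lemma Phi_smul_right (c : ℂ) (f g : 𝓢(Mink, ℂ)) : G.Phi f (c • g) = c • G.Phi f g := by
  simp only [Phi, map_smul, LinearMap.smul_apply, inner_smul_right, smul_sub, smul_smul]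

lemma norm_Phi_le (f g : 𝓢(Mink, ℂ)) :
    ‖G.Phi f g‖ ≤ 2 * ‖toL G.good.temp f‖ * ‖toL G.good.temp g‖ := by
  set a := ‖toL G.good.temp f‖
  set b := ‖toL G.good.temp g‖
  have h := G.inner_Phi f g f g
  rw [G.inner_eq, G.inner_eq, G.inner_eq, G.inner_eq, inner_self_eq_norm_sq_to_K,
    inner_self_eq_norm_sq_to_K, inner_self_eq_norm_sq_to_K] at h
  have h1 : ‖inner ℂ (toL G.good.temp g) (toL G.good.temp f) *
      inner ℂ (toL G.good.temp f) (toL G.good.temp g)‖ ≤ (b * a) * (a * b) := by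
    rw [norm_mul]
    gcongr
    · exact norm_inner_le_norm _ _
    · exact norm_inner_le_norm _ _
  have h2 : ‖G.Phi f g‖ ^ 2 ≤ (2 * a * b) ^ 2 := by
    have h3 : ‖((‖G.Phi f g‖ : ℝ) : ℂ) ^ 2‖ ≤ a ^ 2 * b ^ 2 + (b * a) * (a * b) := by
      rw [show ((‖G.Phi f g‖ : ℝ) : ℂ) = ((‖G.Phi f g‖ : ℝ) : ℂ) from rfl]
      have h4 : ((‖G.Phi f g‖ : ℝ) : ℂ) ^ 2 = _ := h
      rw [h4]
      refine (norm_add_le _ _).trans (add_le_add ?_ h1)
      rw [norm_mul, norm_pow, norm_pow]
      simp only [coe_algebraMap, norm_real, norm_norm, Std.le_refl, a, b]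
    rw [norm_pow, norm_real, norm_norm] at h3
    nlinarith only [G, h3]
  exact le_of_sq_le_sq h2 (by (clear * - G; positivity))

/-- for fixed `f` the extension of `g ↦ Phi f g` -/
noncomputable def b1 (f : 𝓢(Mink, ℂ)) : Lp ℂ 2 μ →L[ℂ] UniformSpace.Completion D :=
  ((UniformSpace.Completion.toComplₗᵢ (𝕜 := ℂ) (E := D)).toLinearMap ∘ₗ
    ({ toFun := fun g => G.Phi f g
       map_add' := G.Phi_add_right f
       map_smul' := fun c g => G.Phi_smul_right c f g } : 𝓢(Mink, ℂ) →ₗ[ℂ] D)).extendOfNorm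
    (toL G.good.temp)

lemma b1_toL (f g : 𝓢(Mink, ℂ)) :
    G.b1 f (toL G.good.temp g) = ((G.Phi f g : D) : UniformSpace.Completion D) := by
  unfold b1
  rw [LinearMap.extendOfNorm_eq (denseRange_toL G.good)]
  · simp only [LinearMap.coe_comp, LinearIsometry.coe_toLinearMap, UniformSpace.Completion.coe_toComplₗᵢ, LinearMap.coe_mk, AddHom.coe_mk, Function.comp_apply]
  · refine ⟨2 * ‖toL G.good.temp f‖, fun x => ?_⟩
    simpa only [LinearMap.coe_comp, LinearIsometry.coe_toLinearMap,
      UniformSpace.Completion.coe_toComplₗᵢ, LinearMap.coe_mk, AddHom.coe_mk, Function.comp_apply,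
      UniformSpace.Completion.norm_coe] using G.norm_Phi_le f x

lemma norm_b1_le (f : 𝓢(Mink, ℂ)) : ‖G.b1 f‖ ≤ 2 * ‖toL G.good.temp f‖ := by
  unfold b1
  apply LinearMap.opNorm_extendOfNorm_le (denseRange_toL G.good) (by (clear * - G; positivity))
  intro x
  simpa only [LinearMap.coe_comp, LinearIsometry.coe_toLinearMap,
    UniformSpace.Completion.coe_toComplₗᵢ, LinearMap.coe_mk, AddHom.coe_mk, Function.comp_apply,
    UniformSpace.Completion.norm_coe] using G.norm_Phi_le f x

lemma clm_ext {F : Type*} [NormedAddCommGroup F] [NormedSpace ℂ F]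
    {S T : Lp ℂ 2 μ →L[ℂ] F} (h : ∀ g, S (toL G.good.temp g) = T (toL G.good.temp g)) : S = T := by
  ext u
  refine (denseRange_toL G.good).induction_on (p := fun u => S u = T u) u ?_ h
  apply isClosed_eq <;> (clear * -; fun_prop)

/-- the two-particle map -/
noncomputable def bMap : Lp ℂ 2 μ →L[ℂ] Lp ℂ 2 μ →L[ℂ] UniformSpace.Completion D :=
  ({ toFun := fun f => G.b1 f
     map_add' := fun f f' => by
      apply G.clm_ext
      intro g
      rw [G.b1_toL, ContinuousLinearMap.add_apply, G.b1_toL, G.b1_toL, Phi_add_left,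
        UniformSpace.Completion.coe_add]
     map_smul' := fun c f => by
      apply G.clm_ext
      intro g
      rw [G.b1_toL, RingHom.id_apply, ContinuousLinearMap.smul_apply, G.b1_toL, Phi_smul_left,
        UniformSpace.Completion.coe_smul] } :
    𝓢(Mink, ℂ) →ₗ[ℂ] (Lp ℂ 2 μ →L[ℂ] UniformSpace.Completion D)).extendOfNorm (toL G.good.temp)

lemma bMap_toL (f : 𝓢(Mink, ℂ)) : G.bMap (toL G.good.temp f) = G.b1 f := by
  unfold bMap
  rw [LinearMap.extendOfNorm_eq (denseRange_toL G.good)]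
  · rfl
  · exact ⟨2, G.norm_b1_le⟩

lemma bMap_toL_toL (f g : 𝓢(Mink, ℂ)) :
    G.bMap (toL G.good.temp f) (toL G.good.temp g) =
      ((G.Phi f g : D) : UniformSpace.Completion D) := by
  rw [bMap_toL, b1_toL]

lemma inner_bMap (u v u' v' : Lp ℂ 2 μ) :
    inner ℂ (G.bMap u v) (G.bMap u' v') =
      inner ℂ u u' * inner ℂ v v' + inner ℂ v u' * inner ℂ u v' := by
  refine (denseRange_toL G.good).induction_on₂ (p := fun u v =>
    inner ℂ (G.bMap u v) (G.bMap u' v') =
      inner ℂ u u' * inner ℂ v v' + inner ℂ v u' * inner ℂ u v') ?_ ?_ u v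
  · apply isClosed_eq <;> fun_prop
  · intro f g
    refine (denseRange_toL G.good).induction_on₂ (p := fun u' v' =>
      inner ℂ (G.bMap (toL G.good.temp f) (toL G.good.temp g)) (G.bMap u' v') =
      inner ℂ (toL G.good.temp f) u' * inner ℂ (toL G.good.temp g) v' +
        inner ℂ (toL G.good.temp g) u' * inner ℂ (toL G.good.temp f) v') ?_ ?_ u' v'
    · apply isClosed_eq <;> (clear * - G; fun_prop)
    · intro f' g'
      rw [G.bMap_toL_toL, G.bMap_toL_toL, UniformSpace.Completion.inner_coe, G.inner_Phi]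
      simp only [G.inner_eq]

/-- the action of the field on the one-particle space, in weak form -/
lemma inner_A_iMap (g : 𝓢(Mink, ℂ)) (ψ : D) (u : Lp ℂ 2 μ) :
    inner ℂ ((A g ψ : D) : UniformSpace.Completion D) (G.iMap u) =
      inner ℂ (ψ : UniformSpace.Completion D) (G.bMap (toL G.good.temp (conjS g)) u) +
      inner ℂ (toL G.good.temp g) u *
        inner ℂ (ψ : UniformSpace.Completion D) (Ω : UniformSpace.Completion D) := by
  refine (denseRange_toL G.good).induction_on (p := fun u =>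
    inner ℂ ((A g ψ : D) : UniformSpace.Completion D) (G.iMap u) =
      inner ℂ (ψ : UniformSpace.Completion D) (G.bMap (toL G.good.temp (conjS g)) u) +
      inner ℂ (toL G.good.temp g) u *
        inner ℂ (ψ : UniformSpace.Completion D) (Ω : UniformSpace.Completion D)) u ?_ ?_
  · apply isClosed_eq <;> (clear * - G; fun_prop)
  · intro f
    rw [G.iMap_toL, G.bMap_toL_toL]
    simp only [UniformSpace.Completion.inner_coe]
    rw [G.herm, ← G.inner_eq, G.herm]
    simp only [Phi, inner_sub_right, inner_smul_right]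
    ring

end GFData

end Vale.Agent.P352
end
end

section

section

open MeasureTheory SchwartzMap Complex Filter Topology
open scoped SchwartzMap ComplexConjugate LineDeriv ContDiff

namespace Vale.Agent.P352

/-- smooth compactly supported real functions of one variable -/
structure CS where
  /-- the function -/
  f : ℝ → ℝ
  smooth : ContDiff ℝ ∞ f
  cpt : HasCompactSupport f

namespace CS

/-- derivative -/
noncomputable def deriv (u : CS) : CS :=
  ⟨_root_.deriv u.f, (contDiff_infty_iff_deriv.1 u.smooth).2, u.cpt.deriv⟩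

/-- product with a smooth function -/
noncomputable def mulL (θ : ℝ → ℝ) (hθ : ContDiff ℝ ∞ θ) (u : CS) : CS :=
  ⟨fun t => θ t * u.f t, hθ.mul u.smooth, u.cpt.mul_left⟩

/-- difference -/
noncomputable def sub (u v : CS) : CS :=
  ⟨fun t => u.f t - v.f t, u.smooth.sub v.smooth, HasCompactSupport.sub u.cpt v.cpt⟩

/-- dilation `t ↦ u (t / R)` -/
noncomputable def scale (R : ℝ) (hR : R ≠ 0) (u : CS) : CS :=
  ⟨fun t => u.f (R⁻¹ * t), u.smooth.comp (by fun_prop),
    u.cpt.comp_homeomorph (Homeomorph.mulLeft₀ R⁻¹ (inv_ne_zero hR))⟩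

/-- multiplication with a constant -/
noncomputable def cmul (c : ℝ) (u : CS) : CS :=
  ⟨fun t => c * u.f t, contDiff_const.mul u.smooth, u.cpt.mul_left⟩

end CS

/-- the underlying product function -/
noncomputable def prodF (u : Fin 4 → CS) (x : Mink) : ℝ :=
  (u 0).f (x 0) * (u 1).f (x 1) * (u 2).f (x 2) * (u 3).f (x 3)

lemma contDiff_coord (j : Fin 4) : ContDiff ℝ ∞ fun x : Mink => x j := by
  fun_prop

lemma contDiff_prodF (u : Fin 4 → CS) : ContDiff ℝ ∞ (prodF u) := by
  unfold prodF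
  exact ((((u 0).smooth.comp (contDiff_coord 0)).mul ((u 1).smooth.comp (contDiff_coord 1))).mul
    ((u 2).smooth.comp (contDiff_coord 2))).mul ((u 3).smooth.comp (contDiff_coord 3))

lemma hasCompactSupport_prodF (u : Fin 4 → CS) : HasCompactSupport (prodF u) := by
  have hK : IsCompact ((EuclideanSpace.equiv (Fin 4) ℝ).toHomeomorph ⁻¹'
      (Set.univ.pi fun j => tsupport (u j).f)) := by
    rw [Homeomorph.isCompact_preimage]
    exact isCompact_univ_pi fun j => (u j).cpt
  apply HasCompactSupport.intro hK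
  intro x hx
  have hx' : ∃ j, x j ∉ tsupport (u j).f := by
    by_contra hcon
    push Not at hcon
    apply hx
    intro j _
    exact hcon j
  obtain ⟨j, hj⟩ := hx'
  have h0 := image_eq_zero_of_notMem_tsupport hj
  unfold prodF
  fin_cases j <;> (clear * - h0; simp_all)

/-- product test function -/
noncomputable def prodS (u : Fin 4 → CS) : 𝓢(Mink, ℂ) :=
  HasCompactSupport.toSchwartzMap (f := fun x => ((prodF u x : ℝ) : ℂ))
    ((hasCompactSupport_prodF u).comp_left (g := fun r : ℝ => (r : ℂ)) (by simp))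
    (ofRealCLM.contDiff.comp (contDiff_prodF u))

@[simp] lemma prodS_apply (u : Fin 4 → CS) (x : Mink) : prodS u x = (prodF u x : ℂ) := rfl

lemma conjS_prodS (u : Fin 4 → CS) : conjS (prodS u) = prodS u := by
  ext x; simp

lemma hasCompactSupport_prodS (u : Fin 4 → CS) : HasCompactSupport (prodS u) :=
  (hasCompactSupport_prodF u).comp_left (g := fun r : ℝ => (r : ℂ)) (by simp)

lemma lineDeriv_eq_of_hasDerivAt (f : 𝓢(Mink, ℂ)) (x v : Mink) (c : ℂ)
    (h : HasDerivAt (fun t : ℝ => f (x + t • v)) c 0) : (∂_{v} f : 𝓢(Mink, ℂ)) x = c := by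
  have h1 : (∂_{v} f : 𝓢(Mink, ℂ)) x = fderiv ℝ f x v := rfl
  have h2 : HasDerivAt (fun t : ℝ => f (x + t • v)) (fderiv ℝ f x v) 0 :=
    (f.differentiableAt.hasFDerivAt (x := x)).hasLineDerivAt v
  rw [h1]
  exact h2.unique h

lemma CS.hasDerivAt (u : CS) (t : ℝ) : HasDerivAt u.f (u.deriv.f t) t :=
  (u.smooth.differentiable (by norm_num)).differentiableAt.hasDerivAt

lemma CS.hasDerivAt_shift (u : CS) (a : ℝ) :
    HasDerivAt (fun t : ℝ => u.f (a + t)) (u.deriv.f a) 0 := by
  have h := u.hasDerivAt (a + 0)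
  have h3 : HasDerivAt (fun t : ℝ => a + t) 1 0 := (hasDerivAt_id (0 : ℝ)).const_add a
  have h2 := HasDerivAt.comp (h₂ := u.f) (h := fun t : ℝ => a + t) (0 : ℝ) h h3
  rw [mul_one, add_zero] at h2
  exact h2

lemma lineDeriv_prodS (u : Fin 4 → CS) (j : Fin 4) :
    (∂_{eb j} (prodS u) : 𝓢(Mink, ℂ)) = prodS (Function.update u j (u j).deriv) := by
  ext x
  apply lineDeriv_eq_of_hasDerivAt
  rw [prodS_apply]
  simp only [prodS_apply]
  apply HasDerivAt.ofReal_comp
  fin_cases j
  · simp only [prodF, Fin.isValue, eb, Fin.zero_eta, PiLp.add_apply, PiLp.smul_apply, PiLp.single_eq_same, smul_eq_mul, mul_one, ne_eq, one_ne_zero, not_false_eq_true, PiLp.single_eq_of_ne, mul_zero, add_zero, Fin.reduceEq, Function.update_self, Function.update_of_ne]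
    exact ((((u 0).hasDerivAt_shift (x 0)).mul_const _).mul_const _).mul_const _
  · simp [prodF, eb]
    exact ((((u 1).hasDerivAt_shift (x 1)).const_mul _).mul_const _).mul_const _
  · simp [prodF, eb]
    exact (((u 2).hasDerivAt_shift (x 2)).const_mul _).mul_const _
  · simp [prodF, eb]
    exact ((u 3).hasDerivAt_shift (x 3)).const_mul _

end Vale.Agent.P352
end
end

section

section

open MeasureTheory SchwartzMap Complex Filter Topology
open scoped SchwartzMap ComplexConjugate ContDiff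

namespace Vale.Agent.P352

/-- compactly supported functions are dense in Schwartz space -/
theorem exists_compact_seq (f : 𝓢(Mink, ℂ)) : ∃ g : ℕ → 𝓢(Mink, ℂ),
    (∀ n, HasCompactSupport (g n)) ∧ Tendsto g atTop (𝓝 f) := by
  set b : ContDiffBump (0 : Mink) := ⟨1, 2, one_pos, one_lt_two⟩ with hb
  set φ : Mink → ℂ := fun x => ((b x : ℝ) : ℂ) with hφ
  have hφs : ContDiff ℝ ∞ φ := ofRealCLM.contDiff.comp b.contDiff
  have hφc : HasCompactSupport φ :=
    b.hasCompactSupport.comp_left (g := fun r : ℝ => (r : ℂ)) (by simp)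
  set r : ℕ → ℝ := fun n => ((n : ℝ) + 1)⁻¹ with hr
  have hr0 : ∀ n, 0 < r n := fun n => by (clear * -; positivity)
  have hr1 : ∀ n, r n ≤ 1 := fun n => by
    rw [hr]
    apply inv_le_one_of_one_le₀
    have : (0 : ℝ) ≤ n := Nat.cast_nonneg n
    linarith only []
  set ψ : Mink → ℂ := fun x => 1 - φ x with hψ
  have hψs : ContDiff ℝ ∞ ψ := contDiff_const.sub hφs
  have hψbd : ∀ i : ℕ, ∃ C : ℝ, 0 ≤ C ∧ ∀ x, ‖iteratedFDeriv ℝ i ψ x‖ ≤ C := by
    intro i
    obtain ⟨C, hC⟩ := (hφs.continuous_iteratedFDeriv (m := i)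
      (by exact_mod_cast le_top)).bounded_above_of_compact_support (hφc.iteratedFDeriv i)
    refine ⟨1 + C, ?_, fun x => ?_⟩
    · have := (norm_nonneg _).trans (hC 0)
      linarith only [this]
    · have h1 : iteratedFDeriv ℝ i ψ x = iteratedFDeriv ℝ i (fun _ : Mink => (1 : ℂ)) x -
          iteratedFDeriv ℝ i φ x := by
        have h2 : (i : ℕ∞ω) ≤ ∞ := by exact_mod_cast le_top
        have := iteratedFDeriv_sub (i := i) (f := fun _ : Mink => (1 : ℂ)) (g := φ)
          (contDiff_const.of_le h2) (hφs.of_le h2)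
        have h3 : ψ = (fun _ : Mink => (1 : ℂ)) - φ := rfl
        rw [h3, this]
        rfl
      rw [h1]
      refine (norm_sub_le _ _).trans (add_le_add ?_ (hC x))
      rcases Nat.eq_zero_or_pos i with rfl | hi
      · rw [norm_iteratedFDeriv_zero]; simp
      · rw [iteratedFDeriv_const_of_ne hi.ne']; simp only [Pi.zero_apply, norm_zero, zero_le_one]
  set h : ℕ → Mink → ℂ := fun n x => ψ (r n • x) with hh
  have hhs : ∀ n, ContDiff ℝ ∞ (h n) := fun n => hψs.comp (contDiff_const_smul _)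
  have hhbd : ∀ i : ℕ, ∃ C : ℝ, 0 ≤ C ∧ ∀ n x, ‖iteratedFDeriv ℝ i (h n) x‖ ≤ C := by
    intro i
    obtain ⟨C, hC0, hC⟩ := hψbd i
    refine ⟨C, hC0, fun n x => ?_⟩
    set g : Mink →L[ℝ] Mink := r n • ContinuousLinearMap.id ℝ Mink with hg
    have h1 : h n = ψ ∘ g := rfl
    rw [h1, g.iteratedFDeriv_comp_right hψs x (i := i) (by exact_mod_cast le_top)]
    refine (ContinuousMultilinearMap.norm_compContinuousLinearMap_le _ _).trans ?_
    have hgn : ‖g‖ ≤ 1 := by
      refine ContinuousLinearMap.opNorm_le_bound _ zero_le_one fun x => ?_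
      rw [hg]
      simp only [smul_apply, ContinuousLinearMap.id_apply, norm_smul,
        Real.norm_eq_abs, abs_of_pos (hr0 n)]
      exact mul_le_mul_of_nonneg_right (hr1 n) (norm_nonneg x)
    have hprod : ∏ _j : Fin i, ‖g‖ ≤ 1 := by
      rw [Finset.prod_const]
      exact pow_le_one₀ (norm_nonneg _) hgn
    calc _ ≤ C * 1 := mul_le_mul (hC _) hprod (Finset.prod_nonneg fun _ _ => norm_nonneg _) hC0
      _ = C := mul_one C
  have hgs : ∀ n, ContDiff ℝ ∞ fun x => φ (r n • x) * f x := fun n =>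
    (hφs.comp (contDiff_const_smul _)).mul (f.smooth _)
  have hgc : ∀ n, HasCompactSupport fun x => φ (r n • x) * f x := by
    intro n
    have h1 : HasCompactSupport fun x => φ (r n • x) :=
      hφc.comp_homeomorph (Homeomorph.smulOfNeZero (r n) (hr0 n).ne')
    exact h1.mul_right
  refine ⟨fun n => (hgc n).toSchwartzMap (hgs n), fun n => hgc n, ?_⟩
  rw [(schwartz_withSeminorms ℝ Mink ℂ).tendsto_nhds_atTop]
  rintro ⟨k, m⟩ ε hε
  choose C hC0 hC using hhbd
  set M : ℝ := ∑ i ∈ Finset.range (m + 1), (m.choose i : ℝ) * C i *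
    SchwartzMap.seminorm ℝ (k + 1) (m - i) f with hM
  have hM0 : 0 ≤ M := Finset.sum_nonneg fun i _ =>
    mul_nonneg (mul_nonneg (Nat.cast_nonneg _) (hC0 i)) (apply_nonneg _ _)
  have key : ∀ n, SchwartzMap.seminorm ℝ k m ((hgc n).toSchwartzMap (hgs n) - f) ≤ r n * M := by
    intro n
    apply SchwartzMap.seminorm_le_bound ℝ k m _ (mul_nonneg (hr0 n).le hM0)
    intro x
    have hfun : (((hgc n).toSchwartzMap (hgs n) - f : 𝓢(Mink, ℂ)) : Mink → ℂ) =
        fun y => (- h n y) * f y := by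
      funext y
      change φ (r n • y) * f y - f y = -(1 - φ (r n • y)) * f y
      ring
    rw [hfun]
    by_cases hx : ‖x‖ < (n : ℝ) + 1
    · have hz : (fun y => (- h n y) * f y) =ᶠ[𝓝 x] fun _ => 0 := by
        have hmem : {y : Mink | ‖y‖ < (n : ℝ) + 1} ∈ 𝓝 x :=
          (isOpen_lt continuous_norm continuous_const).mem_nhds hx
        filter_upwards [hmem] with y hy
        have h1 : b (r n • y) = 1 := by
          apply b.one_of_mem_closedBall
          rw [mem_closedBall_zero_iff, norm_smul, Real.norm_eq_abs, abs_of_pos (hr0 n)]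
          have h2 : r n * ‖y‖ ≤ r n * ((n : ℝ) + 1) :=
            mul_le_mul_of_nonneg_left (le_of_lt hy) (hr0 n).le
          have h3 : r n * ((n : ℝ) + 1) = 1 := by
            rw [hr]; (clear * -; (clear * -; field_simp))
          rw [h3] at h2
          exact h2
        simp only [hh, hψ, hφ, h1, ofReal_one, sub_self, neg_zero, zero_mul]
      have h1 := (hz.iteratedFDeriv ℝ m).eq_of_nhds
      rw [h1]
      have h2 : iteratedFDeriv ℝ m (fun _ : Mink => (0 : ℂ)) x = 0 := by
        have := iteratedFDeriv_fun_zero (𝕜 := ℝ) (E := Mink) (F := ℂ) (n := m)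
        exact congrFun this x
      rw [h2, norm_zero, mul_zero]
      exact mul_nonneg (hr0 n).le hM0
    · push Not at hx
      have h1 := norm_iteratedFDeriv_mul_le (𝕜 := ℝ) (f := fun y => - h n y) (g := f)
        (N := (m : ℕ∞ω)) ((hhs n).neg.of_le (by exact_mod_cast le_top)) (f.smooth m) x le_rfl
      have h2 : 1 ≤ r n * ‖x‖ := by
        have h3 : r n * ((n : ℝ) + 1) = 1 := by
          rw [hr]; (clear * -; (clear * -; field_simp))
        rw [← h3]
        exact mul_le_mul_of_nonneg_left hx (hr0 n).le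
      calc ‖x‖ ^ k * ‖iteratedFDeriv ℝ m (fun y => (- h n y) * f y) x‖
          ≤ ‖x‖ ^ k * ∑ i ∈ Finset.range (m + 1), (m.choose i : ℝ) *
            ‖iteratedFDeriv ℝ i (fun y => - h n y) x‖ * ‖iteratedFDeriv ℝ (m - i) f x‖ := by
            (clear * - h1; gcongr)
        _ ≤ ‖x‖ ^ k * ∑ i ∈ Finset.range (m + 1), (m.choose i : ℝ) * C i *
            ‖iteratedFDeriv ℝ (m - i) f x‖ := by
            gcongr with i hi
            have h4 : iteratedFDeriv ℝ i (fun y => - h n y) x = - iteratedFDeriv ℝ i (h n) x :=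
              iteratedFDeriv_neg_apply (𝕜 := ℝ) (f := h n)
            rw [h4, norm_neg]
            exact hC i n x
        _ ≤ (r n * ‖x‖) * (‖x‖ ^ k * ∑ i ∈ Finset.range (m + 1), (m.choose i : ℝ) * C i *
            ‖iteratedFDeriv ℝ (m - i) f x‖) := by
            refine le_mul_of_one_le_left ?_ h2
            refine mul_nonneg (by (clear * -; (clear * -; positivity))) (Finset.sum_nonneg fun i _ =>
              mul_nonneg (mul_nonneg (Nat.cast_nonneg _) (hC0 i)) (norm_nonneg _))
        _ = r n * ∑ i ∈ Finset.range (m + 1), (m.choose i : ℝ) * C i *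
            (‖x‖ ^ (k + 1) * ‖iteratedFDeriv ℝ (m - i) f x‖) := by
            rw [Finset.mul_sum, Finset.mul_sum, Finset.mul_sum]
            refine Finset.sum_congr rfl fun i _ => ?_
            ring
        _ ≤ r n * M := by
            refine mul_le_mul_of_nonneg_left ?_ (hr0 n).le
            refine Finset.sum_le_sum fun i _ => ?_
            refine mul_le_mul_of_nonneg_left ?_ (mul_nonneg (Nat.cast_nonneg _) (hC0 i))
            exact SchwartzMap.le_seminorm ℝ (k + 1) (m - i) f x
  have hlim : Tendsto (fun n => r n * M) atTop (𝓝 0) := by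
    have : Tendsto r atTop (𝓝 0) := by
      have := tendsto_one_div_add_atTop_nhds_zero_nat (𝕜 := ℝ)
      simpa only [hr, one_div] using this
    simpa using this.mul_const M
  obtain ⟨N, hN⟩ := (hlim.eventually (gt_mem_nhds hε)).exists_forall_of_atTop
  exact ⟨N, fun n hn => lt_of_le_of_lt (key n) (hN n hn)⟩

end Vale.Agent.P352
end
end
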