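import Vale.Agent.P352.MathlibUsed
import Vale.Agent.P352.Bdl.B1

set_option linter.all false

section

section

open MeasureTheory SchwartzMap Complex Filter Topology
open scoped SchwartzMap ComplexConjugate ENNReal

namespace Vale.Agent.P352

variable {μ : Measure Mink}

/-- general wedge: image of the right wedge under a Poincare map -/
def gw (e : Mink ≃ₗᵢ[ℝ] Mink) (a : Mink) : Set Mink := {x | e.symm (x - a) ∈ wedge}

/-- `f ∘ e⁻¹` -/
noncomputable def compE (e : Mink ≃ₗᵢ[ℝ] Mink) (f : 𝓢(Mink, ℂ)) : 𝓢(Mink, ℂ) :=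
  SchwartzMap.compCLMOfContinuousLinearEquiv ℂ e.symm.toContinuousLinearEquiv f

@[simp] lemma compE_apply (e : Mink ≃ₗᵢ[ℝ] Mink) (f : 𝓢(Mink, ℂ)) (x : Mink) :
    compE e f x = f (e.symm x) := by
  simp only [compE, LinearIsometryEquiv.toContinuousLinearEquiv_symm, compCLMOfContinuousLinearEquiv_apply, LinearIsometryEquiv.coe_symm_toContinuousLinearEquiv, Function.comp_apply]

lemma mft_compE (e : Mink ≃ₗᵢ[ℝ] Mink) (he : ∀ x y, mdot (e x) (e y) = mdot x y)
    (f : 𝓢(Mink, ℂ)) (p : Mink) : mft (compE e f) p = mft f (e.symm p) := by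
  unfold mft
  rw [← e.measurePreserving.integral_comp e.toHomeomorph.measurableEmbedding]
  congr 1
  ext x
  rw [compE_apply, e.symm_apply_apply]
  congr 4
  rw [← he (e.symm p) x, e.apply_symm_apply]

lemma IsTest.compE {W W' : Set Mink} {f : 𝓢(Mink, ℂ)} (hf : IsTest W f) (e : Mink ≃ₗᵢ[ℝ] Mink)
    (h : ∀ x ∈ W, e x ∈ W') : IsTest W' (compE e f) := by
  have h1 : (Vale.Agent.P352.compE e f : Mink → ℂ) = f ∘ e.symm.toHomeomorph := by
    ext x; simp
  refine ⟨?_, ?_⟩
  · rw [h1]
    exact hf.1.comp_homeomorph _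
  · rw [h1, tsupport_comp_eq_preimage]
    intro x hx
    have := h _ (hf.2 hx)
    simpa using this

lemma conjS_compE (e : Mink ≃ₗᵢ[ℝ] Mink) (f : 𝓢(Mink, ℂ)) :
    conjS (compE e f) = compE e (conjS f) := by
  ext x; simp

lemma conjS_tauS (a : Mink) (f : 𝓢(Mink, ℂ)) : conjS (tauS a f) = tauS a (conjS f) := by
  ext x; simp only [conjS_apply, tauS_apply]

lemma isTest_gw_iff (e : Mink ≃ₗᵢ[ℝ] Mink) (a : Mink) (f : 𝓢(Mink, ℂ)) :
    IsTest (gw e a) f ↔ ∃ f0, IsTest wedge f0 ∧ f = tauS a (compE e f0) := by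
  constructor
  · intro hf
    refine ⟨compE e.symm (tauS (-a) f), ?_, ?_⟩
    · apply IsTest.compE (W := {x | e.symm x ∈ wedge})
      · apply hf.tauS
        intro x hx
        change e.symm (x + -a) ∈ wedge
        rw [← sub_eq_add_neg]
        exact hx
      · intro x hx
        exact hx
    · ext x
      simp
  · rintro ⟨f0, hf0, rfl⟩
    apply IsTest.tauS (W := {x | e.symm x ∈ wedge})
    · apply hf0.compE
      intro x hx
      change e.symm (e x) ∈ wedge
      rwa [e.symm_apply_apply]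
    · intro x hx
      change e.symm (x + a - a) ∈ wedge
      rwa [add_sub_cancel_right]

lemma memLp_chr_mul {φ : Mink → ℂ} (hφ : MemLp φ 2 μ) (a : Mink) :
    MemLp (fun p => chr a p * φ p) 2 μ := by
  refine MemLp.of_le hφ ((continuous_chr a).aestronglyMeasurable.mul hφ.aestronglyMeasurable)
    (Eventually.of_forall fun p => ?_)
  rw [norm_mul, norm_chr, one_mul]

lemma memLp_conj_chr_mul {φ : Mink → ℂ} (hφ : MemLp φ 2 μ) (a : Mink) :
    MemLp (fun p => conj (chr a p) * φ p) 2 μ := by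
  refine MemLp.of_le hφ (((continuous_conj.comp (continuous_chr a))).aestronglyMeasurable.mul
    hφ.aestronglyMeasurable) (Eventually.of_forall fun p => ?_)
  rw [norm_mul, norm_conj, norm_chr, one_mul]

lemma transport_left (e : Mink ≃ₗᵢ[ℝ] Mink) (he : ∀ x y, mdot (e x) (e y) = mdot x y)
    (hμe : MeasurePreserving e μ μ) (a : Mink) (f0 : 𝓢(Mink, ℂ)) (η : Mink → ℂ) :
    ∫ p, mft (tauS a (compE e f0)) p * η p ∂μ =
      ∫ p, mft f0 p * (chr a (e p) * η (e p)) ∂μ := by
  rw [← hμe.integral_comp e.toHomeomorph.measurableEmbedding]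
  congr 1
  ext p
  rw [mft_tauS, mft_compE e he, e.symm_apply_apply]
  ring

lemma transport_right (e : Mink ≃ₗᵢ[ℝ] Mink) (he : ∀ x y, mdot (e x) (e y) = mdot x y)
    (hμe : MeasurePreserving e μ μ) (a : Mink) (f0 : 𝓢(Mink, ℂ)) (ζ : Mink → ℂ) :
    ∫ p, conj (mft (conjS (tauS a (compE e f0))) p) * ζ p ∂μ =
      ∫ p, conj (mft (conjS f0) p) * (conj (chr a (e p)) * ζ (e p)) ∂μ := by
  rw [← hμe.integral_comp e.toHomeomorph.measurableEmbedding]
  congr 1
  ext p
  rw [conjS_tauS, conjS_compE, mft_tauS, mft_compE e he, e.symm_apply_apply, map_mul]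
  ring

/-- wedge duality for a general wedge -/
theorem gw_dual (hμ : GoodMeasure μ) (e : Mink ≃ₗᵢ[ℝ] Mink)
    (he : ∀ x y, mdot (e x) (e y) = mdot x y) (hμe : MeasurePreserving e μ μ) (a : Mink)
    {η ζ : Mink → ℂ} (hη : MemLp η 2 μ) (hζ : MemLp ζ 2 μ)
    (h : ∀ f, IsTest (gw e a) f →
      ∫ p, mft f p * η p ∂μ = ∫ p, conj (mft (conjS f) p) * ζ p ∂μ)
    {m : Mink → ℝ} (hm : Measurable m) {C : ℝ} (hC : ∀ p, |m p| ≤ C)
    (hboost : ∀ t p, m (boost t p) = m p) (hrot : ∀ p, m (rotPi p) = m p)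
    (hme : ∀ p, m (e p) = m p)
    (f : 𝓢(Mink, ℂ)) (hf : IsTest (gw e a) f) :
    ∫ p, mft f p * ((m p : ℂ) * η p) ∂μ = ∫ p, conj (mft (conjS f) p) * ((m p : ℂ) * ζ p) ∂μ := by
  obtain ⟨f0, hf0, rfl⟩ := (isTest_gw_iff e a f).1 hf
  have hη' : MemLp (fun p => chr a (e p) * η (e p)) 2 μ :=
    (memLp_chr_mul hη a).comp_measurePreserving hμe
  have hζ' : MemLp (fun p => conj (chr a (e p)) * ζ (e p)) 2 μ :=
    (memLp_conj_chr_mul hζ a).comp_measurePreserving hμe
  have key := wedge_dual hμ hη' hζ' (fun g hg => by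
    have := h _ ((isTest_gw_iff e a _).2 ⟨g, hg, rfl⟩)
    rw [transport_left e he hμe, transport_right e he hμe] at this
    exact this) hm hC hboost hrot f0 hf0
  rw [transport_left e he hμe, transport_right e he hμe]
  simp only [hme]
  convert key using 1
  · congr 1
    ext p
    ring
  · congr 1
    ext p
    ring

/-- Reeh-Schlieder for a general wedge -/
theorem rs_gw (hμ : GoodMeasure μ) (e : Mink ≃ₗᵢ[ℝ] Mink)
    (he : ∀ x y, mdot (e x) (e y) = mdot x y) (hμe : MeasurePreserving e μ μ) (a : Mink)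
    (φ : Mink → ℂ) (hφ : MemLp φ 2 μ)
    (h : ∀ f, IsTest (gw e a) f → ∫ p, mft f p * φ p ∂μ = 0) : φ =ᵐ[μ] 0 := by
  have hφ' : MemLp (fun p => chr a (e p) * φ (e p)) 2 μ :=
    (memLp_chr_mul hφ a).comp_measurePreserving hμe
  have h0 := rs_wedge hμ _ hφ' (fun g hg => by
    have := h _ ((isTest_gw_iff e a _).2 ⟨g, hg, rfl⟩)
    rwa [transport_left e he hμe] at this)
  have h1 : ∀ᵐ p ∂μ, φ (e p) = 0 := by
    filter_upwards [h0] with p hp
    simp only [Pi.zero_apply, mul_eq_zero] at hp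
    rcases hp with h | h
    · exact absurd h (exp_ne_zero _)
    · exact h
  have h2 : ∀ᵐ p ∂(μ.map e), φ p = 0 := by
    exact (e.toHomeomorph.measurableEmbedding.ae_map_iff).2 h1
  rw [hμe.map_eq] at h2
  exact h2

end Vale.Agent.P352
end
end

section

section

set_option maxSynthPendingDepth 3

open MeasureTheory SchwartzMap Complex Filter Topology
open scoped SchwartzMap ComplexConjugate ENNReal

namespace Vale.Agent.P352

variable {μ : Measure Mink}

/-- invariant mass squared -/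
noncomputable def mass2 (p : Mink) : ℝ := mdot p p

lemma continuous_mass2 : Continuous mass2 := by
  unfold mass2 mdot; fun_prop

open Classical in
/-- indicator of a set of masses -/
noncomputable def ind (S : Set ℝ) (p : Mink) : ℝ := if mass2 p ∈ S then 1 else 0

lemma ind_congr {S : Set ℝ} {p q : Mink} (h : mdot p p = mdot q q) : ind S p = ind S q := by
  have : mass2 p = mass2 q := h
  unfold ind
  rw [this]

lemma measurable_ind {S : Set ℝ} (hS : MeasurableSet S) : Measurable (ind S) := by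
  unfold ind
  exact Measurable.ite (hS.preimage continuous_mass2.measurable) measurable_const measurable_const

lemma abs_ind_le (S : Set ℝ) (p : Mink) : |ind S p| ≤ 1 := by
  unfold ind; split_ifs <;> simp

lemma ind_mul_self (S : Set ℝ) (p : Mink) : ind S p * ind S p = ind S p := by
  unfold ind; split_ifs <;> simp

/-- spectral projection of the mass operator -/
noncomputable def proj (S : Set ℝ) (hS : MeasurableSet S) (u : Lp ℂ 2 μ) : Lp ℂ 2 μ :=
  (memLp_mul_bdd (measurable_ind hS) (abs_ind_le S) (Lp.memLp u)).toLp _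

lemma coeFn_proj (S : Set ℝ) (hS : MeasurableSet S) (u : Lp ℂ 2 μ) :
    proj S hS u =ᵐ[μ] fun p => (ind S p : ℂ) * u p :=
  MemLp.coeFn_toLp (memLp_mul_bdd (measurable_ind hS) (abs_ind_le S) (Lp.memLp u))

lemma inner_proj_left (S : Set ℝ) (hS : MeasurableSet S) (u v : Lp ℂ 2 μ) :
    inner ℂ (proj S hS u) v = ∫ p, (ind S p : ℂ) * (conj (u p) * v p) ∂μ := by
  rw [L2.inner_def]
  apply integral_congr_ae
  filter_upwards [coeFn_proj S hS u] with p hp
  rw [hp]
  simp only [RCLike.inner_apply, map_mul, conj_ofReal]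
  ring

lemma inner_proj_right (S : Set ℝ) (hS : MeasurableSet S) (u v : Lp ℂ 2 μ) :
    inner ℂ u (proj S hS v) = ∫ p, (ind S p : ℂ) * (conj (u p) * v p) ∂μ := by
  rw [L2.inner_def]
  apply integral_congr_ae
  filter_upwards [coeFn_proj S hS v] with p hp
  rw [hp]
  simp only [RCLike.inner_apply]
  ring

lemma inner_proj_proj (S T : Set ℝ) (hS : MeasurableSet S) (hT : MeasurableSet T)
    (u v : Lp ℂ 2 μ) :
    inner ℂ (proj S hS u) (proj T hT v) =
      ∫ p, (ind S p : ℂ) * (ind T p : ℂ) * (conj (u p) * v p) ∂μ := by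
  rw [L2.inner_def]
  apply integral_congr_ae
  filter_upwards [coeFn_proj S hS u, coeFn_proj T hT v] with p hp hp2
  rw [hp, hp2]
  simp only [RCLike.inner_apply, map_mul, conj_ofReal]
  ring

lemma inner_proj_self (S : Set ℝ) (hS : MeasurableSet S) (u v : Lp ℂ 2 μ) :
    inner ℂ (proj S hS u) (proj S hS v) = inner ℂ (proj S hS u) v := by
  rw [inner_proj_proj, inner_proj_left]
  congr 1
  ext p
  rw [← ofReal_mul, ind_mul_self]

lemma inner_proj_disjoint (S T : Set ℝ) (hS : MeasurableSet S) (hT : MeasurableSet T)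
    (hST : Disjoint S T) (u v : Lp ℂ 2 μ) :
    inner ℂ (proj S hS u) (proj T hT v) = 0 := by
  rw [inner_proj_proj]
  have : ∀ p, (ind S p : ℂ) * (ind T p : ℂ) * (conj (u p) * v p) = 0 := by
    intro p
    by_cases h : mass2 p ∈ S
    · have h2 : mass2 p ∉ T := fun h2 => (Set.disjoint_left.1 hST h h2)
      simp only [ind, h2, ↓reduceIte, ofReal_zero, mul_zero, zero_mul]
    · simp only [ind, h, ↓reduceIte, ofReal_zero, zero_mul]
  simp [this]

/-- abstract form of wedge duality -/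
theorem gw_dual_abs (hμ : GoodMeasure μ) (e : Mink ≃ₗᵢ[ℝ] Mink)
    (he : ∀ x y, mdot (e x) (e y) = mdot x y) (hμe : MeasurePreserving e μ μ) (a : Mink)
    (x y : Lp ℂ 2 μ)
    (h : ∀ f, IsTest (gw e a) f →
      inner ℂ x (toL hμ.temp f) = inner ℂ (toL hμ.temp (conjS f)) y)
    (S : Set ℝ) (hS : MeasurableSet S) (f : 𝓢(Mink, ℂ)) (hf : IsTest (gw e a) f) :
    inner ℂ x (proj S hS (toL hμ.temp f)) = inner ℂ (proj S hS (toL hμ.temp (conjS f))) y := by
  have hx : MemLp (fun p => conj (x p)) 2 μ := (Lp.memLp x).star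
  have e1 : ∀ f, inner ℂ x (toL hμ.temp f) = ∫ p, mft f p * conj (x p) ∂μ := by
    intro f
    rw [L2.inner_def]
    apply integral_congr_ae
    filter_upwards [coeFn_toL hμ.temp f] with p hp
    rw [hp]
    simp
  have key := gw_dual hμ e he hμe a hx (Lp.memLp y) (fun g hg => by
    have h1 := h g hg
    rw [e1, inner_toL] at h1
    exact h1) (measurable_ind hS) (abs_ind_le S)
    (fun t p => ind_congr (mdot_boost t p p))
    (fun p => ind_congr (mdot_rotPi p p))
    (fun p => ind_congr (he p p)) f hf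
  rw [inner_proj_right, inner_proj_left]
  have e2 : ∫ p, (ind S p : ℂ) * (conj (x p) * (toL hμ.temp f) p) ∂μ =
      ∫ p, mft f p * ((ind S p : ℂ) * conj (x p)) ∂μ := by
    apply integral_congr_ae
    filter_upwards [coeFn_toL hμ.temp f] with p hp
    rw [hp]
    ring
  have e3 : ∫ p, (ind S p : ℂ) * (conj ((toL hμ.temp (conjS f)) p) * y p) ∂μ =
      ∫ p, conj (mft (conjS f) p) * ((ind S p : ℂ) * y p) ∂μ := by
    apply integral_congr_ae
    filter_upwards [coeFn_toL hμ.temp (conjS f)] with p hp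
    rw [hp]
    ring
  rw [e2, e3, key]

end Vale.Agent.P352
end
end

section

section

open MeasureTheory SchwartzMap Filter Topology
open scoped SchwartzMap ComplexConjugate LineDeriv ContDiff

namespace Vale.Agent.P352

/-- smooth step, `0` for `t ≤ -1` and `1` for `1 ≤ t` -/
noncomputable def stepA (t : ℝ) : ℝ := Real.smoothTransition ((t + 1) / 2)

lemma contDiff_stepA : ContDiff ℝ ∞ stepA := by
  unfold stepA
  exact Real.smoothTransition.contDiff.comp (by fun_prop)

lemma stepA_of_le {t : ℝ} (h : t ≤ -1) : stepA t = 0 :=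
  Real.smoothTransition.zero_of_nonpos (by linarith only [h])

lemma stepA_of_ge {t : ℝ} (h : 1 ≤ t) : stepA t = 1 :=
  Real.smoothTransition.one_of_one_le (by linarith only [h])

lemma deriv_stepA_of_not_mem {t : ℝ} (h : t ∉ Set.Icc (-1 : ℝ) 1) : deriv stepA t = 0 := by
  have h' : t < -1 ∨ 1 < t := by
    by_contra hcon
    push Not at hcon
    exact h ⟨hcon.1, hcon.2⟩
  rcases h' with h' | h'
  · have : stepA =ᶠ[𝓝 t] fun _ => 0 := by
      filter_upwards [Iio_mem_nhds h'] with s hs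
      exact stepA_of_le (le_of_lt hs)
    rw [this.deriv_eq]; simp
  · have : stepA =ᶠ[𝓝 t] fun _ => 1 := by
      filter_upwards [Ioi_mem_nhds h'] with s hs
      exact stepA_of_ge (le_of_lt hs)
    rw [this.deriv_eq]; simp

/-- the time smearing function -/
noncomputable def alphaC : CS :=
  ⟨deriv stepA, (contDiff_infty_iff_deriv.1 contDiff_stepA).2,
    HasCompactSupport.intro isCompact_Icc fun _ h => deriv_stepA_of_not_mem h⟩

lemma alphaC_supp {t : ℝ} (h : alphaC.f t ≠ 0) : |t| ≤ 1 := by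
  by_contra hcon
  apply h
  apply deriv_stepA_of_not_mem
  intro hmem
  exact hcon (abs_le.2 ⟨hmem.1, hmem.2⟩)

lemma integral_alphaC : ∫ t, alphaC.f t = 1 := by
  have h := integral_of_hasDerivAt_of_tendsto (f := stepA) (f' := alphaC.f) (m := 0) (n := 1)
    (fun t => (contDiff_stepA.differentiable (by norm_num)).differentiableAt.hasDerivAt)
    (alphaC.smooth.continuous.integrable_of_hasCompactSupport alphaC.cpt)
    (by
      apply tendsto_const_nhds.congr'
      filter_upwards [eventually_le_atBot (-1)] with t ht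
      rw [stepA_of_le ht])
    (by
      apply tendsto_const_nhds.congr'
      filter_upwards [eventually_ge_atTop 1] with t ht
      rw [stepA_of_ge ht])
  rw [h]; norm_num

/-- the space cutoff -/
noncomputable def etaC : CS where
  f := fun t => Real.smoothTransition (t + 4) * Real.smoothTransition (4 - t)
  smooth := (Real.smoothTransition.contDiff.comp (by fun_prop)).mul
    (Real.smoothTransition.contDiff.comp (by fun_prop))
  cpt := by
    apply HasCompactSupport.intro (isCompact_Icc (a := (-4 : ℝ)) (b := 4))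
    intro t ht
    have h' : t < -4 ∨ 4 < t := by
      by_contra hcon
      push Not at hcon
      exact ht ⟨hcon.1, hcon.2⟩
    rcases h' with h' | h'
    · rw [Real.smoothTransition.zero_of_nonpos (by linarith : t + 4 ≤ 0), zero_mul]
    · rw [Real.smoothTransition.zero_of_nonpos (by linarith : 4 - t ≤ 0), mul_zero]

lemma etaC_one {t : ℝ} (h : |t| ≤ 3) : etaC.f t = 1 := by
  have h' := abs_le.1 h
  change Real.smoothTransition (t + 4) * Real.smoothTransition (4 - t) = 1
  rw [Real.smoothTransition.one_of_one_le (by linarith only [h']),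
    Real.smoothTransition.one_of_one_le (by linarith), mul_one]

/-- the difference of the scaled and the unscaled step -/
noncomputable def betaC (R : ℝ) (hR : 1 ≤ R) : CS where
  f := fun t => stepA (R⁻¹ * t) - stepA t
  smooth := (contDiff_stepA.comp (by fun_prop)).sub contDiff_stepA
  cpt := by
    have hR0 : 0 < R := by linarith
    apply HasCompactSupport.intro (isCompact_Icc (a := (-R : ℝ)) (b := R))
    intro t ht
    have h' : t < -R ∨ R < t := by
      by_contra hcon
      push Not at hcon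
      exact ht ⟨hcon.1, hcon.2⟩
    rcases h' with h' | h'
    · have h2 : R⁻¹ * t ≤ -1 := by rw [inv_mul_le_iff₀ hR0]; linarith
      have h3 : t ≤ -1 := by linarith only [hR, h']
      rw [stepA_of_le h2, stepA_of_le h3, sub_self]
    · have h2 : 1 ≤ R⁻¹ * t := by rw [le_inv_mul_iff₀ hR0]; linarith
      have h3 : 1 ≤ t := by linarith
      rw [stepA_of_ge h2, stepA_of_ge h3, sub_self]

lemma betaC_supp {R : ℝ} (hR : 1 ≤ R) {t : ℝ} (h : (betaC R hR).f t ≠ 0) : |t| ≤ R := by
  have hR0 : 0 < R := by linarith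
  by_contra hcon
  apply h
  have h' : t < -R ∨ R < t := by
    by_contra hcon2
    push Not at hcon2
    exact hcon (abs_le.2 ⟨hcon2.1, hcon2.2⟩)
  change stepA (R⁻¹ * t) - stepA t = 0
  rcases h' with h' | h'
  · have h2 : R⁻¹ * t ≤ -1 := by rw [inv_mul_le_iff₀ hR0]; linarith
    have h3 : t ≤ -1 := by linarith only [hR, h']
    rw [stepA_of_le h2, stepA_of_le h3, sub_self]
  · have h2 : 1 ≤ R⁻¹ * t := by rw [le_inv_mul_iff₀ hR0]; linarith
    have h3 : 1 ≤ t := by linarith only [hR, h']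
    rw [stepA_of_ge h2, stepA_of_ge h3, sub_self]

/-- scaled time smearing -/
noncomputable def alphaR (R : ℝ) (hR : R ≠ 0) : CS := CS.cmul R⁻¹ (CS.scale R hR alphaC)

/-- scaled space cutoff -/
noncomputable def etaR (R : ℝ) (hR : R ≠ 0) : CS := CS.scale R hR etaC

lemma etaR_one {R : ℝ} (hR : 0 < R) {t : ℝ} (h : |t| ≤ 3 * R) : (etaR R hR.ne').f t = 1 := by
  change etaC.f (R⁻¹ * t) = 1
  apply etaC_one
  rw [abs_mul, abs_inv, abs_of_pos hR, inv_mul_le_iff₀ hR]
  linarith only [h]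

lemma deriv_etaR {R : ℝ} (hR : 0 < R) {t : ℝ} (h : |t| < 3 * R) :
    (etaR R hR.ne').deriv.f t = 0 := by
  change deriv (etaR R hR.ne').f t = 0
  have : (etaR R hR.ne').f =ᶠ[𝓝 t] fun _ => 1 := by
    have hm : {s : ℝ | |s| < 3 * R} ∈ 𝓝 t :=
      (isOpen_lt continuous_abs continuous_const).mem_nhds h
    filter_upwards [hm] with s hs
    exact etaR_one hR (le_of_lt hs)
  rw [this.deriv_eq]; simp

lemma deriv_betaC {R : ℝ} (hR : 1 ≤ R) (t : ℝ) :
    (betaC R hR).deriv.f t = (alphaR R (by positivity)).f t - alphaC.f t := by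
  have hd : Differentiable ℝ stepA := contDiff_stepA.differentiable (by norm_num)
  change deriv (fun t => stepA (R⁻¹ * t) - stepA t) t = R⁻¹ * deriv stepA (R⁻¹ * t) - deriv stepA t
  have h1 : HasDerivAt (fun t : ℝ => R⁻¹ * t) R⁻¹ t := by
    simpa only [id_eq, mul_one] using (hasDerivAt_id t).const_mul R⁻¹
  have h2 : HasDerivAt (fun t => stepA (R⁻¹ * t)) (deriv stepA (R⁻¹ * t) * R⁻¹) t :=
    HasDerivAt.comp (h₂ := stepA) (h := fun t : ℝ => R⁻¹ * t) t (hd _).hasDerivAt h1
  have h3 : HasDerivAt (fun t => stepA (R⁻¹ * t) - stepA t)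
      (deriv stepA (R⁻¹ * t) * R⁻¹ - deriv stepA t) t := h2.sub (hd t).hasDerivAt
  rw [h3.deriv]
  ring

/-- the tuple of one variable factors -/
def tup (a b : CS) : Fin 4 → CS := ![a, b, b, b]

/-- The cutoff function for the charge: scaled smearing in time -/
noncomputable def FR (R : ℝ) (hR : R ≠ 0) : 𝓢(Mink, ℂ) := prodS (tup (alphaR R hR) (etaR R hR))

/-- The cutoff function for the charge: fixed smearing in time -/
noncomputable def F1 (R : ℝ) (hR : R ≠ 0) : 𝓢(Mink, ℂ) := prodS (tup alphaC (etaR R hR))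

section

variable {M : Type*} [AddCommGroup M] (Z : Fin 4 → (𝓢(Mink, ℂ) →+ M)) (c : ℝ)

/-- vanishing on test functions supported in the outer wedge regions -/
def OutZero : Prop := ∀ (ν : Fin 4) (F : 𝓢(Mink, ℂ)) (i : Fin 4), i ≠ 0 → ∀ σ : ℝ, (σ = 1 ∨ σ = -1) →
  HasCompactSupport F → (∀ x, F x ≠ 0 → |x 0| ≤ -σ * x i - c) → Z ν F = 0

variable {Z c}

lemma contDiff_step_gen (b : ℝ) :
    ContDiff ℝ ∞ fun x : ℝ => Real.smoothTransition (x / (2 * b) + 1 / 2) :=
  Real.smoothTransition.contDiff.comp (by fun_prop)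

lemma out_prod (hout : OutZero Z c) (ν : Fin 4) (u : Fin 4 → CS) (i : Fin 4) (hi : i ≠ 0)
    {a b : ℝ} (h0 : ∀ t, (u 0).f t ≠ 0 → |t| ≤ a) (hui : ∀ t, |t| < b → (u i).f t = 0)
    (hb : 0 < b) (hab : a ≤ b - c) : Z ν (prodS u) = 0 := by
  set θ : ℝ → ℝ := fun x => Real.smoothTransition (x / (2 * b) + 1 / 2) with hθ
  have hθs : ContDiff ℝ ∞ θ := contDiff_step_gen b
  have hθ0 : ∀ x, x ≤ -b → θ x = 0 := by
    intro x hx
    apply Real.smoothTransition.zero_of_nonpos
    have : x / (2 * b) ≤ -(1 / 2) := by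
      rw [div_le_iff₀ (by positivity)]; linarith only [hx]
    linarith only [this]
  have hθ1 : ∀ x, b ≤ x → θ x = 1 := by
    intro x hx
    apply Real.smoothTransition.one_of_one_le
    have : 1 / 2 ≤ x / (2 * b) := by
      rw [le_div_iff₀ (by positivity)]; linarith only [hx]
    linarith
  have hsplit : prodS u = prodS (Function.update u i ((u i).mulL θ hθs)) +
      prodS (Function.update u i ((u i).mulL (fun x => 1 - θ x) (contDiff_const.sub hθs))) := by
    ext x
    rw [SchwartzMap.add_apply, prodS_apply, prodS_apply, prodS_apply, ← Complex.ofReal_add]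
    congr 1
    unfold prodF
    fin_cases i
    · exact absurd rfl hi
    all_goals
      simp [CS.mulL]
      ring
  have hne : ∀ (v : Fin 4 → CS) (x : Mink), prodS v x ≠ 0 → ∀ j, (v j).f (x j) ≠ 0 := by
    intro v x hx j hj
    apply hx
    rw [prodS_apply]
    unfold prodF
    fin_cases j <;> (clear * - hj; simp_all)
  rw [hsplit, map_add]
  have e1 : Z ν (prodS (Function.update u i ((u i).mulL θ hθs))) = 0 := by
    apply hout ν _ i hi (-1) (Or.inr rfl) (hasCompactSupport_prodS _)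
    intro x hx
    have g0 := hne _ x hx 0
    have gi := hne _ x hx i
    rw [Function.update_of_ne (Ne.symm hi)] at g0
    rw [Function.update_self] at gi
    change θ (x i) * (u i).f (x i) ≠ 0 at gi
    have hx0 := h0 _ g0
    have hxi : b ≤ |x i| := by
      by_contra hcon
      push Not at hcon
      exact gi (by rw [hui _ hcon, mul_zero])
    have hxi2 : -b < x i := by
      by_contra hcon
      push Not at hcon
      exact gi (by rw [hθ0 _ hcon, zero_mul])
    have hxi3 : b ≤ x i := by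
      rcases le_abs.1 hxi with h | h
      · exact h
      · linarith only [hxi2, h]
    linarith only [hab, hx0, hxi3]
  have e2 : Z ν (prodS (Function.update u i ((u i).mulL (fun x => 1 - θ x)
      (contDiff_const.sub hθs)))) = 0 := by
    apply hout ν _ i hi 1 (Or.inl rfl) (hasCompactSupport_prodS _)
    intro x hx
    have g0 := hne _ x hx 0
    have gi := hne _ x hx i
    rw [Function.update_of_ne (Ne.symm hi)] at g0
    rw [Function.update_self] at gi
    change (1 - θ (x i)) * (u i).f (x i) ≠ 0 at gi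
    have hx0 := h0 _ g0
    have hxi : b ≤ |x i| := by
      by_contra hcon
      push Not at hcon
      exact gi (by rw [hui _ hcon, mul_zero])
    have hxi2 : x i < b := by
      by_contra hcon
      push Not at hcon
      exact gi (by rw [hθ1 _ hcon, sub_self, zero_mul])
    have hxi3 : x i ≤ -b := by
      rcases le_abs.1 hxi with h | h
      · linarith only [hxi2, h]
      · linarith only [h]
    linarith only [hab, hx0, hxi3]
  rw [e1, e2, add_zero]

lemma prodS_diff0 (a a' b : CS) (d : CS) (hd : ∀ t, d.f t = a.f t - a'.f t) :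
    prodS (tup a b) = prodS (tup a' b) + prodS (tup d b) := by
  ext x
  rw [SchwartzMap.add_apply, prodS_apply, prodS_apply, prodS_apply, ← Complex.ofReal_add]
  congr 1
  simp only [prodF, tup, Fin.isValue, Matrix.cons_val_zero, Matrix.cons_val_one, Matrix.cons_val,
    hd]
  ring

lemma cut_time (hout : OutZero Z c) (hcons : ∀ F : 𝓢(Mink, ℂ), ∑ ν, Z ν (∂_{eb ν} F) = 0)
    {R : ℝ} (hR : 1 ≤ R) (hc : c ≤ 2 * R) :
    Z 0 (FR R (by positivity)) = Z 0 (F1 R (by positivity)) := by
  have hR0 : 0 < R := by linarith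
  have h1 := prodS_diff0 (alphaR R hR0.ne') alphaC (etaR R hR0.ne') (betaC R hR).deriv
    (deriv_betaC hR)
  have h2 : (∂_{eb 0} (prodS (tup (betaC R hR) (etaR R hR0.ne'))) : 𝓢(Mink, ℂ)) =
      prodS (tup (betaC R hR).deriv (etaR R hR0.ne')) := by
    rw [lineDeriv_prodS]
    congr 1
    funext j
    fin_cases j <;> simp [tup]
  have h3 := hcons (prodS (tup (betaC R hR) (etaR R hR0.ne')))
  rw [Fin.sum_univ_four, h2] at h3
  have h4 : ∀ i : Fin 4, i ≠ 0 →
      Z i (∂_{eb i} (prodS (tup (betaC R hR) (etaR R hR0.ne')))) = 0 := by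
    intro i hi
    rw [lineDeriv_prodS]
    refine out_prod hout i _ i hi (a := R) (b := 3 * R) ?_ ?_ (by positivity) (by linarith only [hc])
    · intro t ht
      rw [Function.update_of_ne (Ne.symm hi)] at ht
      exact betaC_supp hR ht
    · intro t ht
      rw [Function.update_self]
      have : tup (betaC R hR) (etaR R hR0.ne') i = etaR R hR0.ne' := by
        fin_cases i
        · exact absurd rfl hi
        all_goals rfl
      rw [this]
      exact deriv_etaR hR0 ht
  rw [h4 1 (by decide), h4 2 (by decide), h4 3 (by decide)] at h3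
  unfold FR F1
  rw [h1, map_add]
  simpa only [Fin.isValue, add_eq_left, add_zero] using h3

lemma cut_space (hout : OutZero Z c) {R R' : ℝ} (hR : 1 ≤ R) (hc : c ≤ 2 * R) (hR' : 1 ≤ R')
    (hc' : c ≤ 2 * R') : Z 0 (F1 R (by positivity)) = Z 0 (F1 R' (by positivity)) := by
  have hR0 : 0 < R := by linarith only [hR]
  have hR0' : 0 < R' := by linarith
  set r := min R R' with hr
  have hr0 : 0 < r := lt_min hR0 hR0'
  have hr1 : 1 ≤ r := le_min hR hR'
  have hrc : c ≤ 2 * r := by
    rcases min_choice R R' with h | h <;> rw [hr, h] <;> assumption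
  set e := etaR R hR0.ne'
  set e' := etaR R' hR0'.ne'
  have h1 : F1 R hR0.ne' = F1 R' hR0'.ne' + (prodS ![alphaC, e.sub e', e, e] +
      prodS ![alphaC, e', e.sub e', e] + prodS ![alphaC, e', e', e.sub e']) := by
    ext x
    unfold F1
    simp only [SchwartzMap.add_apply, prodS_apply, ← Complex.ofReal_add]
    congr 1
    simp only [prodF, tup, Fin.isValue, Matrix.cons_val_zero, Matrix.cons_val_one,
      Matrix.cons_val, CS.sub]
    ring
  have hsub : ∀ t, |t| < 3 * r → (e.sub e').f t = 0 := by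
    intro t ht
    change e.f t - e'.f t = 0
    have a1 : |t| ≤ 3 * R := by
      have : r ≤ R := min_le_left _ _
      linarith only [ht, this]
    have a2 : |t| ≤ 3 * R' := by
      have : r ≤ R' := min_le_right _ _
      linarith only [ht, this]
    rw [etaR_one hR0 a1, etaR_one hR0' a2, sub_self]
  rw [h1, map_add, map_add, map_add]
  have e1 : Z 0 (prodS ![alphaC, e.sub e', e, e]) = 0 := by
    refine out_prod hout 0 _ 1 (by decide) (a := 1) (b := 3 * r) ?_ ?_ (by positivity)
      (by linarith only [hr1, hrc])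
    · intro t ht; exact alphaC_supp ht
    · intro t ht; exact hsub t ht
  have e2 : Z 0 (prodS ![alphaC, e', e.sub e', e]) = 0 := by
    refine out_prod hout 0 _ 2 (by decide) (a := 1) (b := 3 * r) ?_ ?_ (by positivity)
      (by linarith only [hr1, hrc])
    · intro t ht; exact alphaC_supp ht
    · intro t ht; exact hsub t ht
  have e3 : Z 0 (prodS ![alphaC, e', e', e.sub e']) = 0 := by
    refine out_prod hout 0 _ 3 (by decide) (a := 1) (b := 3 * r) ?_ ?_ (by positivity)
      (by linarith only [hr1, hrc])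
    · intro t ht; exact alphaC_supp ht
    · intro t ht; exact hsub t ht
  rw [e1, e2, e3]
  simp

/-- independence of the cutoffs -/
lemma cut_all (hout : OutZero Z c) (hcons : ∀ F : 𝓢(Mink, ℂ), ∑ ν, Z ν (∂_{eb ν} F) = 0)
    {R R' : ℝ} (hR : 1 ≤ R) (hc : c ≤ 2 * R) (hR' : 1 ≤ R') (hc' : c ≤ 2 * R') :
    Z 0 (FR R (by positivity)) = Z 0 (F1 R' (by positivity)) :=
  (cut_time hout hcons hR hc).trans (cut_space hout hR hc hR' hc')

end

end Vale.Agent.P352
end
end

section

section

set_option maxSynthPendingDepth 3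

open MeasureTheory SchwartzMap Complex Filter Topology
open scoped SchwartzMap ComplexConjugate ENNReal LineDeriv

namespace Vale.Agent.P352

variable {μ : Measure Mink}
variable {D : Type*} [NormedAddCommGroup D] [InnerProductSpace ℂ D]

/-- spacelike separated supports -/
def SpSep (f g : 𝓢(Mink, ℂ)) : Prop :=
  ∀ x ∈ tsupport f, ∀ y ∈ tsupport g, mdot (x - y) (x - y) < 0

lemma conjS_lineDeriv (f : 𝓢(Mink, ℂ)) (v : Mink) :
    conjS (∂_{v} f : 𝓢(Mink, ℂ)) = (∂_{v} (conjS f) : 𝓢(Mink, ℂ)) := by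
  ext x
  symm
  apply lineDeriv_eq_of_hasDerivAt
  have h2 : HasDerivAt (fun t : ℝ => f (x + t • v)) ((∂_{v} f : 𝓢(Mink, ℂ)) x) 0 :=
    (f.differentiableAt.hasFDerivAt (x := x)).hasLineDerivAt v
  have h3 := (Complex.conjCLE : ℂ ≃L[ℝ] ℂ).toContinuousLinearMap.hasFDerivAt
    (x := f (x + (0 : ℝ) • v)) |>.comp_hasDerivAt (0 : ℝ) h2
  simpa only [conjS_apply, ContinuousLinearEquiv.coe_coe, ContinuousAlgEquiv.coe_coeCLE,
    Function.comp_def, conjCAE_apply, ContinuousAlgEquiv.coeCLE_apply] using h3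

lemma conjS_add (f g : 𝓢(Mink, ℂ)) : conjS (f + g) = conjS f + conjS g := by
  ext x; simp

lemma conjS_smul (c : ℂ) (f : 𝓢(Mink, ℂ)) : conjS (c • f) = conj c • conjS f := by
  ext x; simp only [conjS_apply, smul_apply, smul_eq_mul, map_mul]

lemma mft_lineDeriv (f : 𝓢(Mink, ℂ)) (v : Mink) (p : Mink) :
    mft (∂_{v} f) p = -(I * (mdot p v : ℂ)) * mft f p := by
  set k : Fin 4 → ℂ := fun j => (p j : ℂ) with hk
  have hcd : ∀ x, cdot k x = (mdot p x : ℂ) := by
    intro x; simp only [cdot, hk, Fin.isValue, mdot, ofReal_sub, ofReal_mul]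
  have hint : ∀ g : 𝓢(Mink, ℂ), Integrable fun x => exp (I * cdot k x) * g x := by
    intro g
    refine g.integrable.norm.mono' ?_ (Eventually.of_forall fun x => ?_)
    · exact ((continuous_cexp_cdot k).mul g.continuous).aestronglyMeasurable
    · rw [norm_mul, hcd, mul_comm I, norm_exp_ofReal_mul_I, one_mul]
  have h := integral_mul_fderiv_eq_neg_fderiv_mul_of_integrable (𝕜 := ℂ)
    (μ := (volume : Measure Mink))
    (f := fun x : Mink => exp (I * cdot k x)) (g := f) (v := v) ?_ ?_ ?_ ?_ ?_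
  · have h2 : mft (∂_{v} f) p = ∫ x, exp (I * cdot k x) * fderiv ℝ f x v := by
      unfold mft
      congr 1
      ext x
      rw [hcd]
      rfl
    rw [h2, h, mft, ← integral_const_mul, ← integral_neg]
    congr 1
    ext x
    rw [fderiv_cexp_cdot, hcd, hcd]; ring
  · simp_rw [fderiv_cexp_cdot]
    have := (hint f).const_mul (I * cdot k v)
    refine this.congr (Filter.Eventually.of_forall fun x => ?_)
    simp only []; ring
  · exact hint (∂_{v} f)
  · exact hint f
  · intro x _; exact (hasFDerivAt_cexp_cdot k x).differentiableAt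
  · intro x _; exact f.differentiableAt

/-- the energy momentum tensor data used in the core argument -/
structure CoreData (Ω : D) (A : 𝓢(Mink, ℂ) →ₗ[ℂ] D →ₗ[ℂ] D) (μ : Measure Mink)
    (T : Fin 4 → 𝓢(Mink, ℂ) →ₗ[ℂ] D →ₗ[ℂ] D) : Prop extends GFData Ω A μ where
  hermT : ∀ ν f ψ χ, inner ℂ (T ν f ψ) χ = inner ℂ ψ (T ν (conjS f) χ)
  cons : ∀ (F : 𝓢(Mink, ℂ)) ψ, ∑ ν, T ν (∂_{eb ν} F) ψ = 0
  loc : ∀ ν F g, SpSep F g → ∀ ψ, T ν F (A g ψ) = A g (T ν F ψ)
  charge : ∀ g : 𝓢(Mink, ℂ), HasCompactSupport g → ∃ R0 : ℝ, ∀ R (h0 : R ≠ 0), R0 ≤ R →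
    T 0 (F1 R h0) (A g Ω) - A g (T 0 (F1 R h0) Ω) = A (I • (∂_{eb 0} g : 𝓢(Mink, ℂ))) Ω
  scal : ∃ C : ℝ, ∀ R (h0 : R ≠ 0), 1 ≤ R → ‖T 0 (FR R h0) Ω‖ ≤ C / R
  wed : ∀ i : Fin 4, i ≠ 0 → ∀ σ : ℝ, (σ = 1 ∨ σ = -1) → ∃ e : Mink ≃ₗᵢ[ℝ] Mink,
    (∀ x y, mdot (e x) (e y) = mdot x y) ∧ MeasurePreserving e μ μ ∧
    (∀ x, (e.symm x) 0 = x 0) ∧ (∀ x, (e.symm x) 1 = σ * x i)
  null : ∀ s, μ {p | mass2 p = s} = 0

namespace CoreData

variable {Ω : D} {A : 𝓢(Mink, ℂ) →ₗ[ℂ] D →ₗ[ℂ] D} {T : Fin 4 → 𝓢(Mink, ℂ) →ₗ[ℂ] D →ₗ[ℂ] D}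
  (G : CoreData Ω A μ T)
include G

/-- the functional `Z` -/
noncomputable def Z (g' : 𝓢(Mink, ℂ)) (u v : Lp ℂ 2 μ) (ν : Fin 4) : 𝓢(Mink, ℂ) →+ ℂ where
  toFun F := inner ℂ ((T ν (conjS F) (A g' Ω) : D) : UniformSpace.Completion D)
      (G.toGFData.iMap u) -
    inner ℂ (G.toGFData.bMap v (toL G.good.temp g')) ((T ν F Ω : D) : UniformSpace.Completion D) -
    inner ℂ (toL G.good.temp g') u *
      inner ℂ (Ω : UniformSpace.Completion D) ((T ν F Ω : D) : UniformSpace.Completion D)
  map_zero' := by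
    have : conjS (0 : 𝓢(Mink, ℂ)) = 0 := by ext x; simp
    simp only [this, map_zero, LinearMap.zero_apply, UniformSpace.Completion.coe_zero,
      inner_zero_left, inner_zero_right, sub_self, mul_zero]
  map_add' F F' := by
    simp only [conjS_add, map_add, LinearMap.add_apply, UniformSpace.Completion.coe_add,
      inner_add_left, inner_add_right]
    ring

lemma Z_apply (g' : 𝓢(Mink, ℂ)) (u v : Lp ℂ 2 μ) (ν : Fin 4) (F : 𝓢(Mink, ℂ)) :
    G.Z g' u v ν F = inner ℂ ((T ν (conjS F) (A g' Ω) : D) : UniformSpace.Completion D)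
      (G.toGFData.iMap u) -
    inner ℂ (G.toGFData.bMap v (toL G.good.temp g')) ((T ν F Ω : D) : UniformSpace.Completion D) -
    inner ℂ (toL G.good.temp g') u *
      inner ℂ (Ω : UniformSpace.Completion D) ((T ν F Ω : D) : UniformSpace.Completion D) := rfl

/-- vanishing of `Z` for outside test functions -/
lemma Z_out (g' g : 𝓢(Mink, ℂ)) (ν : Fin 4) (F : 𝓢(Mink, ℂ)) (i : Fin 4) (hi : i ≠ 0)
    (σ : ℝ) (hσ : σ = 1 ∨ σ = -1) (c : ℝ) (hF : ∀ x, F x ≠ 0 → |x 0| ≤ -σ * x i - c)
    (hg : HasCompactSupport g) (hg2 : ∀ x ∈ tsupport g, |x 0| < σ * x i + c)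
    (S : Set ℝ) (hS : MeasurableSet S) :
    G.Z g' (proj S hS (toL G.good.temp g)) (proj S hS (toL G.good.temp (conjS g))) ν F = 0 := by
  obtain ⟨e, he, hμe, he0, he1⟩ := G.wed i hi σ hσ
  set a : Mink := (-(σ * c)) • eb i with ha
  have ha0 : a 0 = 0 := by simp [ha, eb, hi.symm]
  have hai : a i = -(σ * c) := by simp [ha, eb]
  have hσ2 : σ * σ = 1 := by rcases hσ with h | h <;> rw [h] <;> norm_num
  have hgw : ∀ x, x ∈ gw e a ↔ |x 0| < σ * x i + c := by
    intro x
    change |(e.symm (x - a)) 0| < (e.symm (x - a)) 1 ↔ _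
    rw [he0, he1]
    have e1 : (x - a) 0 = x 0 := by simp [ha0]
    have e2 : σ * (x - a) i = σ * x i + c := by
      simp only [PiLp.sub_apply, hai]
      linear_combination c * hσ2
    rw [e1, e2]
  have hgt : IsTest (gw e a) g := ⟨hg, fun x hx => (hgw x).2 (hg2 x hx)⟩
  have hFt : ∀ x ∈ tsupport F, |x 0| ≤ -σ * x i - c := by
    have hcl : IsClosed {x : Mink | |x 0| ≤ -σ * x i - c} := by
      apply isClosed_le <;> fun_prop
    intro x hx
    exact closure_minimal (s := Function.support F) (fun y hy => hF y hy) hcl hx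
  have hsep : ∀ f, IsTest (gw e a) f → SpSep F f := by
    intro f hf x hx y hy
    have h1 := hFt x hx
    have h2 := (hgw y).1 (hf.2 hy)
    have h3 : |x 0 - y 0| < σ * (y i - x i) := by
      have := abs_sub (x 0) (y 0)
      linarith only [h1, h2, this]
    have h4 : (x 0 - y 0) ^ 2 < (x i - y i) ^ 2 := by
      have h5 : |x 0 - y 0| < |x i - y i| := by
        refine lt_of_lt_of_le h3 ?_
        rcases hσ with h | h
        · rw [h, one_mul, abs_sub_comm]; exact le_abs_self _
        · rw [h]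
          have : -1 * (y i - x i) = x i - y i := by ring
          rw [this]; exact le_abs_self _
      exact sq_lt_sq.2 h5
    simp only [mdot, PiLp.sub_apply]
    fin_cases i
    · exact absurd rfl hi
    all_goals
      simp only [Fin.mk_one, Fin.reduceFinMk] at h4
      nlinarith only [h4]
  -- abstract wedge duality
  set X : UniformSpace.Completion D := ((T ν F Ω : D) : UniformSpace.Completion D) with hX
  set cc : ℂ := inner ℂ (Ω : UniformSpace.Completion D) X with hcc
  have key := gw_dual_abs G.good e he hμe a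
    (ContinuousLinearMap.adjoint G.toGFData.iMap
      ((T ν (conjS F) (A g' Ω) : D) : UniformSpace.Completion D) -
      (conj cc) • toL G.good.temp g')
    (ContinuousLinearMap.adjoint (G.toGFData.bMap.flip (toL G.good.temp g')) X)
    (by
      intro f hf
      rw [inner_sub_left, inner_smul_left, ContinuousLinearMap.adjoint_inner_left,
        ContinuousLinearMap.adjoint_inner_right, ContinuousLinearMap.flip_apply, conj_conj,
        G.toGFData.iMap_toL, G.toGFData.bMap_toL_toL, hX, hcc, hX]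
      simp only [UniformSpace.Completion.inner_coe]
      rw [← G.toGFData.inner_eq, G.hermT, conjS_conjS, G.loc ν F f (hsep f hf), ← G.toGFData.herm']
      simp only [GFData.Phi, inner_sub_left, inner_smul_left]
      rw [inner_conj_symm, G.toGFData.herm (conjS f) (A g' Ω) Ω, conjS_conjS]
      ring) S hS g hgt
  rw [inner_sub_left, inner_smul_left, ContinuousLinearMap.adjoint_inner_left,
    ContinuousLinearMap.adjoint_inner_right, ContinuousLinearMap.flip_apply, conj_conj] at key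
  rw [G.Z_apply, ← hX, ← hcc, ← key]
  ring

end CoreData

end Vale.Agent.P352
end
end

section

section

set_option maxSynthPendingDepth 3

open MeasureTheory SchwartzMap Complex Filter Topology
open scoped SchwartzMap ComplexConjugate ENNReal LineDeriv

namespace Vale.Agent.P352

variable {μ : Measure Mink}
variable {D : Type*} [NormedAddCommGroup D] [InnerProductSpace ℂ D]

lemma abs_coord_le (x : Mink) (j : Fin 4) : |x j| ≤ ‖x‖ := by
  have := PiLp.norm_apply_le x j
  simpa only [ge_iff_le, Real.norm_eq_abs] using this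

lemma exists_ball (g : 𝓢(Mink, ℂ)) (hg : HasCompactSupport g) :
    ∃ r : ℝ, 0 < r ∧ ∀ x ∈ tsupport g, ∀ j, |x j| ≤ r := by
  obtain ⟨r, hr⟩ := hg.isBounded.exists_norm_le
  refine ⟨max r 1, by positivity, fun x hx j => ?_⟩
  exact (abs_coord_le x j).trans ((hr x hx).trans (le_max_left _ _))

namespace CoreData

variable {Ω : D} {A : 𝓢(Mink, ℂ) →ₗ[ℂ] D →ₗ[ℂ] D} {T : Fin 4 → 𝓢(Mink, ℂ) →ₗ[ℂ] D →ₗ[ℂ] D}
  (G : CoreData Ω A μ T)
include G

lemma Z_cons (g' : 𝓢(Mink, ℂ)) (u v : Lp ℂ 2 μ) (F : 𝓢(Mink, ℂ)) :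
    ∑ ν, G.Z g' u v ν (∂_{eb ν} F) = 0 := by
  simp only [G.Z_apply, conjS_lineDeriv]
  have h1 := G.cons (conjS F) (A g' Ω)
  have h2 := G.cons F Ω
  have h1' : ∑ ν, ((T ν (∂_{eb ν} (conjS F) : 𝓢(Mink, ℂ)) (A g' Ω) : D) :
      UniformSpace.Completion D) = 0 := by
    rw [Fin.sum_univ_four] at h1 ⊢
    simp only [← UniformSpace.Completion.coe_add, h1, UniformSpace.Completion.coe_zero]
  have h2' : ∑ ν, ((T ν (∂_{eb ν} F : 𝓢(Mink, ℂ)) Ω : D) :
      UniformSpace.Completion D) = 0 := by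
    rw [Fin.sum_univ_four] at h2 ⊢
    simp only [← UniformSpace.Completion.coe_add, h2, UniformSpace.Completion.coe_zero]
  rw [Finset.sum_sub_distrib, Finset.sum_sub_distrib, ← sum_inner, ← inner_sum, ← Finset.mul_sum,
    ← inner_sum, h1', h2']
  simp only [inner_zero_left, inner_zero_right, sub_self, mul_zero]

lemma Z_outZero (g' g : 𝓢(Mink, ℂ)) {r : ℝ} (hg : HasCompactSupport g)
    (hr : ∀ x ∈ tsupport g, ∀ j, |x j| ≤ r) (S : Set ℝ) (hS : MeasurableSet S)
    {c : ℝ} (hc : 2 * r < c) :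
    OutZero (G.Z g' (proj S hS (toL G.good.temp g)) (proj S hS (toL G.good.temp (conjS g)))) c := by
  intro ν F i hi σ hσ _ hF
  apply G.Z_out g' g ν F i hi σ hσ c hF hg _ S hS
  intro x hx
  have h0 := hr x hx 0
  have hi' := abs_le.1 (hr x hx i)
  rcases hσ with h | h <;> rw [h] <;> linarith

/-- the commutator functional -/
noncomputable def Cm (_ : CoreData Ω A μ T) (g : 𝓢(Mink, ℂ)) (ν : Fin 4) : 𝓢(Mink, ℂ) →+ D where
  toFun F := T ν F (A g Ω) - A g (T ν F Ω)
  map_zero' := by simp only [map_zero, LinearMap.zero_apply, sub_self]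
  map_add' F F' := by
    simp only [map_add, LinearMap.add_apply]
    abel

omit G in
lemma spSep_of_out {F g : 𝓢(Mink, ℂ)} {i : Fin 4} (hi : i ≠ 0) {σ : ℝ} (hσ : σ = 1 ∨ σ = -1)
    {c r : ℝ} (hF : ∀ x, F x ≠ 0 → |x 0| ≤ -σ * x i - c)
    (hr : ∀ x ∈ tsupport g, ∀ j, |x j| ≤ r) (hc : 2 * r < c) : SpSep F g := by
  have hFt : ∀ x ∈ tsupport F, |x 0| ≤ -σ * x i - c := by
    have hcl : IsClosed {x : Mink | |x 0| ≤ -σ * x i - c} := by
      apply isClosed_le <;> fun_prop
    intro x hx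
    exact closure_minimal (s := Function.support F) (fun y hy => hF y hy) hcl hx
  intro x hx y hy
  have h1 := hFt x hx
  have h2 := hr y hy 0
  have h3 := abs_le.1 (hr y hy i)
  have h4 : |x 0 - y 0| < |x i - y i| := by
    have h5 := abs_sub (x 0) (y 0)
    rcases hσ with h | h
    · rw [h] at h1
      have : y i - x i ≤ |x i - y i| := by rw [abs_sub_comm]; exact le_abs_self _
      linarith
    · rw [h] at h1
      have : x i - y i ≤ |x i - y i| := le_abs_self _
      linarith
  have h6 := sq_lt_sq.2 h4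
  simp only [mdot, PiLp.sub_apply]
  fin_cases i
  · exact absurd rfl hi
  all_goals
    simp only [Fin.mk_one, Fin.reduceFinMk] at h6
    nlinarith only [h6]

lemma Cm_out (g : 𝓢(Mink, ℂ)) {r : ℝ} (hr : ∀ x ∈ tsupport g, ∀ j, |x j| ≤ r)
    {c : ℝ} (hc : 2 * r < c) : OutZero (G.Cm g) c := by
  intro ν F i hi σ hσ _ hF
  change T ν F (A g Ω) - A g (T ν F Ω) = 0
  rw [G.loc ν F g (spSep_of_out hi hσ hF hr hc), sub_self]

lemma Cm_cons (g F : 𝓢(Mink, ℂ)) : ∑ ν, G.Cm g ν (∂_{eb ν} F) = 0 := by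
  change ∑ ν, (T ν (∂_{eb ν} F : 𝓢(Mink, ℂ)) (A g Ω) - A g (T ν (∂_{eb ν} F : 𝓢(Mink, ℂ)) Ω)) = 0
  rw [Finset.sum_sub_distrib, G.cons, ← map_sum, G.cons]
  simp only [map_zero, sub_self]

/-- the charge relation with scaled time smearing -/
lemma charge_scaled (g : 𝓢(Mink, ℂ)) (hg : HasCompactSupport g) :
    ∃ R0 : ℝ, 1 ≤ R0 ∧ ∀ R (h0 : R ≠ 0), R0 ≤ R →
      T 0 (FR R h0) (A g Ω) = A (I • (∂_{eb 0} g : 𝓢(Mink, ℂ))) Ω + A g (T 0 (FR R h0) Ω) := by
  obtain ⟨R1, h1⟩ := G.charge g hg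
  obtain ⟨r, hr0, hr⟩ := exists_ball g hg
  set c := 2 * r + 1 with hc
  refine ⟨max (max 1 R1) c, (le_max_left _ _).trans (le_max_left _ _), fun R h0 hR => ?_⟩
  have hR1 : 1 ≤ R := ((le_max_left _ _).trans (le_max_left _ _)).trans hR
  have hR2 : R1 ≤ R := ((le_max_right _ _).trans (le_max_left _ _)).trans hR
  have hR3 : c ≤ 2 * R := by
    have : c ≤ R := (le_max_right _ _).trans hR
    linarith only [hr0, this]
  have h2 := cut_all (G.Cm_out g hr (c := c) (by linarith)) (G.Cm_cons g) hR1 hR3 hR1 hR3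
  change T 0 (FR R h0) (A g Ω) - A g (T 0 (FR R h0) Ω) =
    T 0 (F1 R h0) (A g Ω) - A g (T 0 (F1 R h0) Ω) at h2
  rw [h1 R h0 hR2] at h2
  rw [← h2]
  abel

omit G in
lemma conjS_FR (R : ℝ) (h0 : R ≠ 0) : conjS (FR R h0) = FR R h0 := conjS_prodS _

omit G in
lemma conjS_F1 (R : ℝ) (h0 : R ≠ 0) : conjS (F1 R h0) = F1 R h0 := conjS_prodS _

/-- evaluation of `Z` on the inner cutoff functions -/
lemma Z_inner (g' g : 𝓢(Mink, ℂ)) (hg' : HasCompactSupport g') (hg : HasCompactSupport g)
    {r : ℝ} (hr : ∀ x ∈ tsupport g, ∀ j, |x j| ≤ r)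
    (S : Set ℝ) (hS : MeasurableSet S) {R : ℝ} (h0 : R ≠ 0) (hRa : 1 ≤ R)
    (hRb : 2 * r + 1 ≤ 2 * R) :
      G.Z g' (proj S hS (toL G.good.temp g)) (proj S hS (toL G.good.temp (conjS g))) 0 (F1 R h0) =
      inner ℂ (toL G.good.temp (I • (∂_{eb 0} g' : 𝓢(Mink, ℂ))))
        (proj S hS (toL G.good.temp g)) := by
  obtain ⟨R1, hR1, h1⟩ := G.charge_scaled g' hg'
  obtain ⟨C, hC⟩ := G.scal
  set c := 2 * r + 1 with hc
  set u := proj S hS (toL G.good.temp g) with hu
  set v := proj S hS (toL G.good.temp (conjS g)) with hv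
  set L := inner ℂ (toL G.good.temp (I • (∂_{eb 0} g' : 𝓢(Mink, ℂ)))) u with hL
  set K : ℝ := ‖G.toGFData.bMap (toL G.good.temp (conjS g')) u‖ +
    ‖inner ℂ (toL G.good.temp g') u‖ * ‖(Ω : UniformSpace.Completion D)‖ +
    ‖G.toGFData.bMap v (toL G.good.temp g')‖ +
    ‖inner ℂ (toL G.good.temp g') u‖ * ‖(Ω : UniformSpace.Completion D)‖ with hK
  have hK0 : 0 ≤ K := by (clear * - G; (clear * - G; positivity))
  have key : ∀ R' : ℝ, max R1 c ≤ R' → ‖G.Z g' u v 0 (F1 R h0) - L‖ ≤ C / R' * K := by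
    intro R' hR'
    have hRc : R1 ≤ R' := (le_max_left _ _).trans hR'
    have hRd : c ≤ 2 * R' := by
      have : c ≤ R' := (le_max_right _ _).trans hR'
      linarith only [hR1, hRc, this]
    have hRe : 1 ≤ R' := hR1.trans hRc
    have h0' : R' ≠ 0 := by positivity
    have h2 : G.Z g' u v 0 (FR R' h0') = G.Z g' u v 0 (F1 R h0) :=
      cut_all (G.Z_outZero g' g hg hr S hS (c := c) (by linarith only [])) (G.Z_cons g' u v) hRe hRd hRa hRb
    set X : UniformSpace.Completion D := ((T 0 (FR R' h0') Ω : D) : UniformSpace.Completion D)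
      with hX
    have hXn : ‖X‖ ≤ C / R' := by
      rw [hX, UniformSpace.Completion.norm_coe]
      exact hC R' h0' hRe
    have h3 : G.Z g' u v 0 (FR R' h0') - L =
        inner ℂ X (G.toGFData.bMap (toL G.good.temp (conjS g')) u) +
        inner ℂ (toL G.good.temp g') u * inner ℂ X (Ω : UniformSpace.Completion D) -
        inner ℂ (G.toGFData.bMap v (toL G.good.temp g')) X -
        inner ℂ (toL G.good.temp g') u * inner ℂ (Ω : UniformSpace.Completion D) X := by
      rw [G.Z_apply, conjS_FR, h1 R' h0' hRc, UniformSpace.Completion.coe_add, inner_add_left,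
        G.toGFData.inner_A_iMap g', ← G.toGFData.iMap_toL, G.toGFData.inner_iMap, ← hX, hL]
      ring
    rw [← h2, h3]
    calc _ ≤ ‖inner ℂ X (G.toGFData.bMap (toL G.good.temp (conjS g')) u)‖ +
        ‖inner ℂ (toL G.good.temp g') u * inner ℂ X (Ω : UniformSpace.Completion D)‖ +
        ‖inner ℂ (G.toGFData.bMap v (toL G.good.temp g')) X‖ +
        ‖inner ℂ (toL G.good.temp g') u * inner ℂ (Ω : UniformSpace.Completion D) X‖ := by
          refine (norm_sub_le _ _).trans ?_
          gcongr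
          refine (norm_sub_le _ _).trans ?_
          gcongr
          exact norm_add_le _ _
      _ ≤ ‖X‖ * ‖G.toGFData.bMap (toL G.good.temp (conjS g')) u‖ +
        ‖inner ℂ (toL G.good.temp g') u‖ * (‖X‖ * ‖(Ω : UniformSpace.Completion D)‖) +
        ‖G.toGFData.bMap v (toL G.good.temp g')‖ * ‖X‖ +
        ‖inner ℂ (toL G.good.temp g') u‖ * (‖(Ω : UniformSpace.Completion D)‖ * ‖X‖) := by
          rw [norm_mul, norm_mul]
          gcongr
          · exact norm_inner_le_norm _ _
          · exact norm_inner_le_norm _ _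
          · exact norm_inner_le_norm _ _
          · exact norm_inner_le_norm _ _
      _ = ‖X‖ * K := by rw [hK]; ring
      _ ≤ C / R' * K := by (clear * - G hXn; gcongr)
  have hlim : Tendsto (fun R' : ℝ => C / R' * K) atTop (𝓝 0) := by
    have : Tendsto (fun R' : ℝ => C / R') atTop (𝓝 0) := tendsto_const_nhds.div_atTop tendsto_id
    simpa only [zero_mul] using this.mul_const K
  have h4 : ‖G.Z g' u v 0 (F1 R h0) - L‖ ≤ 0 := by
    apply ge_of_tendsto hlim
    filter_upwards [eventually_ge_atTop (max R1 c)] with R' hR' using key R' hR'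
  have h5 := norm_le_zero_iff.1 h4
  exact sub_eq_zero.1 h5

end CoreData

end Vale.Agent.P352
end
end

section

section

set_option maxSynthPendingDepth 3

open MeasureTheory SchwartzMap Complex Filter Topology
open scoped SchwartzMap ComplexConjugate ENNReal LineDeriv

namespace Vale.Agent.P352

open GF (Ix V Fn Sch ev pd bar sim one bas o)

/-- the plain function of a Schwartz function on `Mink` -/
noncomputable def fl (f : 𝓢(Mink, ℂ)) : Fn := fun x => f (WithLp.toLp 2 x)

@[simp] lemma fl_apply (f : 𝓢(Mink, ℂ)) (x : V) : fl f x = f (WithLp.toLp 2 x) := rfl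

/-- conversion -/
noncomputable def toSch (f : 𝓢(Mink, ℂ)) : Sch :=
  SchwartzMap.compCLMOfContinuousLinearEquiv ℂ (EuclideanSpace.equiv (Fin 4) ℝ).symm f

/-- conversion -/
noncomputable def ofSch : Sch →L[ℂ] 𝓢(Mink, ℂ) :=
  SchwartzMap.compCLMOfContinuousLinearEquiv ℂ (EuclideanSpace.equiv (Fin 4) ℝ)

/-- conversion -/
noncomputable def toSchL : 𝓢(Mink, ℂ) →L[ℂ] Sch :=
  SchwartzMap.compCLMOfContinuousLinearEquiv ℂ (EuclideanSpace.equiv (Fin 4) ℝ).symm

lemma isTest_fl (f : 𝓢(Mink, ℂ)) : GF.IsTest (fl f) := ⟨toSchL f, rfl⟩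

lemma exists_fl {f : Fn} (h : GF.IsTest f) : ∃ F, fl F = f := by
  obtain ⟨g, rfl⟩ := h
  exact ⟨ofSch g, rfl⟩

lemma fl_add_smul (f g : 𝓢(Mink, ℂ)) (c : ℂ) :
    (fun x => fl f x + c * fl g x) = fl (f + c • g) := by
  funext x; simp

lemma bar_fl (f : 𝓢(Mink, ℂ)) : bar (fl f) = fl (conjS f) := by
  funext x
  simp only [bar, fl_apply, RCLike.star_def, conjS_apply]

lemma toLp_add_bas (x : V) (m : Ix) (t : ℝ) :
    WithLp.toLp 2 (fun n => x n + bas m t n) = WithLp.toLp 2 x + t • (eb m : Mink) := by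
  ext n
  simp only [PiLp.add_apply, PiLp.smul_apply, eb, bas]
  by_cases h : n = m
  · subst h; simp
  · simp [h]

lemma pd_fl (m : Ix) (f : 𝓢(Mink, ℂ)) : pd m (fl f) = fl (∂_{eb m} f) := by
  funext x
  unfold pd
  simp only [fl_apply, toLp_add_bas]
  have h2 : HasDerivAt (fun t : ℝ => f (WithLp.toLp 2 x + t • eb m))
      ((∂_{eb m} f : 𝓢(Mink, ℂ)) (WithLp.toLp 2 x)) 0 :=
    (f.differentiableAt.hasFDerivAt (x := WithLp.toLp 2 x)).hasLineDerivAt (eb m)
  exact h2.deriv

/-- composition with a similitude -/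
noncomputable def simS (s : ℝ) (hs : 0 < s) {L : Ix → V} (hL : GF.IsLor L) (a : V)
    (f : 𝓢(Mink, ℂ)) : 𝓢(Mink, ℂ) :=
  compLam hL (scaleS s hs.ne' (tauS (-WithLp.toLp 2 a) f))

lemma simS_apply (s : ℝ) (hs : 0 < s) {L : Ix → V} (hL : GF.IsLor L) (a : V)
    (f : 𝓢(Mink, ℂ)) (x : Mink) :
    simS s hs hL a f x = f (WithLp.toLp 2 (sim s L a x.ofLp)) := by
  simp only [simS, compLam_apply, scaleS_apply, tauS_apply]
  congr 1
  ext n
  simp only [sub_neg_eq_add, PiLp.add_apply, PiLp.smul_apply, lam_apply, sim, smul_eq_mul]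
  ring

lemma fl_sim (s : ℝ) (hs : 0 < s) {L : Ix → V} (hL : GF.IsLor L) (a : V)
    (f : 𝓢(Mink, ℂ)) : (fun x => fl f (sim s L a x)) = fl (simS s hs hL a f) := by
  funext x
  rw [fl_apply, fl_apply, simS_apply]

lemma isLor_one : GF.IsLor one := by
  refine ⟨?_, ?_, ?_⟩
  · intro m n
    rw [gf_mdot]
    fin_cases m <;> fin_cases n <;>
      simp [one, GF.bas, eta_0, eta_1, eta_2, eta_3]
  · change 0 < one 0 0
    simp only [one, bas, Fin.isValue, ↓reduceIte, zero_lt_one]
  · have : Matrix.of one = 1 := by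
      ext i j
      simp [one, bas, Matrix.one_apply, eq_comm]
    change Matrix.det (Matrix.of one) = 1
    rw [this, Matrix.det_one]

lemma sim_one (a x : V) : sim 1 one a x = fun n => a n + x n := by
  funext n
  simp only [sim, one, bas, mul_ite, mul_one, mul_zero, Finset.sum_ite_eq, Finset.mem_univ, ↓reduceIte, one_mul]

lemma fl_shift (a : V) (f : 𝓢(Mink, ℂ)) :
    (fun x => fl f (sim 1 one a x)) = fl (tauS (-WithLp.toLp 2 a) f) := by
  funext x
  rw [fl_apply, fl_apply, sim_one, tauS_apply]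
  congr 1
  ext n
  simp only [sub_neg_eq_add, PiLp.add_apply]
  ring

lemma tsupport_fl (f : 𝓢(Mink, ℂ)) : tsupport (fl f) = WithLp.toLp 2 ⁻¹' tsupport f := by
  have h : fl f = f ∘ (EuclideanSpace.equiv (Fin 4) ℝ).symm.toHomeomorph := rfl
  rw [h, tsupport_comp_eq_preimage]
  rfl

lemma hasCompactSupport_fl {f : 𝓢(Mink, ℂ)} (hf : HasCompactSupport f) :
    HasCompactSupport (fl f) := by
  have h : fl f = f ∘ (EuclideanSpace.equiv (Fin 4) ℝ).symm.toHomeomorph := rfl
  rw [h]
  exact hf.comp_homeomorph _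

lemma sep_fl {f g : 𝓢(Mink, ℂ)} (h : SpSep f g) : GF.Sep (fl f) (fl g) := by
  intro x hx y hy
  rw [tsupport_fl] at hx hy
  have := h _ hx _ hy
  rw [mdot_eq] at this
  exact this

end Vale.Agent.P352
end
end

section

section

set_option maxSynthPendingDepth 3

open MeasureTheory SchwartzMap Complex Filter Topology
open scoped SchwartzMap ComplexConjugate ENNReal LineDeriv

namespace Vale.Agent.P352

open GF (Ix V Fn Sch ev pd bar sim one bas o)

lemma lineDeriv_comm' (m n : Ix) (f : 𝓢(Mink, ℂ)) :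
    (∂_{eb m} (∂_{eb n} f : 𝓢(Mink, ℂ)) : 𝓢(Mink, ℂ)) = ∂_{eb n} (∂_{eb m} f : 𝓢(Mink, ℂ)) := by
  have key : ∀ (v w : Mink) (x : Mink), (∂_{v} (∂_{w} f : 𝓢(Mink, ℂ)) : 𝓢(Mink, ℂ)) x =
      fderiv ℝ (fderiv ℝ f) x v w := by
    intro v w x
    change fderiv ℝ (fun y => fderiv ℝ f y w) x v = _
    have hd : DifferentiableAt ℝ (fderiv ℝ f) x :=
      ((f.smooth 2).fderiv_right (m := 1) (by norm_num)).differentiable (by norm_num) x
    rw [fderiv_clm_apply hd (differentiableAt_const w)]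
    simp
  ext x
  rw [key, key]
  have hs : IsSymmSndFDerivAt ℝ f x :=
    ((f.smooth 2).contDiffAt (x := x)).isSymmSndFDerivAt (by simp)
  exact hs.eq _ _

lemma hasDerivAt_line (f : 𝓢(Mink, ℂ)) (x v : Mink) :
    HasDerivAt (fun t : ℝ => f (x + t • v)) (fderiv ℝ f x v) 0 :=
  (f.differentiableAt.hasFDerivAt (x := x)).hasLineDerivAt v

lemma lineDeriv_simS (s : ℝ) (hs : 0 < s) {L : Ix → V} (hL : GF.IsLor L) (a : V)
    (f : 𝓢(Mink, ℂ)) (m : Ix) :
    (∂_{eb m} (simS s hs hL a f) : 𝓢(Mink, ℂ)) =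
      (s : ℂ) • ∑ k, (L m k : ℂ) • simS s hs hL a (∂_{eb k} f) := by
  ext x
  apply lineDeriv_eq_of_hasDerivAt
  set y : Mink := WithLp.toLp 2 (sim s L a x.ofLp) with hy
  have h1 : ∀ t : ℝ, simS s hs hL a f (x + t • eb m) = f (y + t • (s • WithLp.toLp 2 (L m))) := by
    intro t
    rw [simS_apply]
    congr 1
    ext n
    simp only [hy, sim, PiLp.add_apply, PiLp.smul_apply, smul_eq_mul, add_mul,
      Finset.sum_add_distrib]
    have : ∑ k, t * (eb m : Mink) k * L k n = t * L m n := by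
      simp [eb]
    rw [this]
    ring
  simp_rw [h1]
  have h2 := hasDerivAt_line f y (s • WithLp.toLp 2 (L m))
  have h3 : fderiv ℝ f y (s • WithLp.toLp 2 (L m)) =
      ((s : ℂ) • ∑ k, (L m k : ℂ) • simS s hs hL a (∂_{eb k} f) : 𝓢(Mink, ℂ)) x := by
    have h4 : (WithLp.toLp 2 (L m) : Mink) = ∑ k, L m k • (eb k : Mink) := by
      ext n
      simp only [eb, WithLp.ofLp_sum, WithLp.ofLp_smul, PiLp.ofLp_single, Finset.sum_apply,
        Pi.smul_apply, Pi.single_apply, smul_eq_mul, mul_ite, mul_one, mul_zero,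
        Finset.sum_ite_eq, Finset.mem_univ, ↓reduceIte]
    rw [h4, map_smul, map_sum]
    simp only [map_smul, smul_apply, sum_apply, simS_apply]
    rw [real_smul, smul_eq_mul]
    congr 1
  rw [← h3]
  exact h2

/-- the d'Alembertian -/
noncomputable def boxS (f : 𝓢(Mink, ℂ)) : 𝓢(Mink, ℂ) :=
  ∑ k, (GF.eta k : ℂ) • (∂_{eb k} (∂_{eb k} f : 𝓢(Mink, ℂ)) : 𝓢(Mink, ℂ))

lemma lor_transpose {L : Ix → V} (hL : GF.IsLor L) (k l : Ix) :
    ∑ m, GF.eta m * L m k * L m l = bas k (GF.eta k) l := by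
  set E : Matrix Ix Ix ℝ := Matrix.diagonal GF.eta with hE
  set M : Matrix Ix Ix ℝ := Matrix.of L with hM
  have hEE : E * E = 1 := by
    rw [hE, Matrix.diagonal_mul_diagonal]
    have : (fun i => GF.eta i * GF.eta i) = fun _ => 1 := by
      funext i; exact eta_sq i
    rw [this, Matrix.diagonal_one]
  have h1 : M * E * M.transpose = E := by
    ext m n
    have := hL.1 m n
    rw [Matrix.mul_apply]
    simp only [Matrix.mul_diagonal, hE, Matrix.transpose_apply, hM, Matrix.of_apply]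
    rw [Matrix.diagonal_apply]
    unfold GF.mdot bas at this
    have e : (if m = n then GF.eta m else 0) = if n = m then GF.eta m else 0 := by
      simp only [eq_comm]
    rw [e, ← this]
    refine Finset.sum_congr rfl fun i _ => ?_
    ring
  have h2 : M * (E * M.transpose * E) = 1 := by
    rw [← hEE]
    nth_rewrite 3 [← h1]
    simp only [Matrix.mul_assoc]
  have h3 : (E * M.transpose * E) * M = 1 := mul_eq_one_comm.1 h2
  have h4 : M.transpose * E * M = E := by
    calc M.transpose * E * M = (E * E) * M.transpose * E * M := by rw [hEE, Matrix.one_mul]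
      _ = E * ((E * M.transpose * E) * M) := by simp only [Matrix.mul_assoc]
      _ = E := by rw [h3, Matrix.mul_one]
  have h5 := congrFun (congrFun h4 k) l
  rw [Matrix.mul_apply] at h5
  simp only [Matrix.mul_diagonal, hE, Matrix.transpose_apply, hM, Matrix.of_apply] at h5
  rw [Matrix.diagonal_apply] at h5
  unfold bas
  have e : (if l = k then GF.eta k else 0) = if k = l then GF.eta k else 0 := by
    simp only [eq_comm]
  rw [e, ← h5]
  refine Finset.sum_congr rfl fun i _ => ?_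
  ring

lemma boxS_simS (s : ℝ) (hs : 0 < s) {L : Ix → V} (hL : GF.IsLor L) (a : V)
    (f : 𝓢(Mink, ℂ)) : boxS (simS s hs hL a f) = ((s ^ 2 : ℝ) : ℂ) • simS s hs hL a (boxS f) := by
  have hld_smul : ∀ (v : Mink) (c : ℂ) (g : 𝓢(Mink, ℂ)),
      (∂_{v} (c • g) : 𝓢(Mink, ℂ)) = c • (∂_{v} g : 𝓢(Mink, ℂ)) := fun v c g =>
    LineDeriv.lineDerivOp_smul v c g
  have hld_sum : ∀ (v : Mink) (g : Ix → 𝓢(Mink, ℂ)),
      (∂_{v} (∑ k, g k) : 𝓢(Mink, ℂ)) = ∑ k, (∂_{v} (g k) : 𝓢(Mink, ℂ)) := fun v g =>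
    LineDeriv.lineDerivOp_sum v g Finset.univ
  ext x
  have e1 : ∀ m, (∂_{eb m} (∂_{eb m} (simS s hs hL a f) : 𝓢(Mink, ℂ)) : 𝓢(Mink, ℂ)) x =
      ((s ^ 2 : ℝ) : ℂ) * ∑ k, ∑ l, ((L m k : ℂ) * (L m l : ℂ)) *
        simS s hs hL a (∂_{eb l} (∂_{eb k} f : 𝓢(Mink, ℂ)) : 𝓢(Mink, ℂ)) x := by
    intro m
    rw [lineDeriv_simS, hld_smul, hld_sum]
    simp only [hld_smul, lineDeriv_simS]
    simp only [smul_apply, sum_apply, smul_eq_mul, Finset.mul_sum]
    refine Finset.sum_congr rfl fun k _ => Finset.sum_congr rfl fun l _ => ?_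
    push_cast
    ring
  have e2 : boxS (simS s hs hL a f) x = ∑ m, (GF.eta m : ℂ) * (((s ^ 2 : ℝ) : ℂ) * ∑ k, ∑ l,
      ((L m k : ℂ) * (L m l : ℂ)) *
        simS s hs hL a (∂_{eb l} (∂_{eb k} f : 𝓢(Mink, ℂ)) : 𝓢(Mink, ℂ)) x) := by
    unfold boxS
    simp only [sum_apply, smul_apply, e1, smul_eq_mul]
  have e3 : simS s hs hL a (boxS f) x = ∑ k, (GF.eta k : ℂ) *
      simS s hs hL a (∂_{eb k} (∂_{eb k} f : 𝓢(Mink, ℂ)) : 𝓢(Mink, ℂ)) x := by
    unfold boxS
    simp only [simS_apply, sum_apply, smul_apply, smul_eq_mul]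
  rw [e2, smul_apply, e3, smul_eq_mul]
  have e4 : ∀ k l, ∑ m, (GF.eta m : ℂ) * ((L m k : ℂ) * (L m l : ℂ)) =
      ((bas k (GF.eta k) l : ℝ) : ℂ) := by
    intro k l
    rw [← lor_transpose hL k l]
    push_cast
    refine Finset.sum_congr rfl fun i _ => ?_
    ring
  calc _ = ((s ^ 2 : ℝ) : ℂ) * ∑ k, ∑ l, (∑ m, (GF.eta m : ℂ) * ((L m k : ℂ) * (L m l : ℂ))) *
        simS s hs hL a (∂_{eb l} (∂_{eb k} f : 𝓢(Mink, ℂ)) : 𝓢(Mink, ℂ)) x := by
        simp only [Finset.mul_sum, Finset.sum_mul]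
        rw [Finset.sum_comm]
        refine Finset.sum_congr rfl fun k _ => ?_
        rw [Finset.sum_comm]
        refine Finset.sum_congr rfl fun l _ => Finset.sum_congr rfl fun m _ => ?_
        ring
    _ = _ := by
        simp only [e4]
        congr 1
        refine Finset.sum_congr rfl fun k _ => ?_
        rw [Finset.sum_eq_single k]
        · simp [bas]
        · intro l _ hl
          simp [bas, hl]
        · simp only [Finset.mem_univ, not_true_eq_false, mul_eq_zero, ofReal_eq_zero,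
            IsEmpty.forall_iff]

end Vale.Agent.P352
end
end

section

section

set_option maxSynthPendingDepth 3

open MeasureTheory SchwartzMap Complex Filter Topology
open scoped SchwartzMap ComplexConjugate ENNReal LineDeriv

namespace Vale.Agent.P352

open GF (Ix V Fn Sch ev pd bar sim one bas o)

variable {D : Type*} [NormedAddCommGroup D] [InnerProductSpace ℂ D] {Q : GF.Theory D}

lemma U_add {s : ℝ} {L : Ix → V} (hs : 0 < s) (hL : GF.IsLor L) (a : V) (v w : D) :
    Q.U s L a (v + w) = Q.U s L a v + Q.U s L a w := by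
  have h : inner ℂ (Q.U s L a (v + w) - (Q.U s L a v + Q.U s L a w))
      (Q.U s L a (v + w) - (Q.U s L a v + Q.U s L a w)) = 0 := by
    simp only [inner_sub_left, inner_sub_right, inner_add_left, inner_add_right,
      Q.U_inner s L a _ _ hs hL]
    ring
  exact sub_eq_zero.1 (inner_self_eq_zero.1 h)

lemma U_smul {s : ℝ} {L : Ix → V} (hs : 0 < s) (hL : GF.IsLor L) (a : V) (c : ℂ) (v : D) :
    Q.U s L a (c • v) = c • Q.U s L a v := by
  have h : inner ℂ (Q.U s L a (c • v) - c • Q.U s L a v)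
      (Q.U s L a (c • v) - c • Q.U s L a v) = 0 := by
    simp only [inner_sub_left, inner_sub_right, inner_smul_left, inner_smul_right,
      Q.U_inner s L a _ _ hs hL]
    ring
  exact sub_eq_zero.1 (inner_self_eq_zero.1 h)

lemma fld_lin {A : GF.Fld D} (hA : Q.fld A) (f g : 𝓢(Mink, ℂ)) (c : ℂ) (v : D) :
    A (fl (f + c • g)) v = A (fl f) v + c • A (fl g) v := by
  rw [← fl_add_smul]
  exact Q.lin A _ _ c v hA (isTest_fl f) (isTest_fl g)

/-- The properties of a real scalar field used in the proof. -/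
structure PField (Q : GF.Theory D) (T : Ix → Ix → GF.Fld D) (A : GF.Fld D) (d : ℝ) : Prop where
  lin : ∀ f g (c : ℂ) v, A (fl (f + c • g)) v = A (fl f) v + c • A (fl g) v
  cont : ∀ v, Continuous fun g : 𝓢(Mink, ℂ) => A (fl g) v
  herm : ∀ f v w, inner ℂ (A (fl f) v) w = inner ℂ v (A (fl (conjS f)) w)
  loc : ∀ B f g v, Q.fld B → SpSep f g → A (fl f) (B (fl g) v) = B (fl g) (A (fl f) v)
  cov : ∀ s (hs : 0 < s) L (hL : GF.IsLor L) a f v, A (fl f) (Q.U s L a v) =
    ((s ^ (4 - d) : ℝ) : ℂ) • Q.U s L a (A (fl (simS s hs hL a f)) v)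
  charge : ∀ (F : ℝ → Fn) (f : 𝓢(Mink, ℂ)) v w, GF.IsCutoff F → HasCompactSupport f →
    Tendsto (fun R => inner ℂ w (T o o (F R) (A (fl f) v) - A (fl f) (T o o (F R) v))) atTop
      (𝓝 (inner ℂ w (I • A (fl (∂_{eb 0} f : 𝓢(Mink, ℂ))) v)))

lemma eta_o : GF.eta o = 1 := by simp [GF.eta]

lemma fld_charge {T : Ix → Ix → GF.Fld D} (hT : Q.IsStress T) {A : GF.Fld D} (hA : Q.fld A)
    (F : ℝ → Fn) (f : 𝓢(Mink, ℂ)) (v w : D) (hF : GF.IsCutoff F) (hf : HasCompactSupport f) :
    Tendsto (fun R => inner ℂ w (T o o (F R) (A (fl f) v) - A (fl f) (T o o (F R) v))) atTop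
      (𝓝 (inner ℂ w (I • A (fl (∂_{eb 0} f : 𝓢(Mink, ℂ))) v))) := by
  have h := hT.charge F o A (fl f) v w hF hA (isTest_fl f) (hasCompactSupport_fl hf)
  rw [pd_fl, eta_o] at h
  simpa only [o, Fin.isValue, CStarModule.inner_sub_right, CStarModule.inner_op_smul_right, ofReal_one,     mul_one] using h

lemma fld_cont {A : GF.Fld D} (hA : Q.fld A) (v : D) :
    Continuous fun g : 𝓢(Mink, ℂ) => A (fl g) v :=
  (Q.cont A v hA).comp toSchL.continuous

/-- components of the stress tensor and scalars -/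
lemma PField.of_isScalar {T : Ix → Ix → GF.Fld D} (hT : Q.IsStress T) {A : GF.Fld D} {d : ℝ}
    (hA : Q.IsScalar A d) : PField Q T A d where
  lin f g c v := fld_lin (Q.bose_fld A hA.1) f g c v
  cont v := fld_cont (Q.bose_fld A hA.1) v
  herm f v w := by rw [hA.2.1 (fl f) v w (isTest_fl f), bar_fl]
  loc B f g v hB hs := Q.loc A B _ _ v hA.1 hB (isTest_fl f) (isTest_fl g) (sep_fl hs)
  cov s hs L hL a f v := by
    rw [hA.2.2 s L a (fl f) v hs hL (isTest_fl f), fl_sim s hs hL]
  charge F f v w hF hf := fld_charge hT (Q.bose_fld A hA.1) F f v w hF hf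

lemma PField.congr {T : Ix → Ix → GF.Fld D} {A B : GF.Fld D} {d : ℝ} (hA : PField Q T A d)
    (h : ∀ f v, B (fl f) v = A (fl f) v) : PField Q T B d where
  lin f g c v := by simp only [h, hA.lin]
  cont v := by simp only [h]; exact hA.cont v
  herm f v w := by simp only [h, hA.herm]
  loc C f g v hC hs := by simp only [h]; exact hA.loc C f g v hC hs
  cov s hs L hL a f v := by simp only [h]; exact hA.cov s hs L hL a f v
  charge F f v w hF hf := by simp only [h]; exact hA.charge F f v w hF hf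

lemma fld_add {A : GF.Fld D} (hA : Q.fld A) (f : 𝓢(Mink, ℂ)) (v w : D) :
    A (fl f) (v + w) = A (fl f) v + A (fl f) w := by
  obtain ⟨B, _, h⟩ := Q.adj A hA
  refine ext_inner_right ℂ fun u => ?_
  rw [inner_add_left, h _ _ _ (isTest_fl f), h _ _ _ (isTest_fl f), h _ _ _ (isTest_fl f),
    inner_add_left]

lemma fld_smul {A : GF.Fld D} (hA : Q.fld A) (f : 𝓢(Mink, ℂ)) (c : ℂ) (v : D) :
    A (fl f) (c • v) = c • A (fl f) v := by
  obtain ⟨B, _, h⟩ := Q.adj A hA
  refine ext_inner_right ℂ fun u => ?_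
  rw [inner_smul_left, h _ _ _ (isTest_fl f), h _ _ _ (isTest_fl f), inner_smul_left]

lemma PField.addv {T : Ix → Ix → GF.Fld D} {A : GF.Fld D} {d : ℝ} (hA : PField Q T A d)
    (f : 𝓢(Mink, ℂ)) (v w : D) : A (fl f) (v + w) = A (fl f) v + A (fl f) w := by
  refine ext_inner_right ℂ fun u => ?_
  rw [inner_add_left, hA.herm, hA.herm, hA.herm, inner_add_left]

lemma PField.smulv {T : Ix → Ix → GF.Fld D} {A : GF.Fld D} {d : ℝ} (hA : PField Q T A d)
    (f : 𝓢(Mink, ℂ)) (c : ℂ) (v : D) : A (fl f) (c • v) = c • A (fl f) v := by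
  refine ext_inner_right ℂ fun u => ?_
  rw [inner_smul_left, hA.herm, hA.herm, inner_smul_left]

lemma isTest_cutoff {F : ℝ → Fn} (hF : GF.IsCutoff F) : ∀ᶠ R in atTop, GF.IsTest (F R) := by
  obtain ⟨a, c, -, -, -, -, h⟩ := hF
  filter_upwards [eventually_gt_atTop 0] with R hR using (h R hR).1

lemma PField.addc {T : Ix → Ix → GF.Fld D} (hT : Q.IsStress T) {A B : GF.Fld D} {d : ℝ}
    (hA : PField Q T A d) (hB : PField Q T B d) (c : ℝ) :
    PField Q T (fun f v => A f v + (c : ℂ) • B f v) d where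
  lin f g k v := by
    rw [hA.lin, hB.lin, smul_add, smul_comm (c : ℂ) k, smul_add]
    abel
  cont v := (hA.cont v).add ((hB.cont v).const_smul _)
  herm f v w := by
    rw [inner_add_left, inner_add_right, inner_smul_left, inner_smul_right, hA.herm, hB.herm,
      conj_ofReal]
  loc C f g v hC hs := by
    rw [hA.loc C f g v hC hs, hB.loc C f g v hC hs, fld_add hC, fld_smul hC]
  cov s hs L hL a f v := by
    rw [hA.cov s hs L hL, hB.cov s hs L hL, U_add hs hL, U_smul hs hL, smul_add,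
      smul_comm (c : ℂ)]
  charge F f v w hF hf := by
    have h1 := hA.charge F f v w hF hf
    have h2 := hB.charge F f v w hF hf
    have h3 := h1.add (h2.const_mul (c : ℂ))
    have e : inner ℂ w (I • A (fl (∂_{eb 0} f : 𝓢(Mink, ℂ))) v) + (c : ℂ) *
        inner ℂ w (I • B (fl (∂_{eb 0} f : 𝓢(Mink, ℂ))) v) =
        inner ℂ w (I • (A (fl (∂_{eb 0} f : 𝓢(Mink, ℂ))) v + (c : ℂ) • B (fl (∂_{eb 0} f : 𝓢(Mink, ℂ))) v)) := by
      simp only [smul_add, inner_add_right, inner_smul_right]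
      ring
    rw [← e]
    refine h3.congr' ?_
    filter_upwards [isTest_cutoff hF] with R hR
    obtain ⟨G, hG⟩ := exists_fl hR
    rw [← hG]
    have hoo := Q.bose_fld _ (hT.bose o o)
    rw [fld_add hoo, fld_smul hoo]
    simp only [inner_sub_right, inner_add_right, inner_smul_right]
    ring

end Vale.Agent.P352
end
end

section

section

set_option maxSynthPendingDepth 3

open MeasureTheory SchwartzMap Complex Filter Topology
open scoped SchwartzMap ComplexConjugate ENNReal LineDeriv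

namespace Vale.Agent.P352

open GF (Ix V Fn Sch ev pd bar sim one bas o)

variable {D : Type*} [NormedAddCommGroup D] [InnerProductSpace ℂ D] {Q : GF.Theory D}

/-- the d'Alembertian on plain functions -/
noncomputable def boxF (f : Fn) : Fn := fun x => ∑ k, (GF.eta k : ℂ) * pd k (pd k f) x

lemma boxF_fl (f : 𝓢(Mink, ℂ)) : boxF (fl f) = fl (boxS f) := by
  funext x
  simp only [boxF, pd_fl, fl_apply, boxS, sum_apply, smul_apply, smul_eq_mul]

lemma boxS_add_smul (f g : 𝓢(Mink, ℂ)) (c : ℂ) : boxS (f + c • g) = boxS f + c • boxS g := by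
  unfold boxS
  rw [Finset.smul_sum, ← Finset.sum_add_distrib]
  refine Finset.sum_congr rfl fun k _ => ?_
  have h1 : (∂_{eb k} (f + c • g) : 𝓢(Mink, ℂ)) = ∂_{eb k} f + c • (∂_{eb k} g : 𝓢(Mink, ℂ)) := by
    rw [LineDeriv.lineDerivOp_add, LineDeriv.lineDerivOp_smul]
  have h2 : (∂_{eb k} (∂_{eb k} f + c • (∂_{eb k} g : 𝓢(Mink, ℂ)) : 𝓢(Mink, ℂ)) : 𝓢(Mink, ℂ)) =
      ∂_{eb k} (∂_{eb k} f : 𝓢(Mink, ℂ)) + c • (∂_{eb k} (∂_{eb k} g : 𝓢(Mink, ℂ)) : 𝓢(Mink, ℂ)) := by
    rw [LineDeriv.lineDerivOp_add, LineDeriv.lineDerivOp_smul]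
  rw [h1, h2, smul_add, smul_comm (GF.eta k : ℂ) c]

lemma continuous_boxS : Continuous boxS := by
  unfold boxS
  refine continuous_finsetSum _ fun k _ => ?_
  refine Continuous.const_smul ?_ (GF.eta k : ℂ)
  exact (LineDeriv.continuous_lineDerivOp (eb k)).comp (LineDeriv.continuous_lineDerivOp (eb k))

lemma conjS_boxS (f : 𝓢(Mink, ℂ)) : conjS (boxS f) = boxS (conjS f) := by
  have hs : ∀ g : Ix → 𝓢(Mink, ℂ), conjS (∑ k, g k) = ∑ k, conjS (g k) := by
    intro g
    ext x
    simp only [conjS_apply, sum_apply, map_sum]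
  unfold boxS
  rw [hs]
  refine Finset.sum_congr rfl fun k _ => ?_
  rw [conjS_smul, conjS_lineDeriv, conjS_lineDeriv, conj_ofReal]

lemma lineDeriv_boxS (m : Ix) (f : 𝓢(Mink, ℂ)) :
    (∂_{eb m} (boxS f) : 𝓢(Mink, ℂ)) = boxS (∂_{eb m} f : 𝓢(Mink, ℂ)) := by
  unfold boxS
  rw [LineDeriv.lineDerivOp_sum]
  refine Finset.sum_congr rfl fun k _ => ?_
  rw [LineDeriv.lineDerivOp_smul, lineDeriv_comm' m k, lineDeriv_comm' m k]

lemma tsupport_boxS (f : 𝓢(Mink, ℂ)) : tsupport (boxS f) ⊆ tsupport f := by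
  refine closure_minimal ?_ (isClosed_tsupport f)
  intro x hx
  by_contra hcon
  apply hx
  have h1 : ∀ (g : 𝓢(Mink, ℂ)) (v : Mink), x ∉ tsupport g →
      x ∉ tsupport (∂_{v} g : 𝓢(Mink, ℂ)) := by
    intro g v hg hmem
    apply hg
    have h2 : tsupport (∂_{v} g : 𝓢(Mink, ℂ)) ⊆ tsupport g := by
      refine closure_minimal ?_ (isClosed_tsupport g)
      intro y hy
      by_contra hc
      apply hy
      change fderiv ℝ g y v = 0
      have h3 : y ∉ tsupport (fderiv ℝ g) := fun h => hc (tsupport_fderiv_subset ℝ h)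
      rw [image_eq_zero_of_notMem_tsupport h3]
      simp
    exact h2 hmem
  unfold boxS
  rw [sum_apply]
  refine Finset.sum_eq_zero fun k _ => ?_
  rw [smul_apply, image_eq_zero_of_notMem_tsupport (h1 _ _ (h1 _ _ hcon)), smul_zero]

lemma PField.boxed {T : Ix → Ix → GF.Fld D} {A : GF.Fld D} {d : ℝ} (hA : PField Q T A d) :
    PField Q T (fun f v => A (boxF f) v) (d + 2) where
  lin f g c v := by simp only [boxF_fl, boxS_add_smul, hA.lin]
  cont v := by
    simp only [boxF_fl]
    exact (hA.cont v).comp continuous_boxS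
  herm f v w := by
    simp only [boxF_fl]
    rw [hA.herm, conjS_boxS]
  loc C f g v hC hs := by
    simp only [boxF_fl]
    exact hA.loc C _ g v hC fun x hx y hy => hs x (tsupport_boxS f hx) y hy
  cov s hs L hL a f v := by
    simp only [boxF_fl]
    have h0 : ∀ (c : ℂ) (g : 𝓢(Mink, ℂ)) (v : D), A (fl (c • g)) v = c • A (fl g) v := by
      intro c g v
      have h1 := hA.lin 0 g c v
      have h2 := hA.lin 0 0 1 v
      rw [zero_add] at h1
      simp only [add_zero, smul_zero, one_smul] at h2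
      have h3 : A (fl 0) v = 0 := by simpa using h2
      rw [h1, h3, zero_add]
    rw [hA.cov s hs L hL, boxS_simS, h0, U_smul hs hL, smul_smul, ← ofReal_mul]
    congr 2
    have h5 : (s ^ 2 : ℝ) = s ^ (2 : ℝ) := by norm_cast
    rw [h5, ← Real.rpow_add hs]
    congr 1
    ring
  charge F f v w hF hf := by
    simp only [boxF_fl]
    rw [← lineDeriv_boxS]
    refine hA.charge F (boxS f) v w hF ?_
    exact hf.of_isClosed_subset (isClosed_tsupport _) (tsupport_boxS f)

lemma PField.tr {T : Ix → Ix → GF.Fld D} (hT : Q.IsStress T) : PField Q T (GF.tr T) 4 where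
  lin f g c v := by
    unfold GF.tr
    rw [Finset.smul_sum, ← Finset.sum_add_distrib]
    refine Finset.sum_congr rfl fun m _ => ?_
    rw [fld_lin (Q.bose_fld _ (hT.bose m m)), smul_add, smul_comm c]
  cont v := by
    unfold GF.tr
    refine continuous_finsetSum _ fun m _ => ?_
    exact (fld_cont (Q.bose_fld _ (hT.bose m m)) v).const_smul _
  herm f v w := by
    unfold GF.tr
    rw [sum_inner, inner_sum]
    refine Finset.sum_congr rfl fun m _ => ?_
    rw [inner_smul_left, inner_smul_right, conj_ofReal, hT.herm _ _ _ _ _ (isTest_fl f), bar_fl]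
  loc C f g v hC hs := by
    unfold GF.tr
    have h0 : C (fl g) 0 = 0 := by
      have := fld_smul hC g 0 0
      simpa only [smul_zero, zero_smul] using this
    have hsum : ∀ u : Ix → D, C (fl g) (∑ m, u m) = ∑ m, C (fl g) (u m) := by
      intro u
      rw [Fin.sum_univ_four, Fin.sum_univ_four, fld_add hC, fld_add hC, fld_add hC]
    rw [hsum]
    refine Finset.sum_congr rfl fun m _ => ?_
    rw [fld_smul hC, Q.loc _ C _ _ v (hT.bose m m) hC (isTest_fl f) (isTest_fl g) (sep_fl hs)]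
  cov s hs L hL a f v := by
    have h1 : ∀ m, T m m (fl f) (Q.U s L a v) = ∑ k, ∑ l, (L k m * L l m : ℂ) •
        Q.U s L a (T k l (fl (simS s hs hL a f)) v) := by
      intro m
      rw [hT.cov m m s L a (fl f) v hs hL (isTest_fl f), fl_sim s hs hL]
    have hU0 : Q.U s L a 0 = 0 := by
      have := U_smul (Q := Q) hs hL a 0 0
      simpa only [smul_zero, zero_smul] using this
    have hUs : ∀ u : Ix → D, Q.U s L a (∑ m, u m) = ∑ m, Q.U s L a (u m) := by
      intro u
      rw [Fin.sum_univ_four, Fin.sum_univ_four, U_add hs hL, U_add hs hL, U_add hs hL]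
    unfold GF.tr
    have hz : (((s ^ ((4 : ℝ) - 4) : ℝ)) : ℂ) = 1 := by simp
    rw [hz, one_smul, hUs]
    simp only [h1, U_smul hs hL]
    calc _ = ∑ k, ∑ l, ((∑ m, GF.eta m * L k m * L l m : ℝ) : ℂ) •
        Q.U s L a (T k l (fl (simS s hs hL a f)) v) := by
          simp only [Finset.smul_sum, smul_smul]
          rw [Finset.sum_comm]
          refine Finset.sum_congr rfl fun k _ => ?_
          rw [Finset.sum_comm]
          refine Finset.sum_congr rfl fun l _ => ?_
          rw [← Finset.sum_smul]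
          congr 1
          push_cast
          refine Finset.sum_congr rfl fun m _ => ?_
          ring
      _ = _ := by
          have h3 : ∀ k l, (∑ m, GF.eta m * L k m * L l m : ℝ) = bas k (GF.eta k) l := hL.1
          simp only [h3]
          refine Finset.sum_congr rfl fun k _ => ?_
          rw [Finset.sum_eq_single k]
          · simp [bas]
          · intro l _ hl
            simp only [bas, hl, ↓reduceIte, ofReal_zero, zero_smul]
          · simp only [Finset.mem_univ, not_true_eq_false, coe_smul, smul_eq_zero,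
              IsEmpty.forall_iff]
  charge F f v w hF hf := by
    have h1 : Tendsto (fun R => ∑ m, (GF.eta m : ℂ) * inner ℂ w (T o o (F R) (T m m (fl f) v) -
        T m m (fl f) (T o o (F R) v))) atTop
      (𝓝 (∑ m, (GF.eta m : ℂ) *
        inner ℂ w (I • T m m (fl (∂_{eb 0} f : 𝓢(Mink, ℂ))) v))) :=
      tendsto_finsetSum _ fun m _ =>
        (fld_charge hT (Q.bose_fld _ (hT.bose m m)) F f v w hF hf).const_mul _
    have e : ∑ m, (GF.eta m : ℂ) * inner ℂ w (I • T m m (fl (∂_{eb 0} f : 𝓢(Mink, ℂ))) v) =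
        inner ℂ w (I • GF.tr T (fl (∂_{eb 0} f : 𝓢(Mink, ℂ))) v) := by
      unfold GF.tr
      simp only [inner_smul_right, inner_sum, Finset.mul_sum]
      refine Finset.sum_congr rfl fun m _ => ?_
      ring
    rw [← e]
    refine h1.congr' ?_
    filter_upwards [isTest_cutoff hF] with R hR
    obtain ⟨G, hG⟩ := exists_fl hR
    rw [← hG]
    have hoo := Q.bose_fld _ (hT.bose o o)
    unfold GF.tr
    have hs : T o o (fl G) (∑ m, (GF.eta m : ℂ) • T m m (fl f) v) =
        ∑ m, (GF.eta m : ℂ) • T o o (fl G) (T m m (fl f) v) := by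
      rw [Fin.sum_univ_four, Fin.sum_univ_four, fld_add hoo, fld_add hoo, fld_add hoo,
        fld_smul hoo, fld_smul hoo, fld_smul hoo, fld_smul hoo]
    rw [hs, ← Finset.sum_sub_distrib, inner_sum]
    refine Finset.sum_congr rfl fun m _ => ?_
    rw [← smul_sub, inner_smul_right]

/-- The trace of the improved tensor. -/
lemma PField.trImp {T : Ix → Ix → GF.Fld D} (hT : Q.IsStress T) {L : GF.Fld D}
    (hL : Q.IsScalar L 2) : PField Q T (GF.tr (GF.improve T L)) 4 := by
  have h1 : PField Q T (fun f v => L (boxF f) v) 4 := by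
    have := (PField.of_isScalar hT hL).boxed
    norm_num at this
    exact this
  have h2 := (PField.tr hT).addc hT h1 (-3)
  refine h2.congr fun f v => ?_
  have hLf := Q.bose_fld _ hL.1
  have h0 : L (fl 0) v = 0 := by
    have h2 := fld_lin hLf 0 0 1 v
    simp only [smul_zero, add_zero, one_smul] at h2
    simpa only [left_eq_add] using h2
  have hsm : ∀ (c : ℂ) (g : 𝓢(Mink, ℂ)), L (fl (c • g)) v = c • L (fl g) v := by
    intro c g
    have h1 := fld_lin hLf 0 g c v
    rw [zero_add] at h1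
    rw [h1, h0, zero_add]
  have hadd : ∀ (f g : 𝓢(Mink, ℂ)), L (fl (f + g)) v = L (fl f) v + L (fl g) v := by
    intro f g
    have h1 := fld_lin hLf f g 1 v
    simpa only [one_smul] using h1
  have hbox : L (boxF (fl f)) v = ∑ k, (GF.eta k : ℂ) • L (pd k (pd k (fl f))) v := by
    rw [boxF_fl, boxS]
    simp only [pd_fl, Fin.sum_univ_four, hadd, hsm]
  unfold GF.tr GF.improve
  simp only [hbox]
  have e : ∀ m, (GF.eta m : ℂ) • (T m m (fl f) v + (GF.eta m * GF.eta m : ℂ) •
      L (pd m (pd m (fl f))) v - (bas m (GF.eta m) m : ℂ) • ∑ k, (GF.eta k : ℂ) •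
        L (pd k (pd k (fl f))) v) = (GF.eta m : ℂ) • T m m (fl f) v +
        (GF.eta m : ℂ) • L (pd m (pd m (fl f))) v - ∑ k, (GF.eta k : ℂ) •
        L (pd k (pd k (fl f))) v := by
    intro m
    have h3 : (GF.eta m * GF.eta m : ℂ) = 1 := by
      rw [← ofReal_mul, eta_sq, ofReal_one]
    have h4 : bas m (GF.eta m) m = GF.eta m := by simp [bas]
    rw [h3, h4, one_smul, smul_sub, smul_add, smul_smul, h3, one_smul]
  simp only [e]
  rw [Finset.sum_sub_distrib, Finset.sum_add_distrib, Finset.sum_const, Finset.card_univ]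
  simp only [Fintype.card_fin]
  push_cast
  module

end Vale.Agent.P352
end
end

section

section

set_option maxSynthPendingDepth 3

open MeasureTheory SchwartzMap Complex Filter Topology
open scoped SchwartzMap ComplexConjugate ENNReal LineDeriv

namespace Vale.Agent.P352

open GF (Ix V Fn Sch ev pd bar sim one bas o)

variable {D : Type*} [NormedAddCommGroup D] [InnerProductSpace ℂ D] {Q : GF.Theory D}

/-- spectral measure of a vector -/
lemma spec_meas (Q : GF.Theory D) (v : D) : ∃ ν : Measure Mink, IsFiniteMeasure ν ∧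
    ν fwdConeᶜ = 0 ∧ ∀ a : Mink, inner ℂ v (Q.U 1 one a.ofLp v) = ∫ p, chr a p ∂ν := by
  obtain ⟨ν, hfin, hcone, hν⟩ := Q.spectrum v
  have hm : Measurable (WithLp.toLp 2 : V → Mink) :=
    (EuclideanSpace.equiv (Fin 4) ℝ).symm.continuous.measurable
  refine ⟨ν.map (WithLp.toLp 2), ?_, ?_, fun a => ?_⟩
  · exact Measure.isFiniteMeasure_map ν _
  · rw [Measure.map_apply hm]
    · rw [ae_iff] at hcone
      refine measure_mono_null ?_ hcone
      intro p hp hcon
      apply hp
      refine ⟨hcon.1, ?_⟩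
      rw [mdot_eq]
      exact hcon.2
    · exact measurableSet_fwdCone.compl
  · rw [hν, integral_map hm.aemeasurable (continuous_chr a).aestronglyMeasurable]
    congr 1
    ext p
    rw [chr, mdot_eq]

lemma integrable_rn (ν μ : Measure Mink) [IsFiniteMeasure ν] [IsFiniteMeasure μ] :
    Integrable (fun p => ((ν.rnDeriv μ p).toReal : ℂ)) μ :=
  Measure.integrable_toReal_rnDeriv.ofReal

lemma cint_rn (ν μ : Measure Mink) [IsFiniteMeasure ν] [IsFiniteMeasure μ] (h : ν ≪ μ) (a : Mink) :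
    cint μ (fun p => ((ν.rnDeriv μ p).toReal : ℂ)) a = ∫ p, chr a p ∂ν := by
  have : SigmaFinite μ := inferInstance
  have : SFinite ν := inferInstance
  have : ν.HaveLebesgueDecomposition μ := Measure.haveLebesgueDecomposition_of_sigmaFinite ν μ
  rw [← integral_rnDeriv_smul h]
  unfold cint
  congr 1
  ext p
  rw [real_smul, mul_comm]

lemma cint_add {μ : Measure Mink} {φ ψ : Mink → ℂ} (hφ : Integrable φ μ) (hψ : Integrable ψ μ)
    (a : Mink) : cint μ (fun p => φ p + ψ p) a = cint μ φ a + cint μ ψ a := by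
  unfold cint
  rw [← integral_add (integrable_chr_mul hφ a) (integrable_chr_mul hψ a)]
  congr 1
  ext p
  ring

lemma cint_smul {μ : Measure Mink} {φ : Mink → ℂ} (c : ℂ)
    (a : Mink) : cint μ (fun p => c * φ p) a = c * cint μ φ a := by
  unfold cint
  rw [← integral_const_mul]
  congr 1
  ext p
  ring

/-- spectral representation of matrix elements -/
lemma spec_rep (Q : GF.Theory D) (x y : D) : ∃ (μ : Measure Mink) (ψ : Mink → ℂ),
    (∀ᵐ p ∂μ, p ∈ fwdCone) ∧ Integrable ψ μ ∧
    ∀ a : Mink, inner ℂ x (Q.U 1 one a.ofLp y) = cint μ ψ a := by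
  obtain ⟨ν0, f0, c0, h0⟩ := spec_meas Q (x + y)
  obtain ⟨ν1, f1, c1, h1⟩ := spec_meas Q (x + I • y)
  obtain ⟨ν2, f2, c2, h2⟩ := spec_meas Q (x + (-1 : ℂ) • y)
  obtain ⟨ν3, f3, c3, h3⟩ := spec_meas Q (x + (-I) • y)
  set μ : Measure Mink := ν0 + ν1 + ν2 + ν3 with hμ
  have a0 : ν0 ≪ μ := by
    intro s hs
    simp only [hμ, Measure.add_apply, add_eq_zero] at hs
    exact hs.1.1.1
  have a1 : ν1 ≪ μ := by
    intro s hs
    simp only [hμ, Measure.add_apply, add_eq_zero] at hs
    exact hs.1.1.2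
  have a2 : ν2 ≪ μ := by
    intro s hs
    simp only [hμ, Measure.add_apply, add_eq_zero] at hs
    exact hs.1.2
  have a3 : ν3 ≪ μ := by
    intro s hs
    simp only [hμ, Measure.add_apply, add_eq_zero] at hs
    exact hs.2
  have i0 := integrable_rn ν0 μ
  have i1 := integrable_rn ν1 μ
  have i2 := integrable_rn ν2 μ
  have i3 := integrable_rn ν3 μ
  have j1 : Integrable (fun p => (-I) * ((ν1.rnDeriv μ p).toReal : ℂ)) μ := i1.const_mul _
  have j2 : Integrable (fun p => (-1) * ((ν2.rnDeriv μ p).toReal : ℂ)) μ := i2.const_mul _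
  have j3 : Integrable (fun p => I * ((ν3.rnDeriv μ p).toReal : ℂ)) μ := i3.const_mul _
  have k1 : Integrable (fun p => ((ν0.rnDeriv μ p).toReal : ℂ) +
    (-I) * ((ν1.rnDeriv μ p).toReal : ℂ)) μ := i0.add j1
  have k2 : Integrable (fun p => (((ν0.rnDeriv μ p).toReal : ℂ) +
    (-I) * ((ν1.rnDeriv μ p).toReal : ℂ)) + (-1) * ((ν2.rnDeriv μ p).toReal : ℂ)) μ := k1.add j2
  refine ⟨μ, fun p => (1 / 4 : ℂ) * (((((ν0.rnDeriv μ p).toReal : ℂ) +
    (-I) * ((ν1.rnDeriv μ p).toReal : ℂ)) + (-1) * ((ν2.rnDeriv μ p).toReal : ℂ)) +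
    I * ((ν3.rnDeriv μ p).toReal : ℂ)), ?_, ?_, fun a => ?_⟩
  · change μ fwdConeᶜ = 0
    simp only [hμ, Measure.coe_add, Pi.add_apply, c0, c1, add_zero, c2, c3]
  · exact (k2.add j3).const_mul _
  · rw [cint_smul, cint_add k2 j3, cint_add k1 j2, cint_add i0 j1,
      cint_smul, cint_smul, cint_smul, cint_rn ν0 μ a0, cint_rn ν1 μ a1, cint_rn ν2 μ a2,
      cint_rn ν3 μ a3, ← h0, ← h1, ← h2, ← h3]
    simp only [U_add one_pos isLor_one, inner_add_right, inner_add_left, U_smul one_pos isLor_one, inner_smul_left, conj_I, inner_smul_right, map_neg, map_one]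
    ring_nf
    simp only [I_sq]
    ring

/-- vectors generated from the vacuum by fields with compactly supported test functions in `W` -/
inductive PW (Q : GF.Theory D) (W : Set Mink) : D → Prop
  | vac : PW Q W Q.vac
  | add {v w : D} : PW Q W v → PW Q W w → PW Q W (v + w)
  | smul (c : ℂ) {v : D} : PW Q W v → PW Q W (c • v)
  | fld {B : GF.Fld D} {g : 𝓢(Mink, ℂ)} {v : D} : Q.fld B → IsTest W g → PW Q W v →
      PW Q W (B (fl g) v)

lemma U_fld {B : GF.Fld D} (hB : Q.fld B) (g : 𝓢(Mink, ℂ)) (a : Mink) (v : D) :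
    Q.U 1 one a.ofLp (B (fl g) v) = B (fl (tauS a g)) (Q.U 1 one a.ofLp v) := by
  rw [Q.transl B a.ofLp _ v hB (isTest_fl _), fl_shift, tauS_tauS]
  congr 3
  ext x
  simp [tauS_apply]

lemma PW.transl {W W' : Set Mink} (a : Mink) (h : ∀ x ∈ W, x + a ∈ W') {v : D}
    (hv : PW Q W v) : PW Q W' (Q.U 1 one a.ofLp v) := by
  induction hv with
  | vac => rw [Q.U_vac 1 one a.ofLp one_pos isLor_one]; exact .vac
  | add _ _ h1 h2 => rw [U_add one_pos isLor_one]; exact .add h1 h2
  | smul c _ h1 => rw [U_smul one_pos isLor_one]; exact .smul c h1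
  | fld hB hg _ h1 => rw [U_fld hB]; exact .fld hB (hg.tauS a h) h1

lemma PW.cancel {W : Set Mink} (a : Mink) {v : D}
    (hv : PW Q W v) : Q.U 1 one (-a).ofLp (Q.U 1 one a.ofLp v) = v := by
  induction hv with
  | vac => rw [Q.U_vac 1 one a.ofLp one_pos isLor_one, Q.U_vac 1 one _ one_pos isLor_one]
  | add _ _ h1 h2 => rw [U_add one_pos isLor_one, U_add one_pos isLor_one, h1, h2]
  | smul c _ h1 => rw [U_smul one_pos isLor_one, U_smul one_pos isLor_one, h1]
  | fld hB hg _ h1 =>
    rw [U_fld hB, U_fld hB, h1, tauS_tauS]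
    congr 2
    ext x
    simp [tauS_apply]

lemma PW.kill {T : Ix → Ix → GF.Fld D} {A : GF.Fld D} {d : ℝ} (hA : PField Q T A d)
    {f : 𝓢(Mink, ℂ)} (hz : A (fl f) Q.vac = 0) {W : Set Mink}
    (hsep : ∀ x ∈ tsupport f, ∀ y ∈ W, mdot (x - y) (x - y) < 0) {v : D} (hv : PW Q W v) :
    A (fl f) v = 0 := by
  induction hv with
  | vac => exact hz
  | add _ _ h1 h2 => rw [hA.addv, h1, h2, add_zero]
  | smul c _ h1 => rw [hA.smulv, h1, smul_zero]
  | @fld B g v hB hg _ h1 =>
    rw [hA.loc _ _ _ _ hB (fun x hx y hy => hsep x hx y (hg.2 hy)), h1]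
    have := fld_smul hB g 0 0
    rw [zero_smul, zero_smul] at this
    exact this

/-- shifted wedges -/
def Wd (c : ℝ) : Set Mink := {x | |x 0| < x 1 - c}

lemma PW.exists_Wd {v : D} (hv : PW Q Set.univ v) : ∃ c0 : ℝ, ∀ c ≤ c0, PW Q (Wd c) v := by
  induction hv with
  | vac => exact ⟨0, fun _ _ => .vac⟩
  | add _ _ h1 h2 =>
    obtain ⟨c1, h1⟩ := h1
    obtain ⟨c2, h2⟩ := h2
    exact ⟨min c1 c2, fun c hc => .add (h1 c (hc.trans (min_le_left _ _)))
      (h2 c (hc.trans (min_le_right _ _)))⟩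
  | smul k _ h1 =>
    obtain ⟨c1, h1⟩ := h1
    exact ⟨c1, fun c hc => .smul k (h1 c hc)⟩
  | @fld B g v hB hg _ h1 =>
    obtain ⟨c1, h1⟩ := h1
    obtain ⟨r, hr0, hr⟩ := exists_ball g hg.1
    refine ⟨min c1 (-(2 * r) - 1), fun c hc => .fld hB ⟨hg.1, fun x hx => ?_⟩
      (h1 c (hc.trans (min_le_left _ _)))⟩
    have h2 := hr x hx 0
    have h3 := hr x hx 1
    have h4 := (abs_le.1 h3).1
    have h5 := hc.trans (min_le_right _ _)
    change |x 0| < x 1 - c
    linarith

/-- wedge Reeh-Schlieder property -/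
lemma PW.rs (c : ℝ) {χ : D} (hχ : ∀ v, PW Q (Wd c) v → inner ℂ χ v = 0) {v : D}
    (hv : PW Q Set.univ v) : inner ℂ χ v = 0 := by
  obtain ⟨c0, hc0⟩ := hv.exists_Wd
  have h1 := hc0 c0 le_rfl
  set b : Mink := (c - c0) • eb 1 with hb
  have b0 : b 0 = 0 := by simp [hb, eb]
  have b1 : b 1 = c - c0 := by simp [hb, eb]
  have h2 : PW Q (Wd c) (Q.U 1 one b.ofLp v) := by
    refine h1.transl b fun x hx => ?_
    have hx' : |x 0| < x 1 - c0 := hx
    change |(x + b) 0| < (x + b) 1 - c
    rw [PiLp.add_apply, PiLp.add_apply, b0, b1, add_zero]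
    linarith only [hx']
  obtain ⟨μ, ψ, hμ, hψ, hrep⟩ := spec_rep Q χ (Q.U 1 one b.ofLp v)
  have h3 := cint_eq_zero_of_wedge hμ hψ (fun a ha => ?_) (-b)
  · rw [← hrep, h1.cancel] at h3
    exact h3
  · rw [← hrep]
    apply hχ
    refine h2.transl a fun x hx => ?_
    have hx' : |x 0| < x 1 - c := hx
    change |(x + a) 0| < (x + a) 1 - c
    rw [PiLp.add_apply, PiLp.add_apply]
    have := abs_add_le (x 0) (a 0)
    linarith only [ha, hx', this]

/-- vectors orthogonal to the local vectors vanish -/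
lemma PW.orth {χ : D} (hχ : ∀ v, PW Q Set.univ v → inner ℂ χ v = 0) : χ = 0 := by
  have hinv : ∀ A f (χ : D), Q.fld A → (∀ v, PW Q Set.univ v → inner ℂ χ v = 0) →
      ∀ v, PW Q Set.univ v → inner ℂ (A (fl f) χ) v = 0 := by
    intro A f χ hA hχ v hv
    obtain ⟨B, hB, hadj⟩ := Q.adj A hA
    rw [hadj _ _ _ (isTest_fl f), bar_fl]
    obtain ⟨g, hg, hlim⟩ := exists_compact_seq (conjS f)
    have hc : Tendsto (fun n => inner ℂ χ (B (fl (g n)) v)) atTop
        (𝓝 (inner ℂ χ (B (fl (conjS f)) v))) :=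
      Filter.Tendsto.inner tendsto_const_nhds (((fld_cont hB v).tendsto _).comp hlim)
    have hz : ∀ n, inner ℂ χ (B (fl (g n)) v) = 0 := fun n =>
      hχ _ (.fld hB ⟨hg n, Set.subset_univ _⟩ hv)
    simp only [hz] at hc
    exact (tendsto_nhds_unique hc tendsto_const_nhds)
  set S : Submodule ℂ D :=
    { carrier := {v | ∀ χ : D, (∀ v, PW Q Set.univ v → inner ℂ χ v = 0) → inner ℂ χ v = 0}
      add_mem' := fun {a b} ha hb χ hχ => by rw [inner_add_right, ha χ hχ, hb χ hχ, add_zero]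
      zero_mem' := fun χ _ => inner_zero_right _
      smul_mem' := fun c v hv χ hχ => by rw [inner_smul_right, hv χ hχ, mul_zero] } with hS
  have hd : Dense (S : Set D) := by
    apply Q.cyclic S
    · intro χ hχ
      exact hχ _ .vac
    · intro A f v hA hf hv χ hχ
      obtain ⟨F, rfl⟩ := exists_fl hf
      obtain ⟨B, hB, hadj⟩ := Q.adj A hA
      rw [← inner_conj_symm, hadj _ _ _ hf, inner_conj_symm, bar_fl]
      exact hv _ (hinv B (conjS F) χ hB hχ)
  exact hd.eq_zero_of_inner_left ℂ fun v hv => hv χ hχ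

/-- A field that annihilates the vacuum vanishes. -/
theorem PField.op_zero {T : Ix → Ix → GF.Fld D} {A : GF.Fld D} {d : ℝ} (hA : PField Q T A d)
    (hz : ∀ f, A (fl f) Q.vac = 0) (f : 𝓢(Mink, ℂ)) (v : D) : A (fl f) v = 0 := by
  have hc : ∀ f : 𝓢(Mink, ℂ), HasCompactSupport f → A (fl f) v = 0 := by
    intro f hf
    obtain ⟨r, hr0, hr⟩ := exists_ball f hf
    apply PW.orth (Q := Q)
    intro w hw
    refine PW.rs (2 * r + 1) (fun u hu => ?_) hw
    rw [hA.herm]
    have : A (fl (conjS f)) u = 0 := by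
      refine hu.kill hA (hz _) ?_
      intro x hx y hy
      have hx' : x ∈ tsupport f := by
        have h1 : tsupport (conjS f) ⊆ tsupport f := by
          refine closure_mono fun z hz => ?_
          simpa only [Function.mem_support, ne_eq, conjS_apply, map_eq_zero] using hz
        exact h1 hx
      have e0 := hr x hx' 0
      have e1 := hr x hx' 1
      have hy' : |y 0| < y 1 - (2 * r + 1) := hy
      have h2 : |x 0 - y 0| < |x 1 - y 1| := by
        have h3 := abs_sub (x 0) (y 0)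
        have h4 := (abs_le.1 e1).2
        have h5 : y 1 - x 1 ≤ |x 1 - y 1| := by
          rw [abs_sub_comm]; exact le_abs_self _
        linarith
      have h3 := sq_lt_sq.2 h2
      simp only [mdot, PiLp.sub_apply]
      nlinarith only [h3]
    rw [this, inner_zero_right]
  obtain ⟨g, hg, hlim⟩ := exists_compact_seq f
  have h1 := ((hA.cont v).tendsto f).comp hlim
  have h2 : ((fun g : 𝓢(Mink, ℂ) => A (fl g) v) ∘ g) = fun _ => 0 := by
    funext n
    exact hc _ (hg n)
  rw [h2] at h1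
  exact (tendsto_nhds_unique h1 tendsto_const_nhds)

end Vale.Agent.P352
end
end

section

section

open MeasureTheory SchwartzMap Complex Filter Topology
open scoped SchwartzMap ComplexConjugate ENNReal

namespace Vale.Agent.P352

open GF (Ix V)

variable {μ : Measure Mink} {d : ℝ}

namespace SymMeasure

variable (S : SymMeasure μ d)
include S

lemma ball (s : ℝ) (hs : 0 < s) : μ (Metric.closedBall 0 s) =
    ENNReal.ofReal (s ^ (2 * d)) * μ (Metric.closedBall 0 1) := by
  rw [← S.scale s hs _ Metric.isClosed_closedBall.measurableSet]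
  congr 1
  ext p
  simp only [Metric.mem_closedBall, dist_zero_right, Set.mem_preimage, norm_smul, norm_inv,
    Real.norm_eq_abs, abs_of_pos hs]
  rw [inv_mul_le_iff₀ hs, mul_one]

lemma temp : μ.HasTemperateGrowth := by
  set n : ℕ := ⌈2 * d⌉₊ + 2 with hn
  have hn2 : 2 * d + 1 < n := by
    have := Nat.le_ceil (2 * d)
    rw [hn]; push_cast; linarith only [this]
  refine ⟨n, ?_⟩
  have hmeas : Continuous fun x : Mink => (1 + ‖x‖) ^ (-(n : ℝ)) := by
    apply Continuous.rpow_const (by fun_prop)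
    intro x
    left
    (clear * -; positivity)
  refine ⟨hmeas.aestronglyMeasurable, ?_⟩
  rw [HasFiniteIntegral]
  have h1 : ∫⁻ x, ‖(1 + ‖x‖) ^ (-(n : ℝ))‖ₑ ∂μ ≤
      ∑' k : ℕ, ENNReal.ofReal (((k : ℝ) + 1) ^ (2 * d - n)) * μ (Metric.closedBall 0 1) := by
    rw [← setLIntegral_univ, ← iUnion_shell, lintegral_iUnion measurableSet_shell shell_disjoint]
    apply ENNReal.tsum_le_tsum
    intro k
    have hk : (0 : ℝ) < (k : ℝ) + 1 := by (clear * -; positivity)
    calc ∫⁻ x in shell k, ‖(1 + ‖x‖) ^ (-(n : ℝ))‖ₑ ∂μ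
        ≤ ∫⁻ x in shell k, ENNReal.ofReal (((k : ℝ) + 1) ^ (-(n : ℝ))) ∂μ := by
          apply setLIntegral_mono' (measurableSet_shell k)
          intro x hx
          have hx1 : (k : ℝ) ≤ ‖x‖ := by
            have h : ⌊‖x‖⌋₊ = k := hx
            rw [← h]
            exact Nat.floor_le (norm_nonneg x)
          rw [← ofReal_norm, Real.norm_of_nonneg (by positivity)]
          apply ENNReal.ofReal_le_ofReal
          apply Real.rpow_le_rpow_of_nonpos hk (by linarith only [hx1])
          simp only [Left.neg_nonpos_iff, Nat.cast_nonneg]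
      _ = ENNReal.ofReal (((k : ℝ) + 1) ^ (-(n : ℝ))) * μ (shell k) := by
          rw [setLIntegral_const]
      _ ≤ ENNReal.ofReal (((k : ℝ) + 1) ^ (-(n : ℝ))) *
          μ (Metric.closedBall 0 ((k : ℝ) + 1)) := by
          gcongr
          intro x hx
          rw [Metric.mem_closedBall, dist_zero_right]
          exact norm_lt_of_shell hx
      _ = ENNReal.ofReal (((k : ℝ) + 1) ^ (2 * d - n)) * μ (Metric.closedBall 0 1) := by
          rw [S.ball _ hk, ← mul_assoc, ← ENNReal.ofReal_mul (by (clear * -; (clear * -; positivity))),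
            ← Real.rpow_add hk]
          congr 3
          ring
  refine lt_of_le_of_lt h1 ?_
  rw [ENNReal.tsum_mul_right]
  apply ENNReal.mul_lt_top _ (S.fin 1)
  have hsum : Summable fun k : ℕ => ((k : ℝ) + 1) ^ (2 * d - n) := by
    have h2 : Summable fun k : ℕ => (k : ℝ) ^ (2 * d - n) := by
      apply Real.summable_nat_rpow.2
      linarith only [hn2]
    have h3 := (summable_nat_add_iff 1).2 h2
    refine h3.congr fun k => ?_
    push_cast
    rfl
  have := hsum.tsum_ofReal_lt_top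
  exact this

lemma good : GoodMeasure μ where
  temp := S.temp
  cone := S.cone
  boost t := by
    rw [← lam_boost]
    exact S.lor _ (isLor_boost t)
  rot := by
    rw [← lam_rot23]
    exact S.lor _ isLor_rot23

omit S in
lemma measurableSet_mass (s : ℝ) : MeasurableSet {p : Mink | mass2 p = s} :=
  continuous_mass2.measurable (measurableSet_singleton s)

lemma null_neg (s : ℝ) (hs : s < 0) : μ {p | mass2 p = s} = 0 := by
  refine measure_mono_null ?_ S.cone
  intro p hp hc
  have h1 : mass2 p = s := hp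
  have h2 : 0 ≤ mass2 p := hc.2
  linarith only [hs, h1, h2]

lemma null_pos (hd : 0 ≤ d) (s : ℝ) (hs : 0 < s) : μ {p | mass2 p = s} = 0 := by
  have key : ∀ R : ℕ, μ ({p | mass2 p = s} ∩ Metric.closedBall 0 (R : ℝ)) = 0 := by
    intro R
    by_contra hne
    set E : Set Mink := {p | mass2 p = s} ∩ Metric.closedBall 0 (R : ℝ) with hE
    have hEm : MeasurableSet E :=
      (measurableSet_mass s).inter Metric.isClosed_closedBall.measurableSet
    set l : ℕ → ℝ := fun j => 1 + 1 / ((j : ℝ) + 1) with hl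
    have hl1 : ∀ j, 1 ≤ l j := by
      intro j; rw [hl]; simp only; have : 0 ≤ 1 / ((j : ℝ) + 1) := by (clear * -; (clear * -; positivity))
      linarith only [this]
    have hl2 : ∀ j, l j ≤ 2 := by
      intro j
      have : 1 / ((j : ℝ) + 1) ≤ 1 := by
        rw [div_le_one (by positivity)]; linarith only []
      simp only [hl]; linarith only [this]
    have hl0 : ∀ j, 0 < l j := fun j => by linarith only [hl1 j, hl1]
    set As : ℕ → Set Mink := fun j => (fun p => (l j)⁻¹ • p) ⁻¹' E with hAs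
    have hmeas : ∀ j, MeasurableSet (As j) := by
      intro j
      have : Measurable fun p : Mink => (l j)⁻¹ • p := by (clear * -; fun_prop)
      exact this hEm
    have hmass : ∀ j p, p ∈ As j → mass2 p = (l j) ^ 2 * s := by
      intro j p hp
      have h1 : mass2 ((l j)⁻¹ • p) = s := hp.1
      have h2 : mass2 ((l j)⁻¹ • p) = ((l j)⁻¹) ^ 2 * mass2 p := by
        unfold mass2
        rw [mdot_smul_left, mdot_smul_right]; ring
      rw [h2] at h1
      have := (hl0 j).ne'
      field_simp at h1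
      linarith only [h1]
    have hdis : Pairwise (Function.onFun Disjoint As) := by
      intro i j hij
      rw [Function.onFun, Set.disjoint_left]
      intro p hpi hpj
      have h1 := hmass i p hpi
      have h2 := hmass j p hpj
      rw [h1] at h2
      have h3 : (l i) ^ 2 = (l j) ^ 2 := mul_right_cancel₀ hs.ne' h2
      have h4 : l i = l j := (pow_left_inj₀ (hl0 i).le (hl0 j).le (by norm_num)).1 h3
      simp only [hl, add_right_inj] at h4
      have h5 : ((i : ℝ) + 1) = (j : ℝ) + 1 := by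
        field_simp at h4
        linarith only [h4]
      apply hij
      exact_mod_cast (add_right_cancel h5)
    have hfin : μ (⋃ j, As j) ≠ ∞ := by
      refine ne_top_of_le_ne_top (S.fin (2 * R)).ne (measure_mono ?_)
      intro p hp
      obtain ⟨j, hj⟩ := Set.mem_iUnion.1 hp
      have h1 : (l j)⁻¹ • p ∈ Metric.closedBall 0 (R : ℝ) := hj.2
      rw [Metric.mem_closedBall, dist_zero_right, norm_smul, norm_inv, Real.norm_eq_abs,
        abs_of_pos (hl0 j), inv_mul_le_iff₀ (hl0 j)] at h1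
      rw [Metric.mem_closedBall, dist_zero_right]
      have := hl2 j
      have hR : (0 : ℝ) ≤ R := Nat.cast_nonneg R
      nlinarith only [h1, this]
    have hge : ∀ j, μ E ≤ μ (As j) := by
      intro j
      rw [hAs]
      simp only
      rw [S.scale (l j) (hl0 j) E hEm]
      have : 1 ≤ ENNReal.ofReal ((l j) ^ (2 * d)) := by
        rw [← ENNReal.ofReal_one]
        apply ENNReal.ofReal_le_ofReal
        exact Real.one_le_rpow (hl1 j) (by linarith only [hd])
      calc μ E = 1 * μ E := (one_mul _).symm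
        _ ≤ _ := by (clear * - this; (clear * - this; gcongr))
    have hf := Measure.finite_const_le_meas_of_disjoint_iUnion μ (pos_iff_ne_zero.2 hne)
      hmeas hdis hfin
    have : {i | μ E ≤ μ (As i)} = Set.univ := by
      ext i; simp only [Set.mem_ofPred_eq, hge i, Set.mem_univ]
    rw [this] at hf
    exact Set.infinite_univ hf
  have hun : {p : Mink | mass2 p = s} =
      ⋃ R : ℕ, {p | mass2 p = s} ∩ Metric.closedBall 0 (R : ℝ) := by
    rw [← Set.inter_iUnion]
    symm
    apply Set.inter_eq_left.2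
    intro p _
    obtain ⟨n, hn⟩ := exists_nat_ge ‖p‖
    exact Set.mem_iUnion.2 ⟨n, by simpa only [Metric.mem_closedBall, dist_zero_right] using hn⟩
  rw [hun]
  exact measure_iUnion_null key

lemma null_origin (hd : 0 < d) : μ {(0 : Mink)} = 0 := by
  have h := S.scale 2 (by norm_num) {(0 : Mink)} (measurableSet_singleton 0)
  have h1 : (fun p : Mink => (2 : ℝ)⁻¹ • p) ⁻¹' {(0 : Mink)} = {(0 : Mink)} := by
    ext p
    simp
  rw [h1] at h
  have hfin : μ {(0 : Mink)} ≠ ∞ :=
    ne_top_of_le_ne_top (S.fin 1).ne (measure_mono (by simp only [Set.singleton_subset_iff,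
                                                         Metric.mem_closedBall, dist_self,
                                                         zero_le_one]))
  by_contra hne
  have h2 : (1 : ℝ≥0∞) < ENNReal.ofReal (2 ^ (2 * d)) := by
    rw [← ENNReal.ofReal_one]
    apply (ENNReal.ofReal_lt_ofReal_iff (by positivity)).2
    exact Real.one_lt_rpow (by norm_num) (by positivity)
  have h3 : μ {(0 : Mink)} < ENNReal.ofReal (2 ^ (2 * d)) * μ {(0 : Mink)} := by
    calc μ {(0 : Mink)} = 1 * μ {(0 : Mink)} := (one_mul _).symm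
      _ < _ := ENNReal.mul_lt_mul_left hne hfin h2
  exact absurd h h3.ne

/-- boxes on the light cone -/
def lbox (x y l : ℝ) : Set Mink :=
  {p | mass2 p = 0 ∧ (1 ≤ p 0 + p 1 ∧ p 0 + p 1 < 2) ∧
    (x * (p 0 + p 1) ≤ p 2 ∧ p 2 < (x + l) * (p 0 + p 1)) ∧
    (y * (p 0 + p 1) ≤ p 3 ∧ p 3 < (y + l) * (p 0 + p 1))}

omit S in
lemma measurableSet_lbox (x y l : ℝ) : MeasurableSet (lbox x y l) := by
  have m0 : Measurable fun p : Mink => p 0 + p 1 := by fun_prop
  have m2 : Measurable fun p : Mink => p 2 := by fun_prop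
  have m3 : Measurable fun p : Mink => p 3 := by fun_prop
  refine (measurableSet_mass 0).inter (MeasurableSet.inter ?_ (MeasurableSet.inter ?_ ?_))
  · exact (measurableSet_le measurable_const m0).inter (measurableSet_lt m0 measurable_const)
  · exact (measurableSet_le (m0.const_mul x) m2).inter (measurableSet_lt m2 (m0.const_mul (x + l)))
  · exact (measurableSet_le (m0.const_mul y) m3).inter (measurableSet_lt m3 (m0.const_mul (y + l)))

lemma lbox_shift2 (x y l b : ℝ) : μ (lbox (x - b) y l) = μ (lbox x y l) := by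
  rw [← (S.lor _ (isLor_null b)).measure_preimage (measurableSet_lbox x y l).nullMeasurableSet]
  congr 1
  ext p
  have e0 : (lam (mNull b) p) 0 + (lam (mNull b) p) 1 = p 0 + p 1 := by
    simp only [Fin.isValue, mNull, lam_apply, Matrix.cons_val', Matrix.cons_val_zero,
      Matrix.cons_val_fin_one, Fin.sum_univ_four, Matrix.cons_val_one, Matrix.cons_val, mul_zero,
      add_zero, mul_neg]; ring
  have e2 : (lam (mNull b) p) 2 = p 2 + b * (p 0 + p 1) := by
    simp only [Fin.isValue, mNull, lam_apply, Matrix.cons_val', Matrix.cons_val,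
      Matrix.cons_val_fin_one, Fin.sum_univ_four, Matrix.cons_val_zero, Matrix.cons_val_one,
      mul_one, mul_zero, add_zero]; ring
  have e3 : (lam (mNull b) p) 3 = p 3 := by
    simp [Fin.sum_univ_four, mNull]
  have em : mass2 (lam (mNull b) p) = mass2 p := mdot_lam (isLor_null b) p p
  simp only [lbox, Set.mem_preimage, Set.mem_ofPred_eq, e0, e2, e3, em]
  constructor
  · rintro ⟨h1, h2, ⟨h3, h4⟩, h5⟩
    exact ⟨h1, h2, ⟨by linarith only [h3], by linarith only [h4]⟩, h5⟩
  · rintro ⟨h1, h2, ⟨h3, h4⟩, h5⟩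
    exact ⟨h1, h2, ⟨by linarith only [h3], by linarith only [h4]⟩, h5⟩

lemma lbox_shift3 (x y l b : ℝ) : μ (lbox x (y - b) l) = μ (lbox x y l) := by
  rw [← (S.lor _ (isLor_null' b)).measure_preimage (measurableSet_lbox x y l).nullMeasurableSet]
  congr 1
  ext p
  have e0 : (lam (mNull' b) p) 0 + (lam (mNull' b) p) 1 = p 0 + p 1 := by
    simp only [Fin.isValue, mNull', lam_apply, Matrix.cons_val', Matrix.cons_val_zero,
      Matrix.cons_val_fin_one, Fin.sum_univ_four, Matrix.cons_val_one, Matrix.cons_val, mul_zero,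
      add_zero, mul_neg]; ring
  have e2 : (lam (mNull' b) p) 2 = p 2 := by
    simp only [Fin.isValue, mNull', lam_apply, Matrix.cons_val', Matrix.cons_val, Matrix.cons_val_fin_one, Fin.sum_univ_four, Matrix.cons_val_zero, mul_zero, Matrix.cons_val_one, add_zero, mul_one, zero_add]
  have e3 : (lam (mNull' b) p) 3 = p 3 + b * (p 0 + p 1) := by
    simp only [Fin.isValue, mNull', lam_apply, Matrix.cons_val', Matrix.cons_val,
      Matrix.cons_val_fin_one, Fin.sum_univ_four, Matrix.cons_val_zero, Matrix.cons_val_one,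
      mul_zero, add_zero, mul_one]; ring
  have em : mass2 (lam (mNull' b) p) = mass2 p := mdot_lam (isLor_null' b) p p
  simp only [lbox, Set.mem_preimage, Set.mem_ofPred_eq, e0, e2, e3, em]
  constructor
  · rintro ⟨h1, h2, h5, ⟨h3, h4⟩⟩
    exact ⟨h1, h2, h5, ⟨by linarith only [h3], by linarith only [h4]⟩⟩
  · rintro ⟨h1, h2, h5, ⟨h3, h4⟩⟩
    exact ⟨h1, h2, h5, ⟨by linarith only [h3], by linarith only [h4]⟩⟩

omit S in
/-- the boost that multiplies `p⁰ + p¹` by `s` -/
lemma boost_sum (s : ℝ) (hs : 0 < s) (p : Mink) :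
    (lam (mBoost (Real.log s)) p) 0 + (lam (mBoost (Real.log s)) p) 1 = s * (p 0 + p 1) := by
  have h : Real.cosh (Real.log s) + Real.sinh (Real.log s) = s := by
    rw [Real.cosh_add_sinh, Real.exp_log hs]
  simp only [Fin.isValue, mBoost, lam_apply, Matrix.cons_val', Matrix.cons_val_zero, Matrix.cons_val_fin_one, Fin.sum_univ_four, Matrix.cons_val_one, Matrix.cons_val, mul_zero, add_zero]
  linear_combination (p 0 + p 1) * h

lemma lbox_half : μ (lbox 0 0 (1 / 2)) =
    ENNReal.ofReal ((1 / 2) ^ (2 * d)) * μ (lbox 0 0 1) := by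
  rw [← S.scale (1 / 2) (by norm_num) _ (measurableSet_lbox 0 0 1)]
  have hm : MeasurableSet ((fun p : Mink => (1 / 2 : ℝ)⁻¹ • p) ⁻¹' lbox 0 0 1) := by
    have : Measurable fun p : Mink => (1 / 2 : ℝ)⁻¹ • p := by (clear * -; fun_prop)
    exact this (measurableSet_lbox 0 0 1)
  rw [← (S.lor _ (isLor_boost (Real.log (1 / 2)))).measure_preimage hm.nullMeasurableSet]
  congr 1
  ext p
  have e0 := boost_sum (1 / 2) (by norm_num) p
  set q := lam (mBoost (Real.log (1 / 2))) p with hq
  have e2 : q 2 = p 2 := by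
    rw [hq]; simp only [Fin.isValue, mBoost, one_div, Real.log_inv, Real.cosh_neg, Real.sinh_neg,
               lam_apply, Matrix.cons_val', Matrix.cons_val, Matrix.cons_val_fin_one,
               Fin.sum_univ_four, Matrix.cons_val_zero, mul_zero, Matrix.cons_val_one, add_zero,
               mul_one, zero_add]
  have e3 : q 3 = p 3 := by
    rw [hq]; simp only [Fin.isValue, mBoost, one_div, Real.log_inv, Real.cosh_neg, Real.sinh_neg, lam_apply, Matrix.cons_val', Matrix.cons_val, Matrix.cons_val_fin_one, Fin.sum_univ_four, Matrix.cons_val_zero, mul_zero, Matrix.cons_val_one, add_zero, mul_one, zero_add]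
  have em : mass2 q = mass2 p := mdot_lam (isLor_boost _) p p
  have es : mass2 ((1 / 2 : ℝ)⁻¹ • q) = 4 * mass2 q := by
    unfold mass2
    rw [mdot_smul_left, mdot_smul_right]; ring
  simp only [lbox, Set.mem_ofPred_eq, Set.mem_preimage]
  rw [es, em]
  simp only [PiLp.smul_apply, smul_eq_mul, e2, e3]
  have e4 : (1 / 2 : ℝ)⁻¹ * q 0 + (1 / 2 : ℝ)⁻¹ * q 1 = p 0 + p 1 := by
    rw [← mul_add, e0]; ring
  rw [e4]
  constructor
  · rintro ⟨h1, h2, ⟨h3, h4⟩, ⟨h5, h6⟩⟩
    exact ⟨by linarith only [h1], h2, ⟨by linarith only [e2, h3], by linarith only [e2, h4]⟩, ⟨by linarith only [e3, h5], by linarith only [e3, h6]⟩⟩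
  · rintro ⟨h1, h2, ⟨h3, h4⟩, ⟨h5, h6⟩⟩
    exact ⟨by linarith only [h1], h2, ⟨by linarith only [e2, h3], by linarith only [e2, h4]⟩, ⟨by linarith only [e3, h5], by linarith only [e3, h6]⟩⟩

lemma lbox_finite : μ (lbox 0 0 1) ≠ ∞ := by
  refine ne_top_of_le_ne_top (S.fin 8).ne (measure_mono ?_)
  rintro p ⟨h1, ⟨h2, h3⟩, ⟨h4, h5⟩, ⟨h6, h7⟩⟩
  rw [Metric.mem_closedBall, dist_zero_right]
  have hm : (p 0 - p 1) * (p 0 + p 1) = p 2 ^ 2 + p 3 ^ 2 := by
    unfold mass2 mdot at h1
    linarith only [h1]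
  have a2 : 0 ≤ p 2 := by linarith only [h4]
  have b2 : p 2 ≤ 2 := by nlinarith only [h3, h5]
  have a3 : 0 ≤ p 3 := by linarith only [h6]
  have b3 : p 3 ≤ 2 := by nlinarith only [h3, h7]
  have c1 : 0 ≤ p 0 - p 1 := by
    by_contra hcon
    push Not at hcon
    nlinarith only [h2, hm, hcon]
  have c2 : p 0 - p 1 ≤ 8 := by
    by_contra hcon
    push Not at hcon
    nlinarith only [h2, h3, h4, h5, h6, h7, hm, c1, hcon]
  have hn := norm_sq_mink p
  have : ‖p‖ ^ 2 ≤ 8 ^ 2 := by
    rw [hn]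
    nlinarith only [h2, h3, hm, c1, c2]
  exact le_of_sq_le_sq this (by norm_num)

lemma lbox_null (hd : 1 < d) : μ (lbox 0 0 1) = 0 := by
  have hcov : lbox 0 0 1 ⊆ (lbox 0 0 (1 / 2) ∪ lbox 0 (1 / 2) (1 / 2)) ∪
      (lbox (1 / 2) 0 (1 / 2) ∪ lbox (1 / 2) (1 / 2) (1 / 2)) := by
    rintro p ⟨h1, h2, ⟨h3, h4⟩, ⟨h5, h6⟩⟩
    by_cases ha : p 2 < 1 / 2 * (p 0 + p 1)
    · left
      by_cases hb : p 3 < 1 / 2 * (p 0 + p 1)
      · left
        exact ⟨h1, h2, ⟨by linarith only [h3], by linarith only [ha]⟩, ⟨by linarith only [h5], by linarith only [hb]⟩⟩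
      · right
        push Not at hb
        exact ⟨h1, h2, ⟨by linarith only [h3], by linarith only [ha]⟩, ⟨by linarith only [hb], by linarith only [h6]⟩⟩
    · right
      push Not at ha
      by_cases hb : p 3 < 1 / 2 * (p 0 + p 1)
      · left
        exact ⟨h1, h2, ⟨by linarith only [ha], by linarith only [h4]⟩, ⟨by linarith only [h5], by linarith only [hb]⟩⟩
      · right
        push Not at hb
        exact ⟨h1, h2, ⟨by linarith only [ha], by linarith only [h4]⟩, ⟨by linarith only [hb], by linarith only [h6]⟩⟩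
  have e1 : μ (lbox 0 (1 / 2) (1 / 2)) = μ (lbox 0 0 (1 / 2)) := by
    have := S.lbox_shift3 0 (1 / 2) (1 / 2) (1 / 2)
    rw [sub_self] at this
    exact this.symm
  have e2 : μ (lbox (1 / 2) 0 (1 / 2)) = μ (lbox 0 0 (1 / 2)) := by
    have := S.lbox_shift2 (1 / 2) 0 (1 / 2) (1 / 2)
    rw [sub_self] at this
    exact this.symm
  have e3 : μ (lbox (1 / 2) (1 / 2) (1 / 2)) = μ (lbox 0 0 (1 / 2)) := by
    have := S.lbox_shift2 (1 / 2) (1 / 2) (1 / 2) (1 / 2)
    rw [sub_self, e1] at this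
    exact this.symm
  set m := μ (lbox 0 0 1) with hm
  set c := ENNReal.ofReal ((1 / 2) ^ (2 * d)) with hc
  have hle : m ≤ (c * m + c * m) + (c * m + c * m) := by
    calc m ≤ _ := measure_mono hcov
      _ ≤ _ := measure_union_le _ _
      _ ≤ (μ (lbox 0 0 (1 / 2)) + μ (lbox 0 (1 / 2) (1 / 2))) +
          (μ (lbox (1 / 2) 0 (1 / 2)) + μ (lbox (1 / 2) (1 / 2) (1 / 2))) := by
        gcongr <;> exact measure_union_le _ _
      _ = _ := by rw [e1, e2, e3, S.lbox_half]
  by_contra hne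
  have hc4 : 4 * c < 1 := by
    have h1 : (4 : ℝ≥0∞) = ENNReal.ofReal 4 := by norm_num
    rw [hc, h1, ← ENNReal.ofReal_mul (by norm_num), ← ENNReal.ofReal_one]
    apply (ENNReal.ofReal_lt_ofReal_iff (by norm_num)).2
    have h2 : ((1 : ℝ) / 2) ^ (2 * d) < (1 / 2) ^ (2 : ℝ) := by
      apply Real.rpow_lt_rpow_of_exponent_gt (by norm_num) (by norm_num)
      linarith only [hd]
    have h3 : ((1 : ℝ) / 2) ^ (2 : ℝ) = 1 / 4 := by norm_num
    linarith only [h2]
  have h5 : (c * m + c * m) + (c * m + c * m) = (4 * c) * m := by ring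
  rw [h5] at hle
  have h6 : (4 * c) * m < 1 * m := ENNReal.mul_lt_mul_left hne S.lbox_finite hc4
  rw [one_mul] at h6
  exact absurd hle (not_le.2 h6)

lemma lbox_null' (hd : 1 < d) (x y : ℝ) : μ (lbox x y 1) = 0 := by
  have h1 := S.lbox_shift2 x y 1 x
  have h2 := S.lbox_shift3 0 y 1 y
  rw [sub_self] at h1 h2
  rw [← h1, ← h2]
  exact S.lbox_null hd

lemma strip_null (hd : 1 < d) :
    μ {p | mass2 p = 0 ∧ (1 ≤ p 0 + p 1 ∧ p 0 + p 1 < 2)} = 0 := by
  have hcov : {p : Mink | mass2 p = 0 ∧ (1 ≤ p 0 + p 1 ∧ p 0 + p 1 < 2)} ⊆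
      ⋃ i : ℤ, ⋃ j : ℤ, lbox i j 1 := by
    rintro p ⟨h1, h2⟩
    have hp : 0 < p 0 + p 1 := by linarith only [h2]
    refine Set.mem_iUnion.2 ⟨⌊p 2 / (p 0 + p 1)⌋, Set.mem_iUnion.2 ⟨⌊p 3 / (p 0 + p 1)⌋, ?_⟩⟩
    refine ⟨h1, h2, ⟨?_, ?_⟩, ⟨?_, ?_⟩⟩
    · rw [← le_div_iff₀ hp]; exact Int.floor_le _
    · rw [← div_lt_iff₀ hp]; exact Int.lt_floor_add_one _
    · rw [← le_div_iff₀ hp]; exact Int.floor_le _
    · rw [← div_lt_iff₀ hp]; exact Int.lt_floor_add_one _
  refine measure_mono_null hcov ?_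
  exact measure_iUnion_null fun i => measure_iUnion_null fun j => S.lbox_null' hd i j

lemma plus_null (hd : 1 < d) : μ {p | mass2 p = 0 ∧ 0 < p 0 + p 1} = 0 := by
  have hcov : {p : Mink | mass2 p = 0 ∧ 0 < p 0 + p 1} ⊆
      ⋃ k : ℤ, lam (mBoost (Real.log ((2 : ℝ) ^ (-k)))) ⁻¹'
        {p | mass2 p = 0 ∧ (1 ≤ p 0 + p 1 ∧ p 0 + p 1 < 2)} := by
    rintro p ⟨h1, h2⟩
    obtain ⟨k, hk1, hk2⟩ := exists_mem_Ico_zpow h2 (by norm_num : (1 : ℝ) < 2)
    refine Set.mem_iUnion.2 ⟨k, ?_⟩
    have hpos : (0 : ℝ) < 2 ^ k := by positivity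
    have hpos' : (0 : ℝ) < 2 ^ (-k) := by positivity
    refine ⟨?_, ?_⟩
    · have em : mass2 (lam (mBoost (Real.log ((2 : ℝ) ^ (-k)))) p) = mass2 p :=
        mdot_lam (isLor_boost _) p p
      rw [em, h1]
    · rw [boost_sum _ hpos']
      rw [zpow_neg]
      constructor
      · rw [le_inv_mul_iff₀ hpos]; linarith only [hk1]
      · rw [inv_mul_lt_iff₀ hpos]
        rw [zpow_add₀ (by norm_num), zpow_one] at hk2
        linarith only [hk2]
  refine measure_mono_null hcov (measure_iUnion_null fun k => ?_)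
  exact (S.lor _ (isLor_boost _)).quasiMeasurePreserving.preimage_null (S.strip_null hd)

lemma null_zero (hd : 1 < d) : μ {p | mass2 p = 0} = 0 := by
  have hcov : {p : Mink | mass2 p = 0} ⊆ ((fwdConeᶜ ∪ {0}) ∪ {p | mass2 p = 0 ∧ 0 < p 0 + p 1}) ∪
      lam mRot12 ⁻¹' {p | mass2 p = 0 ∧ 0 < p 0 + p 1} := by
    intro p hp
    have hp' : mass2 p = 0 := hp
    by_cases hc : p ∈ fwdCone
    · have h1 := abs_le.1 (abs_le_of_mem_fwdCone hc)
      by_cases hpos : 0 < p 0 + p 1
      · left; right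
        exact ⟨hp', hpos⟩
      · push Not at hpos
        have h2 : p 0 + p 1 = 0 := le_antisymm hpos (by linarith only [h1])
        by_cases h0 : p 0 = 0
        · left; left; right
          have h3 : p 1 = 0 := by linarith only [h1, h0]
          unfold mass2 mdot at hp'
          rw [h0, h3] at hp'
          have h4 : p 2 = 0 := by nlinarith only [hp']
          have h5 : p 3 = 0 := by nlinarith only [hp']
          apply mink_ext <;> simp [h0, h3, h4, h5]
        · right
          refine ⟨?_, ?_⟩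
          · have em : mass2 (lam mRot12 p) = mass2 p := mdot_lam isLor_rot12 p p
            rw [em, hp']
          · have e0 : (lam mRot12 p) 0 = p 0 := by simp only [Fin.isValue, mRot12, lam_apply, Matrix.cons_val', Matrix.cons_val_zero, Matrix.cons_val_fin_one, Fin.sum_univ_four, mul_one, Matrix.cons_val_one, mul_zero, add_zero, Matrix.cons_val]
            have e1 : (lam mRot12 p) 1 = - p 1 := by simp only [Fin.isValue, mRot12, lam_apply,
                                                       Matrix.cons_val', Matrix.cons_val_one,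
                                                       Matrix.cons_val_zero,
                                                       Matrix.cons_val_fin_one, Fin.sum_univ_four,
                                                       mul_zero, mul_neg, mul_one, zero_add,
                                                       Matrix.cons_val, add_zero]
            rw [e0, e1]
            have h6 : 0 < p 0 := lt_of_le_of_ne hc.1 (Ne.symm h0)
            linarith only [hpos, h6]
    · left; left; left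
      exact hc
  refine measure_mono_null hcov ?_
  refine measure_union_null (measure_union_null (measure_union_null S.cone
    (S.null_origin (by (clear * - hd; linarith)))) (S.plus_null hd)) ?_
  exact (S.lor _ isLor_rot12).quasiMeasurePreserving.preimage_null (S.plus_null hd)

lemma null (hd : 1 < d) (s : ℝ) : μ {p | mass2 p = s} = 0 := by
  rcases lt_trichotomy s 0 with h | h | h
  · exact S.null_neg s h
  · rw [h]; exact S.null_zero hd
  · exact S.null_pos (by linarith only [hd]) s h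

end SymMeasure

end Vale.Agent.P352
end
end

section

section

open MeasureTheory SchwartzMap Complex Filter Topology
open scoped SchwartzMap ComplexConjugate ENNReal

namespace Vale.Agent.P352

open GF (Ix V)

variable {μ : Measure Mink} {d : ℝ}

/-- an isometry with its properties -/
def GoodIso (μ : Measure Mink) (f : Mink ≃ₗᵢ[ℝ] Mink) : Prop :=
  (∀ x y, mdot (f x) (f y) = mdot x y) ∧ MeasurePreserving f μ μ ∧ ∀ x, (f x) 0 = x 0

lemma GoodIso.comp {f g : Mink ≃ₗᵢ[ℝ] Mink} (hf : GoodIso μ f) (hg : GoodIso μ g) :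
    GoodIso μ (f.trans g) := by
  refine ⟨fun x y => ?_, ?_, fun x => ?_⟩
  · simp [hg.1, hf.1]
  · exact hg.2.1.comp hf.2.1
  · simp [hg.2.2, hf.2.2]

/-- isometry from a matrix -/
noncomputable def isoOf (L : Ix → V) (hL : GF.IsLor L) (hn : ∀ x, ‖lam L x‖ = ‖x‖) :
    Mink ≃ₗᵢ[ℝ] Mink where
  toLinearEquiv := LinearEquiv.ofInjectiveEndo (lamL L) (lam_injective hL)
  norm_map' x := hn x

lemma norm_eq_of_sq {x y : Mink} (h : x 0 ^ 2 + x 1 ^ 2 + x 2 ^ 2 + x 3 ^ 2 =
    y 0 ^ 2 + y 1 ^ 2 + y 2 ^ 2 + y 3 ^ 2) : ‖x‖ = ‖y‖ := by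
  have h1 := norm_sq_mink x
  have h2 := norm_sq_mink y
  exact (pow_left_inj₀ (norm_nonneg _) (norm_nonneg _) (by norm_num : (2 : ℕ) ≠ 0)).1
    (by rw [h1, h2, h])

/-- cyclic permutation -/
noncomputable def isoCyc : Mink ≃ₗᵢ[ℝ] Mink :=
  isoOf mCyc isLor_cyc fun x => by
    apply norm_eq_of_sq
    simp only [Fin.isValue, mCyc, lam_apply, Matrix.cons_val', Matrix.cons_val_zero,
      Matrix.cons_val_fin_one, Fin.sum_univ_four, mul_one, Matrix.cons_val_one, mul_zero,
      add_zero, Matrix.cons_val, zero_add]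
    ring

/-- reflection of the axes 1 and 2 -/
noncomputable def isoRot : Mink ≃ₗᵢ[ℝ] Mink :=
  isoOf mRot12 isLor_rot12 fun x => by
    apply norm_eq_of_sq
    simp only [Fin.isValue, mRot12, lam_apply, Matrix.cons_val', Matrix.cons_val_zero,
      Matrix.cons_val_fin_one, Fin.sum_univ_four, mul_one, Matrix.cons_val_one, mul_zero,
      add_zero, Matrix.cons_val, mul_neg, zero_add, even_two, Even.neg_pow]

lemma isoCyc_apply (x : Mink) : isoCyc x = lam mCyc x := rfl

lemma isoRot_apply (x : Mink) : isoRot x = lam mRot12 x := rfl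

lemma goodIso_cyc (S : SymMeasure μ d) : GoodIso μ isoCyc := by
  refine ⟨fun x y => mdot_lam isLor_cyc x y, S.lor _ isLor_cyc, fun x => ?_⟩
  rw [isoCyc_apply]
  simp only [Fin.isValue, mCyc, lam_apply, Matrix.cons_val', Matrix.cons_val_zero, Matrix.cons_val_fin_one, Fin.sum_univ_four, mul_one, Matrix.cons_val_one, mul_zero, add_zero, Matrix.cons_val]

lemma goodIso_rot (S : SymMeasure μ d) : GoodIso μ isoRot := by
  refine ⟨fun x y => mdot_lam isLor_rot12 x y, S.lor _ isLor_rot12, fun x => ?_⟩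
  rw [isoRot_apply]
  simp only [Fin.isValue, mRot12, lam_apply, Matrix.cons_val', Matrix.cons_val_zero,
    Matrix.cons_val_fin_one, Fin.sum_univ_four, mul_one, Matrix.cons_val_one, mul_zero, add_zero,
    Matrix.cons_val]

lemma goodIso_refl : GoodIso μ (LinearIsometryEquiv.refl ℝ Mink) :=
  ⟨fun _ _ => rfl, MeasurePreserving.id μ, fun _ => rfl⟩

lemma wed_of_good {f : Mink ≃ₗᵢ[ℝ] Mink} (hf : GoodIso μ f) {i : Fin 4} {σ : ℝ}
    (h : ∀ x, (f x) 1 = σ * x i) : ∃ e : Mink ≃ₗᵢ[ℝ] Mink,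
    (∀ x y, mdot (e x) (e y) = mdot x y) ∧ MeasurePreserving e μ μ ∧
    (∀ x, (e.symm x) 0 = x 0) ∧ (∀ x, (e.symm x) 1 = σ * x i) := by
  refine ⟨f.symm, fun x y => ?_, ?_, fun x => ?_, fun x => ?_⟩
  · rw [← hf.1, f.apply_symm_apply, f.apply_symm_apply]
  · have : MeasurePreserving (f.toHomeomorph.toMeasurableEquiv) μ μ := hf.2.1
    exact this.symm
  · exact hf.2.2 x
  · exact h x

lemma wed (S : SymMeasure μ d) (i : Fin 4) (hi : i ≠ 0) (σ : ℝ) (hσ : σ = 1 ∨ σ = -1) :
    ∃ e : Mink ≃ₗᵢ[ℝ] Mink,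
    (∀ x y, mdot (e x) (e y) = mdot x y) ∧ MeasurePreserving e μ μ ∧
    (∀ x, (e.symm x) 0 = x 0) ∧ (∀ x, (e.symm x) 1 = σ * x i) := by
  have c1 : ∀ x : Mink, (isoCyc x) 1 = x 3 := by
    intro x; rw [isoCyc_apply]; simp [Fin.sum_univ_four, mCyc]
  have c3 : ∀ x : Mink, (isoCyc x) 3 = x 2 := by
    intro x; rw [isoCyc_apply]; simp [Fin.sum_univ_four, mCyc]
  have r1 : ∀ x : Mink, (isoRot x) 1 = - x 1 := by
    intro x; rw [isoRot_apply]; simp only [Fin.isValue, mRot12, lam_apply, Matrix.cons_val', Matrix.cons_val_one, Matrix.cons_val_zero, Matrix.cons_val_fin_one, Fin.sum_univ_four, mul_zero, mul_neg, mul_one, zero_add, Matrix.cons_val, add_zero]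
  have gc := goodIso_cyc S
  have gr := goodIso_rot S
  fin_cases i
  · exact absurd rfl hi
  · rcases hσ with rfl | rfl
    · exact wed_of_good goodIso_refl (fun x => by simp)
    · exact wed_of_good gr (fun x => by rw [r1]; simp only [Fin.isValue, Fin.mk_one, neg_mul, one_mul])
  · rcases hσ with rfl | rfl
    · exact wed_of_good (gc.comp gc) (fun x => by
        rw [LinearIsometryEquiv.trans_apply, c1, c3]; simp)
    · exact wed_of_good ((gc.comp gc).comp gr) (fun x => by
        rw [LinearIsometryEquiv.trans_apply, r1, LinearIsometryEquiv.trans_apply, c1, c3]; simp)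
  · rcases hσ with rfl | rfl
    · exact wed_of_good gc (fun x => by rw [c1]; simp)
    · exact wed_of_good (gc.comp gr) (fun x => by
        rw [LinearIsometryEquiv.trans_apply, r1, c1]; simp)

section

variable {F : Type*} [NormedAddCommGroup F] [InnerProductSpace ℂ F] [CompleteSpace F]

/-- The spectral measure of a Lorentz and dilation covariant scalar field. -/
theorem SpecData.sym {κ : 𝓢(Mink, ℂ) → F} {ν : 𝓢(Mink, ℂ) → Measure Mink} (S : SpecData κ ν)
    {d : ℝ}
    (hlor : ∀ L (hL : GF.IsLor L) f g, inner ℂ (κ f) (κ g) =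
      inner ℂ (κ (compLam hL f)) (κ (compLam hL g)))
    (hscale : ∀ s (hs : 0 < s) f g, inner ℂ (κ f) (κ g) =
      (((s ^ (4 - d)) ^ 2 : ℝ) : ℂ) * inner ℂ (κ (scaleS s hs.ne' f)) (κ (scaleS s hs.ne' g))) :
    ∃ μ : Measure Mink, SymMeasure μ d ∧ ∀ g, ν g = μ.withDensity (dens g) := by
  obtain ⟨μ, hcone, hμ⟩ := S.exists_KL
  refine ⟨μ, ⟨hcone, ?_, ?_, ?_⟩, hμ⟩
  · intro L hL
    have h := S.inv_measure hμ (lam L) (continuous_lam L).measurable 1 1 zero_le_one
      (compLam hL) (lamE hL).symm (compLam_tauS hL)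
      (fun f g => by rw [hlor L hL]; simp)
      (fun g p => by rw [mft_compLam]; simp)
      (fun a p => chr_lam_symm hL a p)
    refine ⟨(continuous_lam L).measurable, ?_⟩
    have h2 : μ = μ.map (lam L) := by simpa only [one_pow, mul_one, ENNReal.ofReal_one,
                                        one_smul] using h
    exact h2.symm
  · intro s hs B hB
    have hM : Measurable fun p : Mink => s⁻¹ • p := by (clear * -; fun_prop)
    have h := S.inv_measure hμ (fun p => s⁻¹ • p) hM ((s ^ (4 - d)) ^ 2) ((s ^ 4)⁻¹)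
      (by positivity) (scaleS s hs.ne') (fun a => s⁻¹ • a) (scaleS_tauS s hs.ne')
      (hscale s hs) (mft_scaleS s hs) (chr_smul s)
    have e1 : (s ^ (4 - d)) ^ 2 * ((s ^ 4)⁻¹) ^ 2 = s ^ (-(2 * d)) := by
      have h4 : (s ^ (4 : ℕ) : ℝ) = s ^ (4 : ℝ) := by norm_cast
      rw [← mul_pow, h4, ← Real.rpow_neg hs.le, ← Real.rpow_add hs, ← Real.rpow_natCast,
        ← Real.rpow_mul hs.le]
      congr 1
      push_cast
      ring
    rw [e1] at h
    have h2 : μ B = ENNReal.ofReal (s ^ (-(2 * d))) * μ ((fun p => s⁻¹ • p) ⁻¹' B) := by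
      conv_lhs => rw [h]
      rw [Measure.smul_apply, Measure.map_apply hM hB, smul_eq_mul]
    rw [h2, ← mul_assoc, ← ENNReal.ofReal_mul (by (clear * - hs; positivity)), ← Real.rpow_add hs]
    simp only [add_neg_cancel, Real.rpow_zero, ENNReal.ofReal_one, one_mul]
  · intro R
    obtain ⟨f, hf, hne⟩ := exists_test_ne_zero (W := (Set.univ : Set Mink)) isOpen_univ
      ⟨0, trivial⟩ R
    have hfin := S.fin f
    have hcont : Continuous (mft f) := continuous_mft f
    by_cases hR : (Metric.closedBall (0 : Mink) R).Nonempty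
    · obtain ⟨p0, hp0, hmin⟩ := (isCompact_closedBall (0 : Mink) R).exists_isMinOn hR
        hcont.norm.continuousOn
      set c := ‖mft f p0‖ with hc
      have hc0 : 0 < c := by
        rw [hc]
        exact norm_pos_iff.2 (hne p0 (by simpa only [Metric.mem_closedBall,
                                           dist_zero_right] using hp0))
      have h1 : ENNReal.ofReal (c ^ 2) * μ (Metric.closedBall 0 R) ≤ ν f Set.univ := by
        rw [hμ f, withDensity_apply _ MeasurableSet.univ, ← setLIntegral_const, setLIntegral_univ]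
        refine (setLIntegral_mono' Metric.isClosed_closedBall.measurableSet ?_).trans
          (setLIntegral_le_lintegral _ _)
        intro p hp
        unfold dens
        rw [← ofReal_norm, ← ENNReal.ofReal_pow (norm_nonneg _)]
        apply ENNReal.ofReal_le_ofReal
        gcongr
        exact hmin hp
      have h2 : ENNReal.ofReal (c ^ 2) * μ (Metric.closedBall 0 R) < ∞ :=
        lt_of_le_of_lt h1 (measure_lt_top _ _)
      by_contra hcon
      have h3 : μ (Metric.closedBall 0 R) = ∞ := by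
        rw [not_lt, top_le_iff] at hcon
        exact hcon
      rw [h3, ENNReal.mul_top (by simpa only [ne_eq, ENNReal.ofReal_eq_zero,
                                    _root_.sq_nonpos_iff] using hc0.ne')] at h2
      exact lt_irrefl _ h2
    · rw [Set.not_nonempty_iff_eq_empty] at hR
      rw [hR]; simp

end

end Vale.Agent.P352
end
end

section

section

set_option maxSynthPendingDepth 3

open MeasureTheory SchwartzMap Complex Filter Topology
open scoped SchwartzMap ComplexConjugate ENNReal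

namespace Vale.Agent.P352

variable {F : Type*} [NormedAddCommGroup F] [InnerProductSpace ℂ F]

lemma tauS_zero' (g : 𝓢(Mink, ℂ)) : tauS 0 g = g := by
  ext x
  simp [tauS_apply]

lemma chr_zero' (p : Mink) : chr 0 p = 1 := by
  simp [chr, mdot]

theorem SpecData.two [CompleteSpace F] {κ : 𝓢(Mink, ℂ) →ₗ[ℂ] F} {ν : 𝓢(Mink, ℂ) → Measure Mink}
    (S : SpecData (fun g => κ g) ν) {μ : Measure Mink} (hμ : μ.HasTemperateGrowth)
    (h : ∀ g, ν g = μ.withDensity (dens g)) (f g : 𝓢(Mink, ℂ)) :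
    inner ℂ (κ f) (κ g) = ∫ p, conj (mft f p) * mft g p ∂μ := by
  have hn : ∀ g, ‖κ g‖ = ‖toL hμ g‖ := by
    intro g
    have hfin := S.fin g
    have h1 := S.spec g 0
    rw [tauS_zero'] at h1
    simp only [chr_zero', h g] at h1
    rw [integral_withDensity_eq_integral_toReal_smul (measurable_dens g)
      (Eventually.of_forall fun p => lt_top_iff_ne_top.2 (dens_ne_top g p))] at h1
    have h2 := inner_toL_toL hμ g g
    have e : ∀ p, conj (mft g p) * mft g p = (dens g p).toReal • (1 : ℂ) := by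
      intro p
      have : (dens g p).toReal = ‖mft g p‖ ^ 2 := by
        unfold dens
        rw [ENNReal.toReal_pow, toReal_enorm]
      rw [this, real_smul, mul_comm (conj _), mul_conj, normSq_eq_norm_sq]
      push_cast
      ring
    simp_rw [e] at h2
    rw [← h1] at h2
    rw [inner_self_eq_norm_sq_to_K, inner_self_eq_norm_sq_to_K] at h2
    have h3 : ‖toL hμ g‖ ^ 2 = ‖κ g‖ ^ 2 := by exact_mod_cast h2
    exact ((pow_left_inj₀ (norm_nonneg _) (norm_nonneg _) (by norm_num)).1 h3).symm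
  rw [← inner_toL_toL hμ, inner_eq_sum_norm_sq_div_four, inner_eq_sum_norm_sq_div_four]
  simp only [← map_add, ← map_sub, ← map_smul, hn]

end Vale.Agent.P352
end
end

section

section

set_option maxSynthPendingDepth 3

open MeasureTheory SchwartzMap Complex Filter Topology
open scoped SchwartzMap ComplexConjugate ENNReal LineDeriv

namespace Vale.Agent.P352

variable {μ : Measure Mink}
variable {D : Type*} [NormedAddCommGroup D] [InnerProductSpace ℂ D]

/-- far wedge `x₁ > |x₀| + b` -/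
lemma mem_far {b : ℝ} {x : Mink} :
    x ∈ gw (LinearIsometryEquiv.refl ℝ Mink) (b • eb 1) ↔ |x 0| < x 1 - b := by
  change |(x - b • eb 1) 0| < (x - b • eb 1) 1 ↔ _
  simp [eb]

lemma prodS_supp {u : Fin 4 → CS} {x : Mink} (hx : prodS u x ≠ 0) (j : Fin 4) :
    (u j).f (x j) ≠ 0 := by
  intro hj
  apply hx
  rw [prodS_apply]
  unfold prodF
  fin_cases j <;> simp_all

lemma etaC_supp {t : ℝ} (h : etaC.f t ≠ 0) : |t| ≤ 4 := by
  by_contra hcon
  apply h
  have h' : t < -4 ∨ 4 < t := by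
    by_contra hcon2
    push Not at hcon2
    exact hcon (abs_le.2 ⟨hcon2.1, hcon2.2⟩)
  change Real.smoothTransition (t + 4) * Real.smoothTransition (4 - t) = 0
  rcases h' with h' | h'
  · rw [Real.smoothTransition.zero_of_nonpos (by linarith : t + 4 ≤ 0), zero_mul]
  · rw [Real.smoothTransition.zero_of_nonpos (by linarith : 4 - t ≤ 0), mul_zero]

lemma F1_supp {R : ℝ} (h0 : R ≠ 0) (hR : 0 < R) {x : Mink} (hx : F1 R h0 x ≠ 0) :
    |x 0| ≤ 1 ∧ |x 1| ≤ 4 * R := by
  refine ⟨alphaC_supp (prodS_supp hx 0), ?_⟩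
  have h1 := prodS_supp hx 1
  have h2 : |R⁻¹ * x 1| ≤ 4 := etaC_supp h1
  rw [abs_mul, abs_inv, abs_of_pos hR, inv_mul_le_iff₀ hR] at h2
  (clear * - h2; linarith)

lemma spSep_far {R : ℝ} (h0 : R ≠ 0) (hR : 0 < R) {b : ℝ} (hb : 1 + 4 * R ≤ b) {f : 𝓢(Mink, ℂ)}
    (hf : IsTest (gw (LinearIsometryEquiv.refl ℝ Mink) (b • eb 1)) f) : SpSep (F1 R h0) f := by
  have hFt : ∀ x ∈ tsupport (F1 R h0), |x 0| ≤ 1 ∧ |x 1| ≤ 4 * R := by
    have hcl : IsClosed {x : Mink | |x 0| ≤ 1 ∧ |x 1| ≤ 4 * R} := by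
      have c0 : Continuous fun x : Mink => |x 0| := by fun_prop
      have c1 : Continuous fun x : Mink => |x 1| := by fun_prop
      exact (isClosed_le c0 continuous_const).inter (isClosed_le c1 continuous_const)
    intro x hx
    exact closure_minimal (s := Function.support (F1 R h0)) (fun y hy => F1_supp h0 hR hy) hcl hx
  intro x hx y hy
  obtain ⟨h1, h2⟩ := hFt x hx
  have h3 := mem_far.1 (hf.2 hy)
  have h2' := abs_le.1 h2
  have h4 : |x 0 - y 0| < |x 1 - y 1| := by
    have h5 := abs_sub (x 0) (y 0)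
    have : y 1 - x 1 ≤ |x 1 - y 1| := by rw [abs_sub_comm]; exact le_abs_self _
    linarith
  have h6 := sq_lt_sq.2 h4
  simp only [mdot, PiLp.sub_apply]
  nlinarith only [h6]

lemma measurePreserving_refl : MeasurePreserving (LinearIsometryEquiv.refl ℝ Mink) μ μ :=
  MeasurePreserving.id μ

/-- `p⁰ f^` as a Fourier transform -/
lemma mft_P0 (f : 𝓢(Mink, ℂ)) (p : Mink) :
    mft (I • (∂_{eb 0} f : 𝓢(Mink, ℂ))) p = (p 0 : ℂ) * mft f p := by
  rw [mft_smul, mft_lineDeriv]
  have : mdot p (eb 0) = p 0 := by simp [mdot, eb]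
  rw [this]
  linear_combination (-(p 0 : ℂ) * mft f p) * I_sq

lemma inner_P0 (hμ : μ.HasTemperateGrowth) (f g : 𝓢(Mink, ℂ)) (S : Set ℝ)
    (hS : MeasurableSet S) :
    inner ℂ (proj S hS (toL hμ g)) (toL hμ (I • (∂_{eb 0} f : 𝓢(Mink, ℂ)))) =
      inner ℂ (proj S hS (toL hμ (I • (∂_{eb 0} g : 𝓢(Mink, ℂ))))) (toL hμ f) := by
  rw [inner_proj_left, inner_proj_left]
  apply integral_congr_ae
  filter_upwards [coeFn_toL hμ f, coeFn_toL hμ g, coeFn_toL hμ (I • (∂_{eb 0} f : 𝓢(Mink, ℂ))),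
    coeFn_toL hμ (I • (∂_{eb 0} g : 𝓢(Mink, ℂ)))] with p h1 h2 h3 h4
  rw [h1, h2, h3, h4, mft_P0, mft_P0, map_mul, conj_ofReal]
  ring

namespace CoreData

variable {Ω : D} {A : 𝓢(Mink, ℂ) →ₗ[ℂ] D →ₗ[ℂ] D} {T : Fin 4 → 𝓢(Mink, ℂ) →ₗ[ℂ] D →ₗ[ℂ] D}
  (G : CoreData Ω A μ T)
include G

/-- The commutator relation on the far wedge. -/
lemma far_rel (g : 𝓢(Mink, ℂ)) {R : ℝ} (h0 : R ≠ 0) (hR : 0 < R)
    {b : ℝ} (hb : 1 + 4 * R ≤ b) (S : Set ℝ) (hS : MeasurableSet S)
    (f : 𝓢(Mink, ℂ)) (hf : IsTest (gw (LinearIsometryEquiv.refl ℝ Mink) (b • eb 1)) f)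
    (hZ : G.Z f (proj S hS (toL G.good.temp g)) (proj S hS (toL G.good.temp (conjS g))) 0
      (F1 R h0) = inner ℂ (toL G.good.temp (I • (∂_{eb 0} f : 𝓢(Mink, ℂ))))
        (proj S hS (toL G.good.temp g))) :
    inner ℂ ((T 0 (F1 R h0) Ω : D) : UniformSpace.Completion D)
      (G.toGFData.bMap (toL G.good.temp (conjS f)) (proj S hS (toL G.good.temp g))) -
    inner ℂ (G.toGFData.bMap (proj S hS (toL G.good.temp (conjS g))) (toL G.good.temp f))
      ((T 0 (F1 R h0) Ω : D) : UniformSpace.Completion D) =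
    inner ℂ (toL G.good.temp (I • (∂_{eb 0} f : 𝓢(Mink, ℂ))))
      (proj S hS (toL G.good.temp g)) := by
  rw [← hZ, G.Z_apply, conjS_F1, G.loc 0 (F1 R h0) f (spSep_far h0 hR hb hf),
    G.toGFData.inner_A_iMap f]
  have : inner ℂ ((T 0 (F1 R h0) Ω : D) : UniformSpace.Completion D)
      (Ω : UniformSpace.Completion D) = inner ℂ (Ω : UniformSpace.Completion D)
      ((T 0 (F1 R h0) Ω : D) : UniformSpace.Completion D) := by
    rw [UniformSpace.Completion.inner_coe, UniformSpace.Completion.inner_coe, G.hermT, conjS_F1]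
  rw [this]
  ring

/-- The relation with spectral projections in both arguments. -/
lemma far_rel_proj (g : 𝓢(Mink, ℂ)) {R : ℝ} (h0 : R ≠ 0) (hR : 0 < R)
    {b : ℝ} (hb : 1 + 4 * R ≤ b) (S : Set ℝ) (hS : MeasurableSet S)
    (hZ : ∀ f, IsTest (gw (LinearIsometryEquiv.refl ℝ Mink) (b • eb 1)) f →
      G.Z f (proj S hS (toL G.good.temp g)) (proj S hS (toL G.good.temp (conjS g))) 0
      (F1 R h0) = inner ℂ (toL G.good.temp (I • (∂_{eb 0} f : 𝓢(Mink, ℂ))))
        (proj S hS (toL G.good.temp g)))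
    (f : 𝓢(Mink, ℂ)) (hf : IsTest (gw (LinearIsometryEquiv.refl ℝ Mink) (b • eb 1)) f) :
    inner ℂ (proj S hS (toL G.good.temp (I • (∂_{eb 0} g : 𝓢(Mink, ℂ))))) (toL G.good.temp f) =
    inner ℂ (G.toGFData.bMap (proj S hS (toL G.good.temp (conjS f)))
      (proj S hS (toL G.good.temp g))) ((T 0 (F1 R h0) Ω : D) : UniformSpace.Completion D) -
    inner ℂ ((T 0 (F1 R h0) Ω : D) : UniformSpace.Completion D)
      (G.toGFData.bMap (proj S hS (toL G.good.temp (conjS g))) (proj S hS (toL G.good.temp f))) := by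
  set X : UniformSpace.Completion D := ((T 0 (F1 R h0) Ω : D) : UniformSpace.Completion D) with hX
  set u := proj S hS (toL G.good.temp g) with hu
  set v := proj S hS (toL G.good.temp (conjS g)) with hv
  set w := proj S hS (toL G.good.temp (I • (∂_{eb 0} g : 𝓢(Mink, ℂ)))) with hw
  have key := gw_dual_abs G.good (LinearIsometryEquiv.refl ℝ Mink) (fun _ _ => rfl)
    measurePreserving_refl (b • eb 1)
    (ContinuousLinearMap.adjoint (G.toGFData.bMap v) X + w)
    (ContinuousLinearMap.adjoint (G.toGFData.bMap.flip u) X)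
    (by
      intro f' hf'
      rw [inner_add_left, ContinuousLinearMap.adjoint_inner_left,
        ContinuousLinearMap.adjoint_inner_right, ContinuousLinearMap.flip_apply]
      have h1 := G.far_rel g h0 hR hb S hS f' hf' (hZ f' hf')
      have h2 := congrArg conj h1
      rw [map_sub, inner_conj_symm, inner_conj_symm, inner_conj_symm, inner_P0] at h2
      rw [hw, ← h2]
      ring) S hS f hf
  rw [inner_add_left, ContinuousLinearMap.adjoint_inner_left,
    ContinuousLinearMap.adjoint_inner_right, ContinuousLinearMap.flip_apply, hw,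
    inner_proj_self] at key
  rw [← key]
  ring

end CoreData

end Vale.Agent.P352
end
end

section

section

set_option maxSynthPendingDepth 3

open MeasureTheory SchwartzMap Complex Filter Topology
open scoped SchwartzMap ComplexConjugate ENNReal LineDeriv

namespace Vale.Agent.P352

variable {μ : Measure Mink}
variable {D : Type*} [NormedAddCommGroup D] [InnerProductSpace ℂ D]

/-- the spectral measure of the mass operator in the state `u` -/
noncomputable def massM (u : Lp ℂ 2 μ) : Measure ℝ :=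
  (μ.withDensity fun p => ‖u p‖ₑ ^ (2 : ℝ)).map mass2

lemma massM_apply (u : Lp ℂ 2 μ) {S : Set ℝ} (hS : MeasurableSet S) :
    massM u S = ‖proj S hS u‖ₑ ^ (2 : ℝ) := by
  have hmS : MeasurableSet (mass2 ⁻¹' S) := hS.preimage continuous_mass2.measurable
  have h1 : ‖proj S hS u‖ₑ ^ (2 : ℝ) = ∫⁻ p, ‖proj S hS u p‖ₑ ^ (2 : ℝ) ∂μ := by
    have h2 : ‖proj S hS u‖ₑ = eLpNorm (proj S hS u) 2 μ := Lp.enorm_def _
    have h3 := eLpNorm_nnreal_pow_eq_lintegral (μ := μ) (f := (proj S hS u : Mink → ℂ))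
      (p := 2) (by norm_num)
    rw [h2]
    simpa only [ENNReal.rpow_ofNat, ENNReal.coe_ofNat, NNReal.coe_ofNat] using h3
  rw [h1, massM, Measure.map_apply continuous_mass2.measurable hS, withDensity_apply _ hmS,
    ← lintegral_indicator hmS]
  apply lintegral_congr_ae
  filter_upwards [coeFn_proj S hS u] with p hp
  rw [hp]
  by_cases h : mass2 p ∈ S
  · have h' : p ∈ mass2 ⁻¹' S := h
    rw [Set.indicator_of_mem h']
    simp [ind, h]
  · have h' : p ∉ mass2 ⁻¹' S := h
    rw [Set.indicator_of_notMem h']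
    simp [ind, h]

lemma isFiniteMeasure_massM (u : Lp ℂ 2 μ) : IsFiniteMeasure (massM u) := by
  constructor
  rw [massM_apply u MeasurableSet.univ]
  exact ENNReal.rpow_lt_top_of_nonneg (by norm_num) enorm_ne_top

lemma massM_singleton (hnull : ∀ s, μ {p | mass2 p = s} = 0) (u : Lp ℂ 2 μ) (s : ℝ) :
    massM u {s} = 0 := by
  rw [massM, Measure.map_apply continuous_mass2.measurable (measurableSet_singleton s)]
  have : μ (mass2 ⁻¹' {s}) = 0 := hnull s
  exact withDensity_absolutelyContinuous _ _ this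

/-- small partitions for two vectors -/
lemma exists_small_partition (hnull : ∀ s, μ {p | mass2 p = s} = 0) (a a' : Lp ℂ 2 μ)
    {ε : ℝ} (hε : 0 < ε) : ∃ (n : ℕ) (q : ℝ → ℕ) (hq : Measurable q), (∀ s, q s < n) ∧
      (∀ j, ‖proj (q ⁻¹' {j}) (hq (measurableSet_singleton j)) a‖ ≤ ε) ∧
      (∀ j, ‖proj (q ⁻¹' {j}) (hq (measurableSet_singleton j)) a'‖ ≤ ε) := by
  have h1 := isFiniteMeasure_massM a
  have h2 := isFiniteMeasure_massM a'
  obtain ⟨n, q, hq, hn, hle⟩ := exists_partition (massM a + massM a')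
    (fun s => by
      rw [Measure.add_apply, massM_singleton hnull, massM_singleton hnull, add_zero])
    (ENNReal.ofReal (ε ^ 2)) (by simpa only [ENNReal.ofReal_pos] using pow_pos hε 2)
  have hgen : ∀ (u : Lp ℂ 2 μ) (j : ℕ), massM u (q ⁻¹' {j}) ≤ ENNReal.ofReal (ε ^ 2) →
      ‖proj (q ⁻¹' {j}) (hq (measurableSet_singleton j)) u‖ ≤ ε := by
    intro u j h
    rw [massM_apply u (hq (measurableSet_singleton j))] at h
    have h3 : ‖proj (q ⁻¹' {j}) (hq (measurableSet_singleton j)) u‖ₑ ^ (2 : ℝ) =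
        ENNReal.ofReal (‖proj (q ⁻¹' {j}) (hq (measurableSet_singleton j)) u‖ ^ 2) := by
      rw [← ofReal_norm, ENNReal.ofReal_rpow_of_nonneg (norm_nonneg _) (by norm_num)]
      norm_num
    rw [h3, ENNReal.ofReal_le_ofReal_iff (by positivity)] at h
    exact le_of_sq_le_sq h hε.le
  refine ⟨n, q, hq, hn, fun j => hgen a j ?_, fun j => hgen a' j ?_⟩
  · exact le_trans (by rw [Measure.add_apply]; exact le_self_add) (hle j)
  · exact le_trans (by rw [Measure.add_apply]; exact le_add_self) (hle j)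

lemma sum_ind {n : ℕ} {q : ℝ → ℕ} (hn : ∀ s, q s < n) (p : Mink) :
    ∑ j ∈ Finset.range n, ind (q ⁻¹' {j}) p = 1 := by
  rw [Finset.sum_eq_single (q (mass2 p))]
  · simp [ind]
  · intro j _ hj
    have : mass2 p ∉ q ⁻¹' {j} := fun h => hj (Eq.symm h)
    exact if_neg this
  · intro h
    exact absurd (Finset.mem_range.2 (hn _)) h

lemma sum_inner_proj {n : ℕ} {q : ℝ → ℕ} (hq : Measurable q) (hn : ∀ s, q s < n)
    (u v : Lp ℂ 2 μ) :
    ∑ j ∈ Finset.range n, inner ℂ (proj (q ⁻¹' {j}) (hq (measurableSet_singleton j)) u) v =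
      inner ℂ u v := by
  simp only [inner_proj_left]
  rw [← integral_finsetSum]
  · rw [L2.inner_def]
    apply integral_congr_ae
    refine Eventually.of_forall fun p => ?_
    simp only [← Finset.sum_mul]
    rw [← ofReal_sum, sum_ind hn]
    simp only [ofReal_one, one_mul, RCLike.inner_apply]
    ring
  · intro j _
    have h1 : Integrable (fun p => conj (u p) * v p) μ :=
      (Lp.memLp u).star.integrable_mul (Lp.memLp v)
    refine h1.norm.mono' ?_ (Eventually.of_forall fun p => ?_)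
    · exact ((measurable_ofReal.comp (measurable_ind (hq (measurableSet_singleton j))
        ))).aestronglyMeasurable.mul h1.aestronglyMeasurable
    · rw [norm_mul, norm_real]
      calc _ ≤ 1 * ‖conj (u p) * v p‖ := by gcongr; exact abs_ind_le _ _
        _ = _ := one_mul _

lemma sum_norm_proj {n : ℕ} {q : ℝ → ℕ} (hq : Measurable q) (hn : ∀ s, q s < n)
    (u : Lp ℂ 2 μ) :
    ∑ j ∈ Finset.range n, ‖proj (q ⁻¹' {j}) (hq (measurableSet_singleton j)) u‖ ^ 2 =
      ‖u‖ ^ 2 := by
  have h : ∑ j ∈ Finset.range n,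
      inner ℂ (proj (q ⁻¹' {j}) (hq (measurableSet_singleton j)) u)
        (proj (q ⁻¹' {j}) (hq (measurableSet_singleton j)) u) = inner ℂ u u := by
    rw [← sum_inner_proj hq hn u u]
    apply Finset.sum_congr rfl
    intro j _
    rw [inner_proj_self]
  simp only [inner_self_eq_norm_sq_to_K] at h
  have h2 := h
  simp only [coe_algebraMap] at h2
  exact_mod_cast h2

namespace GFData

variable {Ω : D} {A : 𝓢(Mink, ℂ) →ₗ[ℂ] D →ₗ[ℂ] D} (G : GFData Ω A μ)
include G

lemma norm_sum_bMap {n : ℕ} {q : ℝ → ℕ} (hq : Measurable q) (hn : ∀ s, q s < n)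
    (a b : Lp ℂ 2 μ) {ε : ℝ} (hε : 0 < ε)
    (ha : ∀ j, ‖proj (q ⁻¹' {j}) (hq (measurableSet_singleton j)) a‖ ≤ ε) :
    ‖∑ j ∈ Finset.range n, G.bMap (proj (q ⁻¹' {j}) (hq (measurableSet_singleton j)) a)
      (proj (q ⁻¹' {j}) (hq (measurableSet_singleton j)) b)‖ ≤ 2 * ε * ‖b‖ := by
  set pa : ℕ → Lp ℂ 2 μ := fun j => proj (q ⁻¹' {j}) (hq (measurableSet_singleton j)) a with hpa
  set pb : ℕ → Lp ℂ 2 μ := fun j => proj (q ⁻¹' {j}) (hq (measurableSet_singleton j)) b with hpb
  set V := ∑ j ∈ Finset.range n, G.bMap (pa j) (pb j) with hV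
  have hdis : ∀ j k, j ≠ k → Disjoint (q ⁻¹' {j}) (q ⁻¹' {k}) := by
    intro j k hjk
    apply Disjoint.preimage
    simpa using hjk
  have hin : inner ℂ V V = ∑ j ∈ Finset.range n,
      (inner ℂ (pa j) (pa j) * inner ℂ (pb j) (pb j) +
        inner ℂ (pb j) (pa j) * inner ℂ (pa j) (pb j)) := by
    rw [hV, sum_inner]
    apply Finset.sum_congr rfl
    intro j hj
    rw [inner_sum, Finset.sum_eq_single j]
    · rw [G.inner_bMap]
    · intro k _ hk
      have e1 : inner ℂ (pa j) (pa k) = 0 := inner_proj_disjoint _ _ _ _ (hdis j k hk.symm) a a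
      have e2 : inner ℂ (pb j) (pa k) = 0 := inner_proj_disjoint _ _ _ _ (hdis j k hk.symm) b a
      rw [G.inner_bMap, e1, e2]
      ring
    · intro h; exact absurd hj h
  have hle : ‖inner ℂ V V‖ ≤ ∑ j ∈ Finset.range n, 2 * ε ^ 2 * ‖pb j‖ ^ 2 := by
    rw [hin]
    apply norm_sum_le_of_le
    intro j _
    calc _ ≤ ‖pa j‖ * ‖pa j‖ * (‖pb j‖ * ‖pb j‖) + ‖pb j‖ * ‖pa j‖ * (‖pa j‖ * ‖pb j‖) := by
          refine (norm_add_le _ _).trans ?_
          rw [norm_mul, norm_mul]
          gcongr <;> exact norm_inner_le_norm _ _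
      _ = 2 * ‖pa j‖ ^ 2 * ‖pb j‖ ^ 2 := by ring
      _ ≤ 2 * ε ^ 2 * ‖pb j‖ ^ 2 := by gcongr; exact ha j
  rw [← Finset.mul_sum, sum_norm_proj hq hn b] at hle
  have h3 : ‖V‖ ^ 2 ≤ (2 * ε * ‖b‖) ^ 2 := by
    have h4 : ‖inner ℂ V V‖ = ‖V‖ ^ 2 := by
      rw [inner_self_eq_norm_sq_to_K]
      simp
    rw [h4] at hle
    nlinarith only [hle]
  exact le_of_sq_le_sq h3 (by (clear * - hε; positivity))

end GFData

namespace CoreData

variable {Ω : D} {A : 𝓢(Mink, ℂ) →ₗ[ℂ] D →ₗ[ℂ] D} {T : Fin 4 → 𝓢(Mink, ℂ) →ₗ[ℂ] D →ₗ[ℂ] D}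
  (G : CoreData Ω A μ T)
include G

lemma energy_zero (g : 𝓢(Mink, ℂ)) (hg : HasCompactSupport g) :
    toL G.good.temp (I • (∂_{eb 0} g : 𝓢(Mink, ℂ))) = 0 := by
  obtain ⟨r, hr0, hr⟩ := exists_ball g hg
  set R : ℝ := r + 1 with hRdef
  have h0 : R ≠ 0 := by (clear * - hr0; positivity)
  have hR0 : 0 < R := by positivity
  have hR1 : 1 ≤ R := by linarith only [hr0]
  have hR2 : 2 * r + 1 ≤ 2 * R := by linarith
  set b : ℝ := 1 + 4 * R with hb
  set X : UniformSpace.Completion D := ((T 0 (F1 R h0) Ω : D) : UniformSpace.Completion D) with hX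
  have hmain : ∀ f, IsTest (gw (LinearIsometryEquiv.refl ℝ Mink) (b • eb 1)) f →
      inner ℂ (toL G.good.temp (I • (∂_{eb 0} g : 𝓢(Mink, ℂ)))) (toL G.good.temp f) = 0 := by
    intro f hf
    have hrel : ∀ (S : Set ℝ) (hS : MeasurableSet S),
        inner ℂ (proj S hS (toL G.good.temp (I • (∂_{eb 0} g : 𝓢(Mink, ℂ)))))
          (toL G.good.temp f) =
        inner ℂ (G.toGFData.bMap (proj S hS (toL G.good.temp (conjS f)))
          (proj S hS (toL G.good.temp g))) X -
        inner ℂ X (G.toGFData.bMap (proj S hS (toL G.good.temp (conjS g)))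
          (proj S hS (toL G.good.temp f))) := by
      intro S hS
      exact G.far_rel_proj g h0 hR0 le_rfl S hS
        (fun f' hf' => G.Z_inner f' g hf'.1 hg hr S hS h0 hR1 hR2) f hf
    set K : ℝ := 2 * ‖toL G.good.temp g‖ * ‖X‖ + ‖X‖ * (2 * ‖toL G.good.temp f‖) with hK
    have hK0 : 0 ≤ K := by (clear * - G; (clear * - G; positivity))
    have hbound : ∀ ε : ℝ, 0 < ε →
        ‖inner ℂ (toL G.good.temp (I • (∂_{eb 0} g : 𝓢(Mink, ℂ)))) (toL G.good.temp f)‖ ≤
          ε * K := by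
      intro ε hε
      obtain ⟨n, q, hq, hn, h1, h2⟩ := exists_small_partition G.null
        (toL G.good.temp (conjS f)) (toL G.good.temp (conjS g)) hε
      rw [← sum_inner_proj hq hn]
      simp_rw [hrel]
      rw [Finset.sum_sub_distrib, ← sum_inner, ← inner_sum]
      have e1 := G.toGFData.norm_sum_bMap hq hn _ (toL G.good.temp g) hε h1
      have e2 := G.toGFData.norm_sum_bMap hq hn _ (toL G.good.temp f) hε h2
      refine (norm_sub_le _ _).trans ?_
      calc _ ≤ (2 * ε * ‖toL G.good.temp g‖) * ‖X‖ + ‖X‖ * (2 * ε * ‖toL G.good.temp f‖) := by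
            gcongr
            · exact (norm_inner_le_norm _ _).trans (by (clear * - G hq e1; gcongr))
            · exact (norm_inner_le_norm _ _).trans (by (clear * - G hq e2; gcongr))
        _ = ε * K := by rw [hK]; ring
    rw [← norm_eq_zero]
    apply le_antisymm _ (norm_nonneg _)
    apply le_of_forall_pos_le_add
    intro δ hδ
    have := hbound (δ / (K + 1)) (by (clear * - G hδ; (clear * - hδ G; positivity)))
    refine this.trans ?_
    rw [zero_add, div_mul_eq_mul_div, div_le_iff₀ (by (clear * - G; positivity))]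
    nlinarith only [hδ]
  set w := toL G.good.temp (I • (∂_{eb 0} g : 𝓢(Mink, ℂ))) with hw
  have hz : (fun p => conj (w p)) =ᵐ[μ] 0 := by
    apply rs_gw G.good (LinearIsometryEquiv.refl ℝ Mink) (fun _ _ => rfl)
      measurePreserving_refl (b • eb 1) _ (Lp.memLp w).star
    intro f hf
    have h1 := hmain f hf
    rw [L2.inner_def] at h1
    rw [← h1]
    apply integral_congr_ae
    filter_upwards [coeFn_toL G.good.temp f] with p hp
    rw [hp]
    rfl
  rw [Lp.eq_zero_iff_ae_eq_zero]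
  filter_upwards [hz] with p hp
  simpa using hp

lemma measure_zero : μ = 0 := by
  have h1 : ∀ g : 𝓢(Mink, ℂ), HasCompactSupport g → ∀ᵐ p ∂μ, (p 0 : ℂ) * mft g p = 0 := by
    intro g hg
    have h := G.energy_zero g hg
    rw [Lp.eq_zero_iff_ae_eq_zero] at h
    filter_upwards [h, coeFn_toL G.good.temp (I • (∂_{eb 0} g : 𝓢(Mink, ℂ)))] with p hp1 hp2
    rw [hp2, mft_P0] at hp1
    simpa only [Fin.isValue, mul_eq_zero, ofReal_eq_zero, Pi.zero_apply] using hp1
  choose f hf hne using fun n : ℕ => exists_test_ne_zero isOpen_wedge wedge_nonempty (n : ℝ)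
  have h2 := ae_all_iff.2 fun n => h1 (f n) (hf n).1
  have h3 : ∀ᵐ p ∂μ, mass2 p = 0 := by
    filter_upwards [h2, ae_cone G.good] with p hp hc
    obtain ⟨n, hn⟩ := exists_nat_ge ‖p‖
    have h4 := hp n
    rcases mul_eq_zero.1 h4 with h | h
    · have hp0 : p 0 = 0 := ofReal_eq_zero.1 h
      have h5 := hc.2
      unfold mass2
      simp only [mdot, hp0] at h5 ⊢
      nlinarith only [h5]
    · exact absurd h (hne n p hn)
  have h4 : μ {p | mass2 p = 0} = 0 := G.null 0
  rw [← Measure.measure_univ_eq_zero]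
  have h5 : (Set.univ : Set Mink) ⊆ {p | mass2 p = 0} ∪ {p | ¬ mass2 p = 0} := by
    intro p _
    exact em _
  exact measure_mono_null h5 (measure_union_null h4 (ae_iff.1 h3))

/-- The core theorem: the field annihilates the vacuum. -/
theorem vac_zero (f : 𝓢(Mink, ℂ)) : A f Ω = 0 := by
  have h := G.two f f
  rw [G.measure_zero] at h
  simpa only [inner_self_eq_norm_sq_to_K, coe_algebraMap, integral_zero_measure, ne_eq,
    OfNat.ofNat_ne_zero, not_false_eq_true, pow_eq_zero_iff, ofReal_eq_zero, norm_eq_zero] using h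

end CoreData

end Vale.Agent.P352
end
end

section

section

set_option maxSynthPendingDepth 3

open MeasureTheory SchwartzMap Complex Filter Topology
open scoped SchwartzMap ComplexConjugate ENNReal LineDeriv

namespace Vale.Agent.P352

open GF (Ix V Fn Sch ev pd bar sim one bas o)

variable {D : Type*} [NormedAddCommGroup D] [InnerProductSpace ℂ D] {Q : GF.Theory D}
  {T : Ix → Ix → GF.Fld D} {A : GF.Fld D} {d : ℝ}

/-- typed operator valued distribution -/
noncomputable def PField.op (hA : PField Q T A d) : 𝓢(Mink, ℂ) →ₗ[ℂ] D →ₗ[ℂ] D :=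
  LinearMap.mk₂ ℂ (fun f v => A (fl f) v)
    (fun f g v => by
      have := hA.lin f g 1 v
      simpa only [one_smul] using this)
    (fun c f v => by
      have h0 : A (fl 0) v = 0 := by
        have h2 := hA.lin 0 0 1 v
        simp only [smul_zero, add_zero, one_smul] at h2
        simpa using h2
      have h1 := hA.lin 0 f c v
      rw [zero_add] at h1
      rw [h1, h0, zero_add])
    (fun f v w => hA.addv f v w)
    (fun c f v => hA.smulv f c v)

lemma PField.op_apply (hA : PField Q T A d) (f : 𝓢(Mink, ℂ)) (v : D) :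
    hA.op f v = A (fl f) v := rfl

/-- typed stress tensor component -/
noncomputable def stOp (hT : Q.IsStress T) (ν : Ix) : 𝓢(Mink, ℂ) →ₗ[ℂ] D →ₗ[ℂ] D :=
  LinearMap.mk₂ ℂ (fun f v => T ν o (fl f) v)
    (fun f g v => by
      have := fld_lin (Q.bose_fld _ (hT.bose ν o)) f g 1 v
      simpa only [one_smul] using this)
    (fun c f v => by
      have hf := Q.bose_fld _ (hT.bose ν o)
      have h0 : T ν o (fl 0) v = 0 := by
        have h2 := fld_lin hf 0 0 1 v
        simp only [smul_zero, add_zero, one_smul] at h2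
        simpa using h2
      have h1 := fld_lin hf 0 f c v
      rw [zero_add] at h1
      rw [h1, h0, zero_add])
    (fun f v w => fld_add (Q.bose_fld _ (hT.bose ν o)) f v w)
    (fun c f v => fld_smul (Q.bose_fld _ (hT.bose ν o)) f c v)

lemma stOp_apply (hT : Q.IsStress T) (ν : Ix) (f : 𝓢(Mink, ℂ)) (v : D) :
    stOp hT ν f v = T ν o (fl f) v := rfl

/-- vector valued distribution in the Hilbert space -/
noncomputable def PField.kap (hA : PField Q T A d) :
    𝓢(Mink, ℂ) →L[ℂ] UniformSpace.Completion D where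
  toLinearMap := (UniformSpace.Completion.toComplₗᵢ (𝕜 := ℂ) (E := D)).toLinearMap ∘ₗ
    (LinearMap.applyₗ Q.vac ∘ₗ hA.op)
  cont := by
    have := hA.cont Q.vac
    exact (UniformSpace.Completion.continuous_coe D).comp this

lemma PField.kap_apply (hA : PField Q T A d) (f : 𝓢(Mink, ℂ)) :
    hA.kap f = ((A (fl f) Q.vac : D) : UniformSpace.Completion D) := rfl

lemma PField.inner_kap (hA : PField Q T A d) (f g : 𝓢(Mink, ℂ)) :
    inner ℂ (hA.kap f) (hA.kap g) = inner ℂ (A (fl f) Q.vac) (A (fl g) Q.vac) := by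
  rw [hA.kap_apply, hA.kap_apply, UniformSpace.Completion.inner_coe]

/-- covariance on the vacuum -/
lemma PField.cov_vac (hA : PField Q T A d) (s : ℝ) (hs : 0 < s) {L : Ix → V} (hL : GF.IsLor L)
    (a : V) (f : 𝓢(Mink, ℂ)) : A (fl f) Q.vac =
      ((s ^ (4 - d) : ℝ) : ℂ) • Q.U s L a (A (fl (simS s hs hL a f)) Q.vac) := by
  have := hA.cov s hs L hL a f Q.vac
  rwa [Q.U_vac s L a hs hL] at this

lemma simS_tauS (a : Mink) (g : 𝓢(Mink, ℂ)) :
    simS 1 one_pos isLor_one a.ofLp (tauS a g) = g := by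
  ext x
  rw [simS_apply, sim_one, tauS_apply]
  congr 1
  ext n
  simp

lemma simS_lam {L : Ix → V} (hL : GF.IsLor L) (g : 𝓢(Mink, ℂ)) :
    simS 1 one_pos hL 0 g = compLam hL g := by
  ext x
  rw [simS_apply, compLam_apply]
  congr 1
  ext n
  simp only [sim, Pi.zero_apply, one_mul, zero_add, lam_apply]

lemma simS_scale {s : ℝ} (hs : 0 < s) (g : 𝓢(Mink, ℂ)) :
    simS s hs isLor_one 0 g = scaleS s hs.ne' g := by
  ext x
  rw [simS_apply, scaleS_apply]
  congr 1
  ext n
  simp only [sim, Pi.zero_apply, one, bas, mul_ite, mul_one, mul_zero, Finset.sum_ite_eq, Finset.mem_univ, ↓reduceIte, zero_add, PiLp.smul_apply, smul_eq_mul]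

lemma PField.kap_tauS (hA : PField Q T A d) (a : Mink) (g : 𝓢(Mink, ℂ)) :
    A (fl (tauS a g)) Q.vac = Q.U 1 one a.ofLp (A (fl g) Q.vac) := by
  rw [hA.cov_vac 1 one_pos isLor_one a.ofLp (tauS a g), simS_tauS]
  simp only [Real.one_rpow, ofReal_one, one_smul]

lemma PField.exists_sym (hA : PField Q T A d) : ∃ μ : Measure Mink, SymMeasure μ d ∧
    ∀ f g, inner ℂ (A (fl f) Q.vac) (A (fl g) Q.vac) = ∫ p, conj (mft f p) * mft g p ∂μ := by
  choose ν hfin hcone hν using fun g : 𝓢(Mink, ℂ) => spec_meas Q (A (fl g) Q.vac)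
  have S : SpecData (fun g => hA.kap g) ν := by
    refine ⟨?_, hfin, hcone, ?_, ?_⟩
    · intro g k c hc
      exact ⟨conv_integrable hA.kap g k, conv_identity hA.kap g k c hc⟩
    · intro g a
      rw [hA.inner_kap, hA.kap_tauS, hν]
    · intro f g a
      rw [hA.inner_kap, hA.inner_kap, hA.kap_tauS, hA.kap_tauS,
        Q.U_inner _ _ _ _ _ one_pos isLor_one]
  obtain ⟨μ, hμ, hd⟩ := S.sym (d := d)
    (fun L hL f g => by
      rw [hA.inner_kap, hA.inner_kap, hA.cov_vac 1 one_pos hL 0 f, hA.cov_vac 1 one_pos hL 0 g,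
        simS_lam, simS_lam]
      simp only [Real.one_rpow, ofReal_one, one_smul]
      rw [Q.U_inner _ _ _ _ _ one_pos hL])
    (fun s hs f g => by
      rw [hA.inner_kap, hA.inner_kap, hA.cov_vac s hs isLor_one 0 f,
        hA.cov_vac s hs isLor_one 0 g, simS_scale, simS_scale, inner_smul_left, inner_smul_right,
        conj_ofReal, Q.U_inner _ _ _ _ _ hs isLor_one]
      push_cast
      ring)
  refine ⟨μ, hμ, fun f g => ?_⟩
  have S' : SpecData (fun g => (hA.kap : 𝓢(Mink, ℂ) →ₗ[ℂ] UniformSpace.Completion D) g) ν := S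
  rw [← hA.inner_kap]
  exact S'.two hμ.temp hd f g

/-- the family of cutoff functions -/
noncomputable def cutF (R : ℝ) : Fn := if h : R ≠ 0 then fl (F1 R h) else 0

lemma isCutoff_cutF : GF.IsCutoff cutF := by
  refine ⟨alphaC.f, fun x => etaC.f (x 0) * etaC.f (x 1) * etaC.f (x 2) * etaC.f (x 3),
    alphaC.cpt, ?_, integral_alphaC, ?_, fun R hR => ⟨?_, fun x => ?_⟩⟩
  · have hK : IsCompact (Set.univ.pi fun _ : Fin 4 => tsupport etaC.f) :=
      isCompact_univ_pi fun _ => etaC.cpt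
    apply HasCompactSupport.intro hK
    intro x hx
    have hx' : ∃ j, x j ∉ tsupport etaC.f := by
      by_contra hcon
      push Not at hcon
      exact hx fun j _ => hcon j
    obtain ⟨j, hj⟩ := hx'
    have := image_eq_zero_of_notMem_tsupport hj
    fin_cases j <;> (clear * - this; simp_all)
  · have h : ∀ᶠ x : V in 𝓝 0, ∀ j, |x j| < 3 := by
      rw [eventually_all]
      intro j
      have hc : Continuous fun x : V => |x j| := by fun_prop
      have := hc.tendsto 0
      simp only [Pi.zero_apply, abs_zero] at this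
      exact this.eventually (gt_mem_nhds (by norm_num))
    filter_upwards [h] with x hx
    simp [etaC_one (hx 0).le, etaC_one (hx 1).le, etaC_one (hx 2).le, etaC_one (hx 3).le]
  · simp only [cutF, dif_pos hR.ne']
    exact isTest_fl _
  · simp only [cutF, dif_pos hR.ne', fl_apply, F1, prodS_apply]
    rw [← ofReal_mul]
    congr 1
    have h0 : etaC.f 0 = 1 := etaC_one (by simp only [abs_zero, Nat.ofNat_nonneg])
    simp only [prodF, tup, etaR, CS.scale, Fin.isValue, Matrix.cons_val_zero, Matrix.cons_val_one,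
      Matrix.cons_val, o, ↓reduceIte, h0, one_ne_zero, div_eq_inv_mul, one_mul, Fin.reduceEq]
    ring

/-- The commutator functional. -/
noncomputable def Cmm (hT : Q.IsStress T) (hA : PField Q T A d) (g : 𝓢(Mink, ℂ)) (ν : Fin 4) :
    𝓢(Mink, ℂ) →+ D where
  toFun F := stOp hT ν F (hA.op g Q.vac) - hA.op g (stOp hT ν F Q.vac)
  map_zero' := by simp only [map_zero, LinearMap.zero_apply, sub_self]
  map_add' F F' := by
    simp only [map_add, LinearMap.add_apply]
    abel

lemma spSep_symm {f g : 𝓢(Mink, ℂ)} (h : SpSep f g) : SpSep g f := by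
  intro x hx y hy
  have := h y hy x hx
  simp only [mdot, PiLp.sub_apply] at this ⊢
  linarith only [this]

lemma bridge_loc (hT : Q.IsStress T) (hA : PField Q T A d) (ν : Fin 4) (F g : 𝓢(Mink, ℂ))
    (h : SpSep F g) (ψ : D) :
    stOp hT ν F (hA.op g ψ) = hA.op g (stOp hT ν F ψ) := by
  rw [stOp_apply, hA.op_apply, hA.op_apply, stOp_apply]
  exact (hA.loc _ _ _ _ (Q.bose_fld _ (hT.bose ν o)) (spSep_symm h)).symm

lemma bridge_charge (hT : Q.IsStress T) (hA : PField Q T A d) (g : 𝓢(Mink, ℂ))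
    (hg : HasCompactSupport g) : ∃ R0 : ℝ, ∀ R (h0 : R ≠ 0), R0 ≤ R →
    stOp hT 0 (F1 R h0) (hA.op g Q.vac) - hA.op g (stOp hT 0 (F1 R h0) Q.vac) =
      hA.op (I • (∂_{eb 0} g : 𝓢(Mink, ℂ))) Q.vac := by
  obtain ⟨r, hr0, hr⟩ := exists_ball g hg
  set c := 2 * r + 1 with hc
  have hout : OutZero (Cmm hT hA g) c := by
    intro ν F i hi σ hσ _ hF
    change stOp hT ν F (hA.op g Q.vac) - hA.op g (stOp hT ν F Q.vac) = 0
    rw [bridge_loc hT hA ν F g (CoreData.spSep_of_out hi hσ hF hr (by linarith only [])), sub_self]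
  refine ⟨max 1 c, fun R h0 hR => ?_⟩
  have hR1 : 1 ≤ R := (le_max_left _ _).trans hR
  have hR2 : c ≤ 2 * R := by
    have : c ≤ R := (le_max_right _ _).trans hR
    linarith only [hr0, this]
  refine ext_inner_left ℂ fun w => ?_
  have h1 := hA.charge cutF g Q.vac w isCutoff_cutF hg
  have h2 : Tendsto (fun R' => inner ℂ w (T o o (cutF R') (A (fl g) Q.vac) -
      A (fl g) (T o o (cutF R') Q.vac))) atTop
      (𝓝 (inner ℂ w (stOp hT 0 (F1 R h0) (hA.op g Q.vac) -
        hA.op g (stOp hT 0 (F1 R h0) Q.vac)))) := by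
    refine tendsto_const_nhds.congr' ?_
    filter_upwards [eventually_ge_atTop (max 1 c)] with R' hR'
    have hR1' : 1 ≤ R' := (le_max_left _ _).trans hR'
    have hR2' : c ≤ 2 * R' := by
      have : c ≤ R' := (le_max_right _ _).trans hR'
      linarith only [hr0, this]
    have h0' : R' ≠ 0 := by (clear * - hR1'; positivity)
    have h3 := cut_space hout hR1 hR2 hR1' hR2'
    simp only [cutF, dif_pos h0']
    exact congrArg (inner ℂ w) h3
  rw [tendsto_nhds_unique h2 h1, map_smul]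
  rfl

lemma scale_FR {R : ℝ} (hR : 0 < R) :
    simS R hR isLor_one 0 (FR R hR.ne') = ((R⁻¹ : ℝ) : ℂ) • FR 1 one_ne_zero := by
  rw [simS_scale]
  ext x
  simp only [scaleS_apply, FR, prodS_apply, smul_apply, smul_eq_mul]
  rw [← ofReal_mul]
  congr 1
  simp only [prodF, tup, alphaR, CS.cmul, CS.scale, etaR, Fin.isValue, Matrix.cons_val_zero,
    PiLp.smul_apply, smul_eq_mul, inv_mul_cancel_left₀ hR.ne', Matrix.cons_val_one,
    Matrix.cons_val, inv_one, one_mul]
  ring

lemma bridge_scal (hT : Q.IsStress T) : ∃ C : ℝ, ∀ R (h0 : R ≠ 0), 1 ≤ R →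
    ‖stOp hT 0 (FR R h0) Q.vac‖ ≤ C / R := by
  refine ⟨‖stOp hT 0 (FR 1 one_ne_zero) Q.vac‖, fun R h0 hR1 => ?_⟩
  have hR : 0 < R := by linarith only [hR1]
  have h1 := hT.cov o o R one 0 (fl (FR R h0)) Q.vac hR isLor_one (isTest_fl _)
  rw [Q.U_vac _ _ _ hR isLor_one, fl_sim R hR isLor_one, scale_FR hR] at h1
  have h2 : T o o (fl (FR R h0)) Q.vac = Q.U R one 0
      (T o o (fl (((R⁻¹ : ℝ) : ℂ) • FR 1 one_ne_zero)) Q.vac) := by
    rw [h1]
    simp only [one, bas]
    rw [Finset.sum_eq_single o]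
    · rw [Finset.sum_eq_single o]
      · simp only [↓reduceIte, ofReal_one, mul_one, ofReal_inv, one_smul]
      · intro l _ hl
        simp only [↓reduceIte, ofReal_one, hl.symm, ofReal_zero, mul_zero, ofReal_inv, zero_smul]
      · simp
    · intro k _ hk
      refine Finset.sum_eq_zero fun l _ => ?_
      simp only [hk.symm, ↓reduceIte, ofReal_zero, zero_mul, ofReal_inv, zero_smul]
    · simp
  have h3 : stOp hT 0 (FR R h0) Q.vac =
      Q.U R one 0 (((R⁻¹ : ℝ) : ℂ) • stOp hT 0 (FR 1 one_ne_zero) Q.vac) := by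
    rw [← LinearMap.smul_apply, ← map_smul]
    exact h2
  have h4 : ∀ v, ‖Q.U R one 0 v‖ = ‖v‖ := by
    intro v
    have h5 := Q.U_inner R one 0 v v hR isLor_one
    rw [inner_self_eq_norm_sq_to_K, inner_self_eq_norm_sq_to_K] at h5
    have h6 : ‖Q.U R one 0 v‖ ^ 2 = ‖v‖ ^ 2 := by exact_mod_cast h5
    exact (pow_left_inj₀ (norm_nonneg _) (norm_nonneg _) (by norm_num)).1 h6
  rw [h3, h4, norm_smul, norm_real, Real.norm_eq_abs, abs_inv, abs_of_pos hR, div_eq_inv_mul]

/-- A generalized free scalar field of dimension greater than one annihilates the vacuum. -/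
theorem PField.vac_zero (hT : Q.IsStress T) (hA : PField Q T A d) (hd : 1 < d)
    (h4 : Q.Free4 A) (f : 𝓢(Mink, ℂ)) : A (fl f) Q.vac = 0 := by
  obtain ⟨μ, hμ, htwo⟩ := hA.exists_sym
  have G : CoreData Q.vac hA.op μ (stOp hT) := by
    refine ⟨⟨hμ.good, Q.norm_vac, htwo, hA.herm, fun f1 f2 f3 f4 =>
      h4 _ _ _ _ (isTest_fl f1) (isTest_fl f2) (isTest_fl f3) (isTest_fl f4)⟩,
      ?_, ?_, bridge_loc hT hA, bridge_charge hT hA, bridge_scal hT, wed hμ, hμ.null hd⟩
    · intro ν f ψ χ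
      rw [stOp_apply, stOp_apply, hT.herm _ _ _ _ _ (isTest_fl f), bar_fl]
    · intro F ψ
      have := hT.conserved o (fl F) ψ (isTest_fl F)
      simp only [pd_fl] at this
      exact this
  exact G.vac_zero f

/-- A generalized free scalar field of dimension greater than one vanishes. -/
theorem PField.zero (hT : Q.IsStress T) (hA : PField Q T A d) (hd : 1 < d)
    (h4 : Q.Free4 A) {f : Fn} (hf : GF.IsTest f) (v : D) : A f v = 0 := by
  obtain ⟨F, rfl⟩ := exists_fl hf
  exact hA.op_zero (hA.vac_zero hT hd h4) F v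

end Vale.Agent.P352
end
end
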